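import Vale.Agent.P146.H295.Conc
import Vale.Agent.P146.H498.LRowSK

set_option linter.all false

/-!
P146, lower half (helper607): composition of the lower row inequality with the heart lemma and the
concentration on a bundle of levels.  Here: the bracket of the row equation at a level `l` where the
overlap of two replicas is concentrated.
-/

open MeasureTheory ProbabilityTheory

namespace Vale.Agent.P146.H607

open Vale.Agent.P157.Lv Vale.Agent.P157.Lv.Sy
open Vale.Agent.P157.Lv.Fld (uu nh_uu mg_eq eg_mg dep_mg sum_mg_sq Ex_mg_mul)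
open Vale.Agent.P146.H295
open Vale.Agent.P146.H498.Row (brk tau E4)

variable {ι X : Type} [Fintype ι] [DecidableEq ι] [Fintype X] [DecidableEq X] [Nonempty X]
  {S : Sy ι X} {D : ι → (ι → ℝ) → X → ℝ} {N : ℕ}
  {φ : X → Fin N → ℝ} {zc : ℕ → Fin N → ι} {s : ℕ → ℝ} {P : ℕ → Prop}

/-- `Θ_l` is nondecreasing -/
lemma Th_mono (F : FldP S D φ zc s P) {l k : ℕ} (hlk : l ≤ k) (hk : k ≤ S.K) :
    Th S φ l ≤ Th S φ k := by
  have hS := F.hreg
  have hN := F.N_pos
  have hl := hlk.trans hk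
  have e1 := q2_pair F hl
  have e2 := q2_pair F hk
  have h : S.Ex (fun z _ => q2 S φ l z) ≤ S.Ex (fun z _ => q2 S φ k z) := by
    have h1 : ∀ a b, S.Ex (fun z _ => A2 S φ l a b z ^ 2) ≤ S.Ex (fun z _ => A2 S φ k a b z ^ 2) := by
      intro a b
      have e : ∀ z, A2 S φ l a b z = S.T l (fun z _ => A2 S φ k a b z) z := fun z =>
        (hS.T_T hlk hk (Nh.snd fun x => φ x a * φ x b) z).symm
      have h2 : S.Ex (fun z _ => A2 S φ l a b z ^ 2) ≤
          S.Ex (fun z _ => S.T l (fun z _ => A2 S φ k a b z ^ 2) z) := by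
        refine hS.Ex_mono (Nh.fst ((eg_A2 hS hl a b).pow 2))
          (Nh.fst (hS.eg_T hl (Nh.fst ((eg_A2 hS hk a b).pow 2)))) fun z _ => ?_
        rw [e z]
        exact hS.sq_T_le hl (Nh.fst (eg_A2 hS hk a b)) z
      rwa [hS.Ex_T hl (Nh.fst ((eg_A2 hS hk a b).pow 2))] at h2
    unfold q2
    rw [hS.Ex_sum _ fun a _ => Nh.fst (EG.sum _ fun b _ => (eg_A2 hS hl a b).pow 2),
      hS.Ex_sum _ fun a _ => Nh.fst (EG.sum _ fun b _ => (eg_A2 hS hk a b).pow 2)]
    refine Finset.sum_le_sum fun a _ => ?_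
    rw [hS.Ex_sum _ fun b _ => Nh.fst ((eg_A2 hS hl a b).pow 2),
      hS.Ex_sum _ fun b _ => Nh.fst ((eg_A2 hS hk a b).pow 2)]
    exact Finset.sum_le_sum fun b _ => h1 a b
  rw [e1, e2] at h
  exact le_of_mul_le_mul_left h (by positivity)

/-- the overlaps increase -/
lemma Rl_mono (F : FldP S D φ zc s P) {l k : ℕ} (hlk : l ≤ k) (hk : k ≤ S.K) :
    S.Rl φ l ≤ S.Rl φ k := by
  have hS := F.hreg
  have hN := F.N_pos
  induction k, hlk using Nat.le_induction with
  | base => exact le_rfl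
  | succ k hlk ih =>
    refine (ih (by omega)).trans ?_
    have h := F.Rl_sub (l := k) (by omega)
    have h1 : 0 ≤ S.Ex (fun z _ => ∑ i, (S.mg φ (k + 1) i z - S.mg φ k i z) ^ 2) := by
      rw [← hS.Ex_const 0]
      refine hS.Ex_mono (Nh.fst (EG.const 0)) (Nh.fst (EG.sum _ fun i _ =>
        ((eg_mg hS (show k + 1 ≤ S.K by omega) i).sub (eg_mg hS (show k ≤ S.K by omega) i)).pow 2))
        fun z _ => Finset.sum_nonneg fun i _ => sq_nonneg _
    have h2 : 0 ≤ 1 / (N : ℝ) * S.Ex (fun z _ => ∑ i, (S.mg φ (k + 1) i z - S.mg φ k i z) ^ 2) := by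
      positivity
    linarith

/-- the three replica average -/
lemma tau_le (F : FldP S D φ zc s P) {k l : ℕ} (hkl : k ≤ l) (hl : l ≤ S.K) :
    tau S φ k l ≤ Th S φ k := by
  have hS := F.hreg
  have hN := F.N_pos
  have hk := hkl.trans hl
  have h := F.three_le_two hkl hl
  refine le_trans (le_of_eq ?_) h
  unfold tau
  have em : ∀ a, EG (S.mg φ l a) := fun a => eg_mg hS hl a
  have e2 : ∀ a b, EG (S.T k (fun _ x => φ x a * φ x b)) := fun a b =>
    hS.eg_T hk (Nh.snd fun x => φ x a * φ x b)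
  have e3 : ∀ a b, EG (S.T k (fun z _ => S.mg φ l a z * S.mg φ l b z)) := fun a b =>
    hS.eg_T hk (Nh.fst ((em a).mul (em b)))
  rw [hS.Ex_sum _ fun a _ => Nh.fst (EG.sum _ fun b _ => (e2 a b).mul (e3 a b))]
  simp only [one_div]
  congr 1
  refine Finset.sum_congr rfl fun a _ => ?_
  rw [hS.Ex_sum _ fun b _ => Nh.fst ((e2 a b).mul (e3 a b))]
  refine Finset.sum_congr rfl fun b _ => ?_
  have h1 := hS.Ex_mul_T hk (S.dep_T k (fun _ x => φ x a * φ x b)) (e2 a b)
    (Nh.fst (X := X) ((em a).mul (em b)))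
  rw [h1]
  unfold E4
  congr 1
  funext z x
  ring

/-- the variance of `u_l` is at most the variance of the overlap -/
lemma Cv_le_pair (F : FldP S D φ zc s P) {l : ℕ} (hl : l ≤ S.K) :
    Cv S (uu S φ l) (uu S φ l) ≤ S.pairEx l (fun x x' => (Rov φ x x' - S.Rl φ l) ^ 2) := by
  have hS := F.hreg
  rw [Cv_self_nonneg F (nh_uu hS hl), F.Ex_uu hl]
  have e0 : S.pairEx l (fun x x' => (Rov φ x x' - S.Rl φ l) ^ 2) =
      S.Ex (fun z x => ∑ x', S.pr l z x' * (Rov φ x' x - S.Rl φ l) ^ 2) := by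
    rw [Sy.pairEx]
    have n1 : ∀ x', Nh fun (z : ι → ℝ) (x : X) => S.pr l z x' * (Rov φ x' x - S.Rl φ l) ^ 2 :=
      fun x' => Nh.mul (Nh.fst (hS.eg_pr hl x')) (Nh.snd fun x => (Rov φ x' x - S.Rl φ l) ^ 2)
    rw [hS.Ex_sum _ fun x' _ => n1 x', hS.Ex_sum _ fun x' _ => Nh.fst (EG.sum _ fun x _ =>
      ((hS.eg_pr hl x').mul (hS.eg_pr hl x)).mul (EG.const _))]
    refine Finset.sum_congr rfl fun x' _ => ?_
    have h1 := hS.Ex_mul_T hl (S.dep_T l (fun _ y => if y = x' then (1 : ℝ) else 0))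
      (hS.eg_pr hl x') (Nh.snd (X := X) fun x => (Rov φ x' x - S.Rl φ l) ^ 2)
    have e1 : (fun (z : ι → ℝ) (x : X) => S.pr l z x' * (Rov φ x' x - S.Rl φ l) ^ 2) =
        fun z x => S.T l (fun _ y => if y = x' then (1 : ℝ) else 0) z *
          (Rov φ x' x - S.Rl φ l) ^ 2 := rfl
    rw [e1, ← h1]
    congr 1
    funext z _
    rw [hS.T_pr hl (fun x => (Rov φ x' x - S.Rl φ l) ^ 2)]
    simp only [mul_assoc]
    rw [← Finset.mul_sum]
    rfl
  rw [e0]
  refine hS.Ex_mono (Nh.pow (Nh.sub (nh_uu hS hl) (nh_c _)) 2) (Nh.sum _ fun x' _ =>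
    Nh.mul (Nh.fst (hS.eg_pr hl x')) (Nh.snd fun x => (Rov φ x' x - S.Rl φ l) ^ 2)) fun z x => ?_
  have e1 : uu S φ l z x - S.Rl φ l = ∑ x', S.pr l z x' * (Rov φ x' x - S.Rl φ l) := by
    rw [F.uu_eq hl]
    simp only [mul_sub, Finset.sum_sub_distrib, ← Finset.sum_mul]
    rw [hS.sum_pr hl, one_mul]
  rw [e1]
  exact lvp_sq (fun x' => S.pr l z x') (fun x' => Rov φ x' x - S.Rl φ l)
    (fun x' => hS.pr_nonneg hl z x') (hS.sum_pr hl z)

/-- sums of the weights -/
lemma sum_p_Ico (S : Sy ι X) {a b : ℕ} (h : a ≤ b) :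
    ∑ i ∈ Finset.Ico a b, S.p i = S.m b - S.m a := by
  induction b, h using Nat.le_induction with
  | base => simp
  | succ b hb ih =>
    rw [Finset.sum_Ico_succ_top hb, ih, Sy.p]
    ring

/-- **The bracket of the row equation at a concentrated level.** -/
theorem brk_ge (F : FldP S D φ zc s P) (hinj : ∀ p ≤ S.K, P p → Function.Injective (zc p))
    (hs : ∀ p ≤ S.K, P p → 0 < s p) (hG : GP S φ zc s P) {γ π V : ℝ} {l q : ℕ} (Pl : P l)
    (Pl1 : P (l + 1)) (hγ : gg S φ zc s l l ≤ γ) (hγ1 : gg S φ zc s (l + 1) (l + 1) ≤ γ)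
    (hl1 : 1 ≤ l) (hlq : l < q) (hq : q ≤ S.K) (hπ : 0 < π) (hpl : π ≤ S.p l)
    (hV : Cv S (uu S φ l) (uu S φ l) ≤ V) :
    2 * (1 - ∑ i ∈ Finset.Ico q (S.K + 1), S.p i * S.Rl φ i) * S.Rl φ l -
      (2 * S.m q - S.m l) * (S.Rl φ (q - 1) * S.Rl φ l) -
      (2 * S.m q * V + 4 * γ / π + (S.m l - S.m 1) * Th S φ l) ≤ H498.Row.brk S φ l := by
  have hS := F.hreg
  have hlK : l < S.K := by omega
  have hp0 : ∀ i ≤ S.K, 0 ≤ S.p i := fun i hi => by
    rw [Sy.p]
    linarith [hS.mono i hi]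
  set ρ := S.Rl φ l with hρ
  have hρ0 : 0 ≤ ρ := F.Rl_nonneg hlK.le
  set r := S.Rl φ (q - 1) with hr
  have hρr : ρ ≤ r := Rl_mono F (by omega) (by omega)
  have hV0 : 0 ≤ V := (Cv_nonneg F (nh_uu hS hlK.le)).trans hV
  have g0 : 0 ≤ γ := (H498.Row.gg_nonneg hG hlK.le Pl).trans hγ
  -- the averages
  have hEx : ∀ k, k ≤ S.K → S.Ex (fun z x => uu S φ l z x * uu S φ k z x) =
      Cv S (uu S φ l) (uu S φ k) + ρ * S.Rl φ k := by
    intro k hk
    unfold Cv
    rw [F.Ex_uu hlK.le, F.Ex_uu hk]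
    ring
  -- the levels above `l`
  have h1 : ∑ k ∈ Finset.Ico (l + 1) (S.K + 1), S.p k *
      S.Ex (fun z x => uu S φ l z x * uu S φ k z x) ≤
      ρ * (∑ k ∈ Finset.Ico q (S.K + 1), S.p k * S.Rl φ k) + ρ * ((S.m q - S.m (l + 1)) * r) +
        2 * γ / π := by
    have b1 := H498.Row.heart_le F hinj hs hG hlK Pl Pl1 (hπ.trans_le hpl)
    have b2 : (gg S φ zc s (l + 1) (l + 1) + √(gg S φ zc s l l * gg S φ zc s (l + 1) (l + 1))) /
        S.p l ≤ 2 * γ / π := by
      refine div_le_div₀ (by positivity) ?_ hπ hpl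
      have : √(gg S φ zc s l l * gg S φ zc s (l + 1) (l + 1)) ≤ γ := by
        rw [Real.sqrt_le_left g0, sq]
        exact mul_le_mul hγ hγ1 (H498.Row.gg_nonneg hG hlK Pl1) g0
      linarith
    have b3 := (le_abs_self _).trans (b1.trans b2)
    have e : ∑ k ∈ Finset.Ico (l + 1) (S.K + 1), S.p k *
        S.Ex (fun z x => uu S φ l z x * uu S φ k z x) =
        ∑ k ∈ Finset.Ico (l + 1) (S.K + 1), S.p k * Cv S (uu S φ l) (uu S φ k) +
          ρ * ∑ k ∈ Finset.Ico (l + 1) (S.K + 1), S.p k * S.Rl φ k := by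
      rw [Finset.mul_sum, ← Finset.sum_add_distrib]
      refine Finset.sum_congr rfl fun k hk => ?_
      rw [Finset.mem_Ico] at hk
      rw [hEx k (by omega)]
      ring
    rw [e]
    have a2 : ∑ k ∈ Finset.Ico (l + 1) (S.K + 1), S.p k * S.Rl φ k ≤
        (∑ k ∈ Finset.Ico q (S.K + 1), S.p k * S.Rl φ k) + (S.m q - S.m (l + 1)) * r := by
      rw [← Finset.sum_Ico_consecutive _ (show l + 1 ≤ q by omega) (show q ≤ S.K + 1 by omega),
        add_comm]
      refine add_le_add le_rfl ?_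
      rw [← sum_p_Ico S (show l + 1 ≤ q by omega), Finset.sum_mul]
      refine Finset.sum_le_sum fun k hk => ?_
      rw [Finset.mem_Ico] at hk
      exact mul_le_mul_of_nonneg_left (Rl_mono F (by omega) (by omega)) (hp0 k (by omega))
    have a4 := mul_le_mul_of_nonneg_left a2 hρ0
    rw [mul_add] at a4
    linarith
  -- the levels below `l`
  have h2 : ∑ k ∈ Finset.Ico 1 (S.K + 1), S.p k * tau S φ k l ≤
      (S.m l - S.m 1) * Th S φ l + (1 - S.m l) *
        S.Ex (fun z x => uu S φ l z x * uu S φ l z x) := by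
    rw [← Finset.sum_Ico_consecutive _ (show 1 ≤ l by omega) (show l ≤ S.K + 1 by omega)]
    refine add_le_add ?_ ?_
    · rw [← sum_p_Ico S (show 1 ≤ l by omega), Finset.sum_mul]
      refine Finset.sum_le_sum fun k hk => ?_
      rw [Finset.mem_Ico] at hk
      exact mul_le_mul_of_nonneg_left ((tau_le F (by omega) hlK.le).trans
        (Th_mono F (by omega) hlK.le)) (hp0 k (by omega))
    · rw [← hS.mK, ← sum_p_Ico S (show l ≤ S.K + 1 by omega), Finset.sum_mul]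
      refine Finset.sum_le_sum fun k hk => ?_
      rw [Finset.mem_Ico] at hk
      rw [H498.Row.tau_eq hS hk.1 (by omega)]
  have ht := hEx l hlK.le
  set t := S.Ex (fun z x => uu S φ l z x * uu S φ l z x) with htd
  have hm1 : S.m l ≤ S.m (l + 1) := hS.mono l hlK.le
  have hmq : S.m (l + 1) ≤ S.m q := hS.m_mono (by omega) (by omega)
  have hml : 0 < S.m l := hS.m_pos hl1 (by omega)
  have hmq1 : S.m (l + 1) ≤ 1 := hS.m_le_one (by omega)
  have h4 : (2 * S.m (l + 1) - S.m l) * t ≤ 2 * S.m q * V +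
      (2 * S.m (l + 1) - S.m l) * (r * ρ) := by
    have c0 : 0 ≤ 2 * S.m (l + 1) - S.m l := by linarith
    have c1 : t ≤ V + r * ρ := by
      have := mul_le_mul_of_nonneg_right hρr hρ0
      linarith
    have c2 := mul_le_mul_of_nonneg_left c1 c0
    have c3 : (2 * S.m (l + 1) - S.m l) * V ≤ 2 * S.m q * V :=
      mul_le_mul_of_nonneg_right (by linarith) hV0
    linarith
  have e : (2 * γ / π) * 2 = 4 * γ / π := by ring
  have hb : H498.Row.brk S φ l = 2 * ρ - 2 * ∑ k ∈ Finset.Ico (l + 1) (S.K + 1), S.p k *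
      S.Ex (fun z x => uu S φ l z x * uu S φ k z x) - (2 * S.m (l + 1) - 1) * t -
      ∑ k ∈ Finset.Ico 1 (S.K + 1), S.p k * tau S φ k l := rfl
  rw [hb]
  linarith

end Vale.Agent.P146.H607
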