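import Vale.Agent.P146.H607.X4
import Vale.Agent.P146.H985.S3
import Vale.Agent.P146.H437.GridN

set_option linter.all false

/-!
P146, lower half (helper607): the plain law of the bundled cross law (instance of helper985's S3).
-/

open MeasureTheory ProbabilityTheory Finset

namespace Vale.Agent.P146.H607

open Vale.Agent.P157.Lv Vale.Agent.P157.Lv.Sy
open Vale.Agent.P146.H93 (Cd st am aSK skS Em linS_sk)
open Vale.Agent.P146.H479
open Vale.Agent.P146.H186 (cSK amp amp_mem)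
open Vale.Agent.P146.H758 (tv tv_Icc rst Ap Ex2 fe_diff)
open Vale.Agent.P146.H560 (mU bU wU psiU em_mU)
open Vale.Agent.P146.H985.S3
open Vale.Agent.P146.U (P1)

variable {n a : ℕ} {β u y v δ e s w T S κ : ℝ} {V : {p // p ∈ PX a} → ℝ}

/-- the plain law -/
noncomputable def fP (n : ℕ) (β κ u s w : ℝ) : ℝ :=
  (skS n 3 (mU κ u (1 + κ)) (bU n β 0 u s) (wU u w)).fe

/-- the main field -/
noncomputable def Wf (a : ℕ) (u w : ℝ) (j : ℕ) : ℝ := if j = 3 * a + 2 then w * u ^ 3 else 0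

/-- the white fields -/
noncomputable def vf (a : ℕ) (V : {p // p ∈ PX a} → ℝ) (j : ℕ) : ℝ :=
  if h : j ∈ PX a then V ⟨j, h⟩ else 0

lemma Wf_nonneg (hu : 0 ≤ u) (hw : 0 ≤ w) (j : ℕ) : 0 ≤ Wf a u w j := by
  unfold Wf
  split_ifs
  · positivity
  · exact le_rfl

lemma vf_nonneg (hV : ∀ p, 0 ≤ V p) (j : ℕ) : 0 ≤ vf a V j := by
  unfold vf
  split_ifs with h
  · exact hV _
  · exact le_rfl

lemma rt_add (a : ℕ) (u w : ℝ) (V : {p // p ∈ PX a} → ℝ) :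
    rt (fun i => Wf a u w i + vf a V i) = amp (wX a u w) (PX a) V := by
  funext j
  unfold rt Wf vf amp wX
  by_cases h : j ∈ PX a
  · have h1 : j ≠ 3 * a + 2 := by
      unfold PX at h
      rw [Finset.mem_Icc] at h
      omega
    show √((if j = 3 * a + 2 then w * u ^ 3 else 0) + if h : j ∈ PX a then V ⟨j, h⟩ else 0) = _
    rw [dif_pos h, dif_pos h, if_neg h1, zero_add]
  · show √((if j = 3 * a + 2 then w * u ^ 3 else 0) + if h : j ∈ PX a then V ⟨j, h⟩ else 0) = _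
    rw [dif_neg h, dif_neg h, add_zero]
    split_ifs
    · rfl
    · exact Real.sqrt_zero

lemma fX_GV : fX n a β u y v δ e s w V = GV n (KX a) (mX a u y v δ) (bX n a β u e s)
    (fun i => Wf a u w i + vf a V i) := by
  unfold GV fX
  rw [rt_add]

lemma tot_Icc (K : ℕ) (f : ℕ → ℝ) : tot K f = ∑ j ∈ Finset.Icc 1 K, f j := by
  unfold tot
  rw [Finset.range_eq_Ico, Finset.sum_Ico_add' (fun j => f j) 0 K 1]
  refine Finset.sum_congr ?_ fun _ _ => rfl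
  ext j
  simp only [Finset.mem_Ico, Finset.mem_Icc]
  omega

lemma tot_vf : tot (KX a) (vf a V) = ∑ p, V p := by
  rw [tot_Icc]
  have hsub : PX a ⊆ Finset.Icc 1 (KX a) := by
    intro j hj
    unfold PX at hj
    rw [Finset.mem_Icc] at hj ⊢
    unfold KX
    omega
  rw [← Finset.sum_subset hsub]
  · rw [← Finset.sum_coe_sort (PX a)]
    refine Finset.sum_congr rfl fun p _ => ?_
    unfold vf
    rw [dif_pos p.2]
  · intro j _ hj
    unfold vf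
    rw [dif_neg hj]

lemma tot_Wf : tot (KX a) (Wf a u w) = w * u ^ 3 := by
  rw [tot_Icc, Finset.sum_eq_single (3 * a + 2)]
  · unfold Wf
    rw [if_pos rfl]
  · intro j _ hj
    unfold Wf
    rw [if_neg hj]
  · intro h
    rw [Finset.mem_Icc] at h
    unfold KX at h
    omega

/-- the three blocks -/
def kB (a l : ℕ) : ℕ := if l = 0 then 0 else if l = 1 then a else 3 * a + 2

lemma blk_kB : Blk (KX a) 3 (kB a) where
  k0 := rfl
  kL := rfl
  mono := fun l hl => by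
    unfold kB
    interval_cases l
    · simp
    · simp
      omega
    · simp

lemma na_bX (hβ : 0 ≤ β) (j : ℕ) : 0 ≤ bX n a β u e s j := by
  unfold bX
  have hc : 0 ≤ β / √(n : ℝ) := by positivity
  split_ifs
  · exact mul_nonneg hc (Real.sqrt_nonneg _)
  · exact mul_nonneg hc (Real.sqrt_nonneg _)
  · exact mul_nonneg hc (Real.sqrt_nonneg _)
  · exact le_rfl

/-- the exponents of the blocks -/
lemma hmeX (hu : 0 < u) (hκ : 0 ≤ κ) (hδ : 0 ≤ δ) (hδ1 : δ ≤ 1 / 100) :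
    ∀ l < 3, ∀ j, kB a l < j → j ≤ kB a (l + 1) →
      |mX a u (51 / 100) (1 + κ) δ j - mU κ u (1 + κ) (l + 1)| ≤
        δ * mU κ u (1 + κ) (l + 1) := by
  intro l hl j h1 h2
  interval_cases l
  · have h1' : 0 < j := h1
    have h2' : j ≤ a := h2
    rw [mX_A h1' h2']
    show |_ - 51 / 100 * u| ≤ δ * (51 / 100 * u)
    have ha' : (0 : ℝ) < a := by exact_mod_cast (by omega : 0 < a)
    have q1 : 0 ≤ (j : ℝ) / a := by positivity
    have q2 : (j : ℝ) / a ≤ 1 := by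
      rw [div_le_one ha']
      exact_mod_cast h2'
    have e1 : u * (51 / 100 * (1 - δ + δ * (j / a))) - 51 / 100 * u =
        -((51 / 100 * u) * (δ * (1 - j / a))) := by ring
    rw [e1, abs_neg, abs_of_nonneg (by
      have : 0 ≤ 1 - (j : ℝ) / a := by linarith
      positivity)]
    have : δ * (1 - j / a) ≤ δ := by nlinarith
    calc 51 / 100 * u * (δ * (1 - j / a)) ≤ 51 / 100 * u * δ :=
          mul_le_mul_of_nonneg_left this (by positivity)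
      _ = _ := by ring
  · have h1' : a < j := h1
    have h2' : j ≤ 3 * a + 2 := h2
    rw [mX_V h1' h2']
    show |_ - (1 + κ) * u| ≤ δ * ((1 + κ) * u)
    have ha' : (0 : ℝ) < 2 * a + 2 := by positivity
    have q0 : (a : ℝ) ≤ j := by exact_mod_cast h1'.le
    have q1 : 0 ≤ ((j : ℝ) - a) / (2 * a + 2) := div_nonneg (by linarith) ha'.le
    have q2 : ((j : ℝ) - a) / (2 * a + 2) ≤ 1 := by
      rw [div_le_one ha']
      have : (j : ℝ) ≤ 3 * a + 2 := by exact_mod_cast h2'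
      linarith
    have e1 : u * ((1 + κ) * (1 - δ + δ * ((j - a) / (2 * a + 2)))) - (1 + κ) * u =
        -(((1 + κ) * u) * (δ * (1 - (j - a) / (2 * a + 2)))) := by ring
    rw [e1, abs_neg, abs_of_nonneg (by
      have : 0 ≤ 1 - ((j : ℝ) - a) / (2 * a + 2) := by linarith
      positivity)]
    have : δ * (1 - (j - a) / (2 * a + 2)) ≤ δ := by nlinarith
    calc (1 + κ) * u * (δ * (1 - (j - a) / (2 * a + 2))) ≤ (1 + κ) * u * δ :=
          mul_le_mul_of_nonneg_left this (by positivity)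
      _ = _ := by ring
  · have h1' : 3 * a + 2 < j := h1
    have h2' : j ≤ 3 * a + 2 := h2
    omega

/-- the bonds of the blocks -/
lemma hbbX (hn : 0 < n) (ha : 1 ≤ a) (he : 0 ≤ e) (hes : e ≤ s) :
    ∀ l < 3, ∑ j ∈ Finset.Ioc (kB a l) (kB a (l + 1)), bX n a β u e s j ^ 2 =
      bU n β 0 u s (l + 1) ^ 2 := by
  have hn' : (0 : ℝ) < n := by exact_mod_cast hn
  have hs : 0 ≤ s := he.trans hes
  intro l hl
  interval_cases l
  · show ∑ j ∈ Finset.Ioc 0 a, bX n a β u e s j ^ 2 = (β / √n * √(1 - s * u ^ 2)) ^ 2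
    rw [Finset.sum_eq_single 1]
    · rw [bX_one]
    · intro j hj hj1
      rw [Finset.mem_Ioc] at hj
      unfold bX
      rw [if_neg hj1, if_neg (by omega), if_neg (by omega)]
      ring
    · intro h
      rw [Finset.mem_Ioc] at h
      omega
  · show ∑ j ∈ Finset.Ioc a (3 * a + 2), bX n a β u e s j ^ 2 =
      (β / √n * √((s - 0) * u ^ 2)) ^ 2
    have hsub : ({2 * a + 1, 3 * a + 2} : Finset ℕ) ⊆ Finset.Ioc a (3 * a + 2) := by
      intro j hj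
      simp only [Finset.mem_insert, Finset.mem_singleton] at hj
      rw [Finset.mem_Ioc]
      omega
    have hss : 0 ≤ (s - 0) * u ^ 2 := mul_nonneg (by linarith) (by positivity)
    rw [← Finset.sum_subset hsub]
    · rw [Finset.sum_insert, Finset.sum_singleton, sq_E ha hes]
      · have hD : bX n a β u e s (2 * a + 1) = β / √n * √(e * u ^ 2) := by
          unfold bX
          rw [if_neg (by omega), if_pos rfl]
        rw [hD, mul_pow, mul_pow, div_pow, Real.sq_sqrt hn'.le,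
          Real.sq_sqrt (by positivity), Real.sq_sqrt hss]
        ring
      · rw [Finset.mem_singleton]
        omega
    · intro j hj hj1
      rw [Finset.mem_Ioc] at hj
      simp only [Finset.mem_insert, Finset.mem_singleton, not_or] at hj1
      unfold bX
      rw [if_neg (by omega), if_neg hj1.1, if_neg hj1.2]
      ring
  · show ∑ j ∈ Finset.Ioc (3 * a + 2) (3 * a + 2), bX n a β u e s j ^ 2 =
      (β / √n * √(0 * u ^ 2)) ^ 2
    rw [Finset.Ioc_self, Finset.sum_empty, zero_mul, Real.sqrt_zero]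
    ring

/-- the fields of the blocks -/
lemma hwwX (hu : 0 < u) (hw : 0 ≤ w) :
    ∀ l < 3, ∑ j ∈ Finset.Ioc (kB a l) (kB a (l + 1)), Wf a u w j = wU u w (l + 1) ^ 2 := by
  intro l hl
  interval_cases l
  · show ∑ j ∈ Finset.Ioc 0 a, Wf a u w j = (0 : ℝ) ^ 2
    rw [zero_pow two_ne_zero]
    refine Finset.sum_eq_zero fun j hj => ?_
    rw [Finset.mem_Ioc] at hj
    unfold Wf
    rw [if_neg (by omega)]
  · show ∑ j ∈ Finset.Ioc a (3 * a + 2), Wf a u w j = √(w * u ^ 3) ^ 2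
    rw [Real.sq_sqrt (by positivity), Finset.sum_eq_single (3 * a + 2)]
    · unfold Wf
      rw [if_pos rfl]
    · intro j _ hj
      unfold Wf
      rw [if_neg hj]
    · intro h
      rw [Finset.mem_Ioc] at h
      omega
  · show ∑ j ∈ Finset.Ioc (3 * a + 2) (3 * a + 2), Wf a u w j = (0 : ℝ) ^ 2
    rw [Finset.Ioc_self, Finset.sum_empty]
    ring

/-- the energies of the plain law -/
lemma plain_D (hn : 0 < n) (hu : 0 < u) (hβ : 0 < β) (hκ : 0 ≤ κ) (hκ1 : κ ≤ 1 / 200)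
    (hδ : 0 ≤ δ) (hδ1 : δ ≤ 1 / 100) (hs0 : 0 ≤ s) (hsu : s * u ^ 2 ≤ 1) (hu4 : 4 * u ≤ 1)
    (hw : w ∈ Set.Icc (0 : ℝ) 1) {A E : ℝ}
    (hA : Ap n β (u * (51 / 100 * (1 - δ))) (4 * u) (8 * u ^ 3) A E) :
    (skS n 3 (ray 3 (1 + 1) (mU κ u (1 + κ))) (bU n β 0 u s) (wU u w)).fe -
      (skS n 3 (mU κ u (1 + κ)) (bU n β 0 u s) (wU u w)).fe ≤ 2 * E := by
  have hn' : (0 : ℝ) < n := by exact_mod_cast hn
  have hu3 : 0 < u ^ 3 := by positivity
  have hκu : (1 + κ) * u ≤ 1 := by nlinarith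
  have he3 : Em 3 (mU κ u (1 + κ)) := em_mU hu (by linarith) le_rfl hκu
  have hss : 0 ≤ (s - 0) * u ^ 2 := mul_nonneg (by linarith) (by positivity)
  have htvb : tv 3 (bU n β 0 u s) = β ^ 2 / n := by
    unfold tv
    rw [Finset.sum_range_succ, Finset.sum_range_succ, Finset.sum_range_succ, Finset.sum_range_zero]
    show 0 + (β / √n * √(1 - s * u ^ 2)) ^ 2 + (β / √n * √((s - 0) * u ^ 2)) ^ 2 +
      (β / √n * √(0 * u ^ 2)) ^ 2 = _
    rw [zero_mul, Real.sqrt_zero, mul_pow, mul_pow, div_pow, Real.sq_sqrt hn'.le,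
      Real.sq_sqrt (by linarith), Real.sq_sqrt hss]
    ring
  have htvw : tv 3 (wU u w) = w * u ^ 3 := by
    unfold tv
    rw [Finset.sum_range_succ, Finset.sum_range_succ, Finset.sum_range_succ, Finset.sum_range_zero]
    show 0 + (0 : ℝ) ^ 2 + √(w * u ^ 3) ^ 2 + 0 ^ 2 = _
    rw [Real.sq_sqrt (mul_nonneg hw.1 hu3.le)]
    ring
  have hy0 : 0 < u * (51 / 100 * (1 - δ)) := by
    have : 0 < 1 - δ := by linarith
    positivity
  have hx1 : Ex2 3 (mU κ u (1 + κ)) (u * (51 / 100 * (1 - δ))) (4 * u) :=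
    ⟨he3, by norm_num, hy0, hu4, by
      show _ ≤ 51 / 100 * u
      nlinarith, by
      show (1 + κ) * u ≤ 4 * u
      nlinarith⟩
  have hray : Em 3 (ray 3 (1 + 1) (mU κ u (1 + κ))) := em_ray he3 (by norm_num) (by
    show (1 + 1) * ((1 + κ) * u) ≤ 1
    nlinarith)
  have hx2 : Ex2 3 (ray 3 (1 + 1) (mU κ u (1 + κ))) (u * (51 / 100 * (1 - δ))) (4 * u) :=
    ⟨hray, by norm_num, hy0, hu4, by
      show _ ≤ (1 + 1) * (51 / 100 * u)
      nlinarith, by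
      show (1 + 1) * ((1 + κ) * u) ≤ 4 * u
      nlinarith⟩
  have hD0 := fe_diff (n := n) (w := wU u w) (w' := wU u w) hA hx1 hx2 hβ.le htvb htvb
    (by rw [htvw]; nlinarith [hw.2]) rfl
  exact (abs_le.1 hD0).2

lemma num_v (hκ : 0 ≤ κ) (hδ : 0 ≤ δ) (hδ1 : δ ≤ 1 / 100) (hκ1 : κ ≤ 1 / 200) :
    51 / 100 ≤ (1 + κ) * (1 - δ) := by nlinarith

lemma num_Y (hu : 0 < u) (hκ1 : κ ≤ 1 / 200) :
    u * (1 + κ) ≤ 4 * u ∧ 2 * (u * (1 + κ)) ≤ 4 * u ∧ u * (1 + κ) ≤ 2 * u := by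
  refine ⟨?_, ?_, ?_⟩ <;> nlinarith

lemma num_m1 (hu : 0 < u) (hκ1 : κ ≤ 1 / 200) (hδ1 : δ ≤ 1 / 100) :
    1 / 2 * u ≤ u * (51 / 100 * (1 - δ)) ∧ u * (1 + κ) ≤ 2 * (u * (51 / 100 * (1 - δ))) := by
  constructor <;> nlinarith

/-- the exponents of the bundled law -/
lemma expX (ha : 1 ≤ a) (hu : 0 < u) (hκ : 0 ≤ κ)
    (hκ1 : κ ≤ 1 / 200) (hδ : 0 ≤ δ) (hδ1 : δ ≤ 1 / 100) (hu4 : 4 * u ≤ 1) :
    Ex2 (KX a) (mX a u (51 / 100) (1 + κ) δ) (u * (51 / 100 * (1 - δ))) (4 * u) ∧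
    2 * mX a u (51 / 100) (1 + κ) δ (KX a) ≤ 4 * u ∧
    mX a u (51 / 100) (1 + κ) δ (KX a) ≤ 2 * u ∧
    1 / 2 * u ≤ mX a u (51 / 100) (1 + κ) δ 1 ∧
    mX a u (51 / 100) (1 + κ) δ 1 ≤ u ∧
    ∀ j, 1 ≤ j → j ≤ KX a → mX a u (51 / 100) (1 + κ) δ j ≤
      2 * mX a u (51 / 100) (1 + κ) δ 1 := by
  obtain ⟨h1, h2, h3⟩ := num_Y hu hκ1
  obtain ⟨h4, h5⟩ := num_m1 hu hκ1 hδ1
  have hex := ex2X (a := a) (u := u) (y := 51 / 100) (v := 1 + κ) (δ := δ) (Y := 4 * u) ha hu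
    (by norm_num) (num_v hκ hδ hδ1 hκ1) hδ (by linarith) h1 hu4
  have hmK : mX a u (51 / 100) (1 + κ) δ (KX a) = u * (1 + κ) := mX_E
  have hm1 : u * (51 / 100 * (1 - δ)) ≤ mX a u (51 / 100) (1 + κ) δ 1 :=
    mX_one_ge ha hu.le (by norm_num) hδ
  have hm1' : mX a u (51 / 100) (1 + κ) δ 1 ≤ u * (51 / 100) :=
    mX_one_le ha hu (by norm_num) hδ
  refine ⟨hex, by rw [hmK]; exact h2, by rw [hmK]; exact h3, h4.trans hm1, by linarith,
    fun j g1 g2 => ?_⟩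
  have h6 : mX a u (51 / 100) (1 + κ) δ j ≤ u * (1 + κ) := by
    rw [← hmK]
    exact H758.em_mono hex.em g2 (by omega)
  linarith

/-- the bonds of the bundled law -/
lemma bdX (hn : 0 < n) (ha : 1 ≤ a) (hu : 0 < u) (hβ : 0 < β) (he : 0 < e) (hes : 2 * e ≤ s)
    (hsu : s * u ^ 2 ≤ 1) :
    tv (KX a) (bX n a β u e s) = β ^ 2 / n ∧ 0 < bX n a β u e s (KX a) ∧
    β ^ 2 * e * u ^ 2 ≤ n * bX n a β u e s (KX a) ^ 2 := by
  have hn' : (0 : ℝ) < n := by exact_mod_cast hn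
  have hbK : bX n a β u e s (KX a) = β / √n * √((s - e) * u ^ 2) := bX_E ha
  have hsn : 0 < √(n : ℝ) := Real.sqrt_pos.2 hn'
  have hse : 0 < (s - e) * u ^ 2 := mul_pos (by linarith) (by positivity)
  have hbsq : bX n a β u e s (KX a) ^ 2 = β ^ 2 * ((s - e) * u ^ 2) / n := sq_E ha (by linarith)
  refine ⟨tv_bX hn ha hsu he.le (by linarith), ?_, ?_⟩
  · rw [hbK]
    exact mul_pos (div_pos hβ hsn) (Real.sqrt_pos.2 hse)
  · rw [hbsq]
    have h1 : (n : ℝ) * (β ^ 2 * ((s - e) * u ^ 2) / n) = β ^ 2 * ((s - e) * u ^ 2) := by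
      field_simp
    rw [h1, mul_assoc]
    refine mul_le_mul_of_nonneg_left ?_ (by positivity)
    exact mul_le_mul_of_nonneg_right (by linarith) (by positivity)

/-- the share of the first level -/
lemma shX {aS x : ℝ} (hn : 0 < n) (hs0 : 0 ≤ s) (hsS : s ≤ S) (hsu : s * u ^ 2 ≤ 1)
    (haS : 4 * S ≤ aS) (hx : 1 / 2 * u ≤ x) (hu : 0 < u) :
    (1 - aS * x ^ 2) * (β ^ 2 / n) ≤ bX n a β u e s 1 ^ 2 := by
  rw [sq_one hn hsu]
  have h1 : (1 / 2 * u) ^ 2 ≤ x ^ 2 := pow_le_pow_left₀ (by positivity) hx 2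
  have h2 : s * u ^ 2 ≤ aS * x ^ 2 := by
    calc s * u ^ 2 = 4 * s * (1 / 2 * u) ^ 2 := by ring
      _ ≤ aS * x ^ 2 := mul_le_mul (by linarith) h1 (by positivity) (by linarith)
  calc (1 - aS * x ^ 2) * (β ^ 2 / n) ≤ (1 - s * u ^ 2) * (β ^ 2 / n) :=
        mul_le_mul_of_nonneg_right (by linarith) (by positivity)
    _ = _ := by ring

/-- the white fields cost nothing -/
lemma fieldX (hn : 2 ≤ n) (ha : 1 ≤ a) (hu : 0 < u) (hβ : 0 < β) (hκ : 0 ≤ κ)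
    (hκ1 : κ ≤ 1 / 200) (hδ : 0 ≤ δ) (hδ1 : δ ≤ 1 / 100) (he : 0 < e) (hes : 2 * e ≤ s)
    (hsS : s ≤ S) (hsu : s * u ^ 2 ≤ 1) (hu4 : 4 * u ≤ 1) {E₀ A c0 κ0 aS : ℝ} (hE₀ : 0 ≤ E₀)
    (hA : Ap n β (u * (51 / 100 * (1 - δ))) (4 * u) (8 * u ^ 3) A (E₀ * (n * u ^ 5)))
    (hE1 : 1 ≤ 4 * E₀ * (n * u ^ 6)) (hn2 : 1 ≤ n * u ^ 2)
    (hV : ∀ p, 0 ≤ V p) (hV1 : ∑ p, V p ≤ κ0 * u ^ 3) (hκ0 : κ0 ≤ 1) (hc0 : 0 ≤ c0)
    (haS : 4 * S ≤ aS) (haS1 : aS * u ^ 2 ≤ 1)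
    (hCG : CG n β (mX a u (51 / 100) (1 + κ) δ 1) aS (∑ p, V p) (c0 * (n * u ^ 5)))
    (hw : w ∈ Set.Icc (0 : ℝ) 1) :
    |GV n (KX a) (mX a u (51 / 100) (1 + κ) δ) (bX n a β u e s)
      (fun i => Wf a u w i + vf a V i) - GV n (KX a) (mX a u (51 / 100) (1 + κ) δ)
      (bX n a β u e s) (Wf a u w) - n / β / 2 * tot (KX a) (vf a V)| ≤
      (c0 + κ0 * (5 + 320 * E₀ / (β ^ 2 * e) + 2 * E₀)) * (n * u ^ 5) := by
  have hn0 : 0 < n := by omega
  obtain ⟨hex, h2m, hm2, hm1h, hm1', hmx⟩ := expX (a := a) ha hu hκ hκ1 hδ hδ1 hu4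
  obtain ⟨htv, hbpos, hτ1⟩ := bdX (n := n) (a := a) hn0 ha hu hβ he hes hsu
  have hs0 : 0 ≤ s := by linarith
  have hS0 : 0 ≤ aS := by linarith
  have ha1 : aS * mX a u (51 / 100) (1 + κ) δ 1 ^ 2 ≤ 1 :=
    (mul_le_mul_of_nonneg_left (pow_le_pow_left₀ hex.em.pos.le hm1' 2) hS0).trans haS1
  have hb1 := shX (β := β) (a := a) (e := e) hn0 hs0 hsS hsu haS hm1h hu
  have hV2 : tot (KX a) (Wf a u w) + tot (KX a) (vf a V) + u ^ 3 ≤ 8 * u ^ 3 := by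
    have hu3 : 0 < u ^ 3 := by positivity
    have h1 : w * u ^ 3 ≤ 1 * u ^ 3 := mul_le_mul_of_nonneg_right hw.2 hu3.le
    have h2 : κ0 * u ^ 3 ≤ 1 * u ^ 3 := mul_le_mul_of_nonneg_right hκ0 hu3.le
    rw [tot_vf, tot_Wf]
    linarith
  have hCG' : CG n β (mX a u (51 / 100) (1 + κ) δ 1) aS (tot (KX a) (vf a V))
      (c0 * (n * u ^ 5)) := by rw [tot_vf]; exact hCG
  have hV1' : tot (KX a) (vf a V) ≤ κ0 * u ^ 3 := by rw [tot_vf]; exact hV1
  have hτ0 : 0 < β ^ 2 * e := by positivity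
  exact s3_field (n := n) (K := KX a) (m := mX a u (51 / 100) (1 + κ) δ)
    (b := bX n a β u e s) (W := Wf a u w) (v := vf a V) (E0 := E₀) (τ := β ^ 2 * e) (κ0 := κ0)
    (c0 := c0) (a := aS) (A := A) (V1 := 8 * u ^ 3) (Y := 4 * u)
    (y := u * (51 / 100 * (1 - δ))) (β := β) (u := u) hn hβ hu hA hex h2m
    (fun j h1 h2 => na_bX hβ.le j) htv hbpos hτ0 hτ1 hE₀ hE1 hn2 hm1h hm2 hmx ha1 hb1 hc0
    (Wf_nonneg hu.le hw.1) (vf_nonneg hV) hCG' hV1' hκ0 hV2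

/-- **The plain law.** -/
theorem closeX (hn : 2 ≤ n) (ha : 1 ≤ a) (hu : 0 < u) (hβ : 0 < β) (hκ : 0 ≤ κ)
    (hκ1 : κ ≤ 1 / 200) (hδ : 0 ≤ δ) (hδ1 : δ ≤ 1 / 100) (he : 0 < e) (hT : 2 * e ≤ T)
    (hS : S * u ^ 2 ≤ 1) (hu4 : 4 * u ≤ 1) {E₀ A c0 κ0 aS : ℝ} (hE₀ : 0 ≤ E₀)
    (hA : Ap n β (u * (51 / 100 * (1 - δ))) (4 * u) (8 * u ^ 3) A (E₀ * (n * u ^ 5)))
    (hE1 : 1 ≤ 4 * E₀ * (n * u ^ 6)) (hn2 : 1 ≤ n * u ^ 2)
    (hV : ∀ p, 0 ≤ V p) (hV1 : ∑ p, V p ≤ κ0 * u ^ 3) (hκ0 : κ0 ≤ 1) (hc0 : 0 ≤ c0)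
    (haS : 4 * S ≤ aS) (haS1 : aS * u ^ 2 ≤ 1)
    (hCG : CG n β (mX a u (51 / 100) (1 + κ) δ 1) aS (∑ p, V p) (c0 * (n * u ^ 5))) :
    Close n a β u (51 / 100) (1 + κ) δ e T S V (fP n β κ u)
      (c0 + κ0 * (5 + 320 * E₀ / (β ^ 2 * e) + 2 * E₀) + δ * (2 * E₀)) := by
  have hn0 : 0 < n := by omega
  have hn' : (0 : ℝ) < n := by exact_mod_cast hn0
  have hv : 51 / 100 ≤ (1 + κ) * (1 - δ) := by nlinarith
  have hδ1' : δ < 1 := by linarith
  have hex := ex2X (a := a) (u := u) (y := 51 / 100) (v := 1 + κ) (δ := δ) (Y := 4 * u) ha hu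
    (by norm_num) hv hδ hδ1' (by nlinarith) hu4
  intro s hs w hw
  have hes : 2 * e ≤ s := hT.trans hs.1
  have hs0 : 0 < s := by linarith
  have hsu : s * u ^ 2 ≤ 1 := (mul_le_mul_of_nonneg_right hs.2 (by positivity)).trans hS
  have hF := fieldX (V := V) (w := w) hn ha hu hβ hκ hκ1 hδ hδ1 he hes hs.2 hsu hu4 hE₀ hA hE1 hn2
    hV hV1 hκ0 hc0 haS haS1 hCG hw
  have hD := plain_D (w := w) hn0 hu hβ hκ hκ1 hδ hδ1 hs0.le hsu hu4 hw hA
  have hκu : (1 + κ) * u ≤ 1 := by nlinarith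
  have hblk := s3_block (n := n) (K := KX a) (L := 3) (k := kB a)
    (m := mX a u (51 / 100) (1 + κ) δ) (e := mU κ u (1 + κ)) (b := bX n a β u e s)
    (b' := bU n β 0 u s) (w' := wU u w) (W := Wf a u w) (v := vf a V) (δ := δ) (Δ := 1) (β := β)
    (em_mU hu (by linarith) le_rfl hκu) blk_kB hex.em hex.K1 hδ hδ1' one_pos (by linarith)
    (by
      show (1 + 1) * ((1 + κ) * u) ≤ 1
      nlinarith)
    (hmeX hu hκ hδ hδ1)
    (by
      intro l hl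
      have hc : 0 ≤ β / √(n : ℝ) := by positivity
      interval_cases l
      · exact mul_nonneg hc (Real.sqrt_nonneg _)
      · exact mul_nonneg hc (Real.sqrt_nonneg _)
      · exact mul_nonneg hc (Real.sqrt_nonneg _))
    (by
      intro l hl
      interval_cases l
      · exact le_rfl
      · exact Real.sqrt_nonneg _
      · exact le_rfl)
    (hbbX hn0 ha he.le (by linarith)) (Wf_nonneg hu.le hw.1) (hwwX hu hw.1) hF hD
  rw [tot_vf] at hblk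
  rw [fX_GV]
  have e1 : GV n (KX a) (mX a u (51 / 100) (1 + κ) δ) (bX n a β u e s)
      (fun i => Wf a u w i + vf a V i) - (fP n β κ u s w + n / (2 * β) * ∑ p, V p) =
      GV n (KX a) (mX a u (51 / 100) (1 + κ) δ) (bX n a β u e s)
      (fun i => Wf a u w i + vf a V i) - n / β / 2 * ∑ p, V p -
      (skS n 3 (mU κ u (1 + κ)) (bU n β 0 u s) (wU u w)).fe := by
    unfold fP
    have : n / β / 2 = n / (2 * β) := by field_simp
    rw [this]
    ring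
  rw [e1]
  refine hblk.trans (le_of_eq ?_)
  ring

/-- the plain law in the letters of `psiU` -/
lemma psP_psiU {τ : ℝ} (hu : 0 < u) (hκ : 0 ≤ κ) (h1 : (1 + κ) * u ≤ 1) (hs : 0 ≤ s)
    (hτ : 0 ≤ τ) (hτs : τ ≤ s) : psP n β u (P1 n β (51 / 100 * u)) (fP n β κ u) s w =
      psiU n β κ τ u s (1 + κ) w := by
  rw [← H437.psiU_ind (T1 := 0) hu (by linarith) h1 le_rfl hs hτ hτs]
  rfl

end Vale.Agent.P146.H607
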