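import Vale.Agent.P146.H607.X7
import Vale.Agent.P146.H865.Rows

set_option linter.all false

/-!
P146, lower half (helper607): the cross rows at fixed numbers.
-/

open MeasureTheory ProbabilityTheory Finset

namespace Vale.Agent.P146.H607

open Vale.Agent.P157.Lv Vale.Agent.P157.Lv.Sy
open Vale.Agent.P146.H93 (Cd st am aSK skS Em linS_sk)
open Vale.Agent.P146.H479
open Vale.Agent.P146.H295
open Vale.Agent.P146.H186 (cSK amp amp_mem wc)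
open Vale.Agent.P146.H758 (tv tv_Icc rst Ap Ex2 sel_box Pu)
open Vale.Agent.P146.H93.Pnum (CU KU)
open Vale.Agent.P146.H985.S3 (CG)
open Vale.Agent.P146.H560 (psiU)
open Vale.Agent.P146.H865 (Gc Crs)
open Vale.Agent.P146.U (P1)

variable {n a : ℕ} {β u κ δ e s w T S : ℝ} {V : {p // p ∈ PX a} → ℝ}

/-- the variance of the responses, unit scale -/
noncomputable def gX (n : ℕ) (u E₀ κ₂ : ℝ) : ℝ := 128 * E₀ / (κ₂ ^ 2 * (n * u ^ 6))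

/-- **the list of the numbers** (`y = 51/100`, `v = 1 + κ`, total of the white fields `4 κ₁ u³`) -/
structure Cst (n a : ℕ) (β u κ δ e S E₀ C4 dc κ₁ κ₂ π₀ t δ₁ εT η τ₃ ε₁ ε₂ c0 aS d : ℝ) :
    Prop where
  hn : 2 ≤ n
  ha : 3 ≤ a
  hβ : 1 ≤ β
  hu : 0 < u
  hu4 : 4 * u ≤ 1
  hκ : 0 ≤ κ
  hκ1 : κ ≤ 1 / 200
  hδ : 0 ≤ δ
  hδ1 : δ ≤ 1 / 100
  he : 0 < e
  hS : 2 * e ≤ S
  hSu : S * u ^ 2 ≤ 1 / 2
  hE₀ : 1 ≤ E₀
  hC4 : C4 = Q4 E₀ e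
  hC4u : C4 * u ≤ 1
  hdc : 0 < dc
  hdC : dc ≤ C4
  hκ1p : 0 < κ₁
  hκ11 : κ₁ ≤ 1 / 4
  hκ2p : 0 < κ₂
  hκ12 : 12 * a * κ₂ ≤ κ₁
  hnu : 1 ≤ n * u ^ 6
  hsm : 4 * (C4 * u) ^ 2 * (β ^ 2 + 4 * κ₁ * u ^ 3) ≤ 1 / 4
  hκθ : 4 * κ₁ * u ^ 3 + β ^ 2 / n ≤ C4 * u
  hπ : 0 < π₀
  hπ1 : π₀ ≤ δ / (4 * a)
  hπ2 : π₀ ≤ 1 / 4
  hD : 5 * C4 ^ 2 / (a - 2) + 20 * gX n u E₀ κ₂ / π₀ ^ 2 ≤ dc ^ 2
  ht : 0 < t
  ht1 : t ≤ 1
  hδ10 : 0 < δ₁
  hδ11 : δ₁ ≤ 1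
  heT : eX n a β u (1 + κ) δ C4 dc (4 * κ₁) κ₂ (gX n u E₀ κ₂) π₀ t ≤ εT * u ^ 3
  n1 : CK β * (dc * C4 ^ 2 + C4 ^ 4 * u + 4 * κ₁) + 16 * (4 * κ₁) + εT ≤ δ₁
  n2 : dc ^ 2 ≤ δ₁
  n3 : 6 * (C4 ^ 2 * β ^ 2 * e * u ^ 2 + 2 * εT / δ₁) ≤ δ₁
  n4 : 48 * (4 * κ₁) ≤ δ₁
  n5 : 12 * (C4 ^ 2 * β ^ 2 * e * u ^ 2 + 2 * εT / δ₁) < e / 4
  hη : 0 ≤ η
  hη1 : η ≤ 1
  hτ : 0 < τ₃
  hτ1 : τ₃ * u ^ 2 ≤ 1
  herr : errU β (1 + κ) (51 / 100) δ (C4 ^ 2) (gX n u E₀ κ₂) π₀ τ₃ (4 * E₀) n u a ≤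
    η * (κ₁ / (100 * β ^ 2)) / 2
  hε1 : 4 * β * E₀ * u ^ 2 / κ₂ ≤ ε₁
  hε11 : ε₁ ≤ 1 / 4
  hε2 : β * (51 / 100 * δ + η * (2 * (1 + κ))) * C4 + 2 * β * ((1 + κ) * δ * C4) + ε₁ * S +
    2 * S ^ 2 * u ^ 2 ≤ ε₂
  e3 : β ^ 2 / 4 * ((1 + κ) * δ * C4 ^ 2 + (1 + κ) / (n * u ^ 2)) +
    Gc (1 + κ) * (2 * (β * (2 * (1 + κ) - 51 / 100) * C4) * ε₂ + ε₂ ^ 2) ≤ d
  e4 : Gc (1 + κ) * (3 * δ * (1 + CU β (CK β))) + β ^ 2 / 4 * ((1 + κ - 51 / 100) *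
    (KU (CK β) ((1 + κ) * (1 - δ) - 51 / 100) * δ₁ + 6 * (S * u ^ 2) /
      (β * (1 + κ + ((1 + κ) * (1 - δ) - 51 / 100))) ^ 2) + 2 * (1 + κ) * δ * C4 ^ 2) ≤ d
  hc0 : 0 ≤ c0
  eS : 2 * (c0 + 4 * κ₁ * (5 + 320 * E₀ / (β ^ 2 * e) + 2 * E₀) + δ * (2 * E₀)) ≤ d
  haS : 4 * S ≤ aS
  haS1 : aS * u ^ 2 ≤ 1

section cst

variable {E₀ C4 dc κ₁ κ₂ π₀ t δ₁ εT η τ₃ ε₁ ε₂ c0 aS d A : ℝ}

/-- the selected fields -/
structure Sel (n a : ℕ) (β u κ δ e s w : ℝ) (V : {p // p ∈ PX a} → ℝ) (E₀ κ₁ κ₂ ε₁ : ℝ) :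
    Prop where
  tv : tv (KX a) (amp (wX a u w) (PX a) V) ≤ 8 * u ^ 3
  lo : ∀ p, κ₂ * u ^ 3 ≤ V p
  v1 : κ₁ * u ^ 3 ≤ V ⟨1, one_mem a⟩
  v1' : V ⟨1, one_mem a⟩ ≤ 1
  sum : ∑ p, V p ≤ 4 * κ₁ * u ^ 3
  ch : ∀ p : {p // p ∈ PX a}, |β * chX n a β u (51 / 100) (1 + κ) δ e s w V p - 1| ≤ ε₁
  gg : ∀ l, 1 ≤ l → l ≤ 3 * a + 1 → gg (SX n a β u (51 / 100) (1 + κ) δ e s w V) (spn n)
    (zs (KX_pos (a := a))) (amp (wX a u w) (PX a) V) l l ≤ gX n u E₀ κ₂ * u ^ 4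

lemma sum_cX (hu : 0 < u) (ha : 1 ≤ a) (hκ1 : 0 ≤ κ₁) (hκ2 : 0 ≤ κ₂) (h12 : 12 * a * κ₂ ≤ κ₁)
    (hV : ∀ p, |V p - cX a u κ₁ κ₂ p| < κ₂ * u ^ 3) : ∑ p, V p ≤ 4 * κ₁ * u ^ 3 := by
  have hu3 : 0 < u ^ 3 := by positivity
  have h1 : ∀ p : {p // p ∈ PX a}, V p ≤ (if (p : ℕ) = 1 then 2 * κ₁ * u ^ 3 else 0) +
      4 * κ₂ * u ^ 3 := by
    intro p
    have h := (abs_lt.1 (hV p)).2
    unfold cX at h
    have : 0 ≤ κ₂ * u ^ 3 := by positivity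
    split_ifs at h ⊢
    · linarith
    · linarith
  refine (Finset.sum_le_sum fun p _ => h1 p).trans ?_
  rw [Finset.sum_add_distrib, Finset.sum_const, Finset.card_univ, Fintype.card_coe]
  have hcard : (PX a).card = 3 * a + 1 := by unfold PX; simp
  rw [hcard]
  have h2 : ∑ p : {p // p ∈ PX a}, (if (p : ℕ) = 1 then 2 * κ₁ * u ^ 3 else 0) ≤
      2 * κ₁ * u ^ 3 := by
    rw [Finset.sum_coe_sort (PX a) (fun p => if p = 1 then 2 * κ₁ * u ^ 3 else 0),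
      Finset.sum_ite_eq' (PX a) 1]
    split_ifs
    · exact le_rfl
    · positivity
  rw [nsmul_eq_mul]
  push_cast
  have ha' : (1 : ℝ) ≤ a := by exact_mod_cast ha
  have h3 : (3 * (a : ℝ) + 1) * (4 * κ₂ * u ^ 3) ≤ 2 * κ₁ * u ^ 3 := by
    have h4 : (3 * (a : ℝ) + 1) * (4 * κ₂) ≤ 2 * κ₁ := by nlinarith
    calc (3 * (a : ℝ) + 1) * (4 * κ₂ * u ^ 3) = (3 * (a : ℝ) + 1) * (4 * κ₂) * u ^ 3 := by ring
      _ ≤ 2 * κ₁ * u ^ 3 := mul_le_mul_of_nonneg_right h4 hu3.le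
  linarith

/-- **the selection** -/
lemma Cst.sel (N : Cst n a β u κ δ e S E₀ C4 dc κ₁ κ₂ π₀ t δ₁ εT η τ₃ ε₁ ε₂ c0 aS d)
    (hA : Ap n β (u * (51 / 100 * (1 - δ))) (4 * u) (8 * u ^ 3) A (E₀ * (n * u ^ 5)))
    (hs : s ∈ Set.Icc (2 * e) S) (hw : w ∈ Set.Icc (0 : ℝ) 1) :
    ∃ V : {p // p ∈ PX a} → ℝ, Sel n a β u κ δ e s w V E₀ κ₁ κ₂ ε₁ := by
  have hu := N.hu
  have ha := N.ha
  have ha' : (3 : ℝ) ≤ a := by exact_mod_cast ha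
  have hκ2 := N.hκ2p
  have hκ1 := N.hκ1p
  have h12 := N.hκ12
  have hn := N.hn
  have hn' : (0 : ℝ) < n := by exact_mod_cast (by omega : 0 < n)
  have hE₀ := N.hE₀
  have hβ := N.hβ
  have hu3 : 0 < u ^ 3 := by positivity
  have hsu : s * u ^ 2 ≤ 1 := by
    have := mul_le_mul_of_nonneg_right hs.2 (sq_nonneg u)
    have := N.hSu
    linarith
  have hak : 36 * κ₂ ≤ κ₁ := by nlinarith
  have hak2 : (3 * (a : ℝ) + 1) * (5 * κ₂) ≤ 2 * κ₁ := by nlinarith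
  have hE : 0 < E₀ * (n * u ^ 5) := by positivity
  have hu4 := N.hu4
  have hv1 : u * (1 + κ) ≤ 4 * u := by
    have := N.hκ1
    nlinarith
  have he := N.he
  obtain ⟨V, hV, htv, hch, hg⟩ := selX (n := n) (a := a) (V1 := 8 * u ^ 3) (w := w) (s := s)
    (e := e) (κ₁ := κ₁) (κ₂ := κ₂) (by omega) (by omega) hu
    (by norm_num) (num_v N.hκ N.hδ N.hδ1 N.hκ1) N.hδ (by linarith [N.hδ1]) hv1 hu4
    (by linarith) hsu he.le (by linarith [hs.1]) hw.1 hκ2 (by linarith) hE hA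
    (mul_le_mul_of_nonneg_right (by linarith [hw.2, N.hκ11]) hu3.le)
  have hlo : ∀ p, κ₂ * u ^ 3 ≤ V p := by
    intro p
    have h := (abs_lt.1 (hV p)).1
    unfold cX at h
    have h1 : 36 * (κ₂ * u ^ 3) ≤ κ₁ * u ^ 3 := by
      have := mul_le_mul_of_nonneg_right hak hu3.le
      linarith
    have : 0 ≤ κ₂ * u ^ 3 := by positivity
    split_ifs at h
    · linarith
    · linarith
  have hV1 := hV ⟨1, one_mem a⟩
  unfold cX at hV1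
  rw [if_pos rfl] at hV1
  have hV1' := abs_lt.1 hV1
  have hk1 : κ₂ * u ^ 3 ≤ κ₁ * u ^ 3 := mul_le_mul_of_nonneg_right (by linarith) hu3.le
  refine ⟨V, htv, hlo, by linarith [hV1'.1], ?_, sum_cX hu (by omega) hκ1.le hκ2.le h12 hV,
    fun p => (hch p).trans ?_, fun l h1 h2 => (hg l h1 h2).trans ?_⟩
  · have h1 : u ^ 3 ≤ 1 := pow_le_one₀ hu.le (by linarith)
    have h2 : κ₁ * u ^ 3 ≤ 1 / 4 * 1 := mul_le_mul N.hκ11 h1 hu3.le (by norm_num)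
    linarith [hV1'.2]
  · refine le_trans (le_of_eq ?_) N.hε1
    field_simp
  · have hm1 : 1 / 2 * u ≤ mX a u (51 / 100) (1 + κ) δ 1 := by
      refine le_trans ?_ (mX_one_ge (by omega) hu.le (by norm_num) N.hδ)
      exact (num_m1 (κ := κ) hu N.hκ1 N.hδ1).1
    have h1 : 64 * (E₀ * (n * u ^ 5)) / (mX a u (51 / 100) (1 + κ) δ 1 * n ^ 2 *
        (κ₂ * u ^ 3) ^ 2) ≤ 64 * (E₀ * (n * u ^ 5)) / (1 / 2 * u * n ^ 2 *
        (κ₂ * u ^ 3) ^ 2) := by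
      refine div_le_div_of_nonneg_left (by positivity) (by positivity) ?_
      gcongr
    refine h1.trans (le_of_eq ?_)
    unfold gX
    field_simp
    ring

/-- the fourth moments -/
lemma Cst.m4 (N : Cst n a β u κ δ e S E₀ C4 dc κ₁ κ₂ π₀ t δ₁ εT η τ₃ ε₁ ε₂ c0 aS d)
    (hA : Ap n β (u * (51 / 100 * (1 - δ))) (4 * u) (8 * u ^ 3) A (E₀ * (n * u ^ 5)))
    (hs : s ∈ Set.Icc (2 * e) S) (M : Sel n a β u κ δ e s w V E₀ κ₁ κ₂ ε₁) :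
    ∀ l, l ≤ 3 * a + 1 → (SX n a β u (51 / 100) (1 + κ) δ e s w V).pairEx l
      (fun x x' => Rov (spn n) x x' ^ 4) ≤ (C4 * u) ^ 4 := by
  intro l hl
  have hu := N.hu
  have ha := N.ha
  have hκ := N.hκ
  have hκ1 := N.hκ1
  have hδ := N.hδ
  have hδ1 := N.hδ1
  have he := N.he
  have hu4 := N.hu4
  have hsu : s * u ^ 2 ≤ 1 := by
    have := mul_le_mul_of_nonneg_right hs.2 (sq_nonneg u)
    have := N.hSu
    linarith
  have hC : 2 ≤ C4 := by rw [N.hC4]; exact Q4_ge _ _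
  have h := fourX (n := n) (a := a) (V := V) (w := w) (s := s) (e := e) (l := l) N.hn (by omega) hu
    (by norm_num : (0 : ℝ) < 51 / 100) (by linarith) (by norm_num) (num_v hκ hδ hδ1 hκ1) hδ
    (by linarith) (Y := 4 * u) (by nlinarith) (by linarith) hu4 N.hβ hsu he.le he
    (by linarith [hs.1]) N.hE₀ hA M.tv N.hnu (by linarith) (by unfold KX; omega)
  refine h.trans ?_
  rw [← N.hC4, mul_pow]
  refine mul_le_mul_of_nonneg_right ?_ (by positivity)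
  calc C4 = C4 ^ 1 := (pow_one _).symm
    _ ≤ C4 ^ 4 := pow_le_pow_right₀ (by linarith) (by norm_num)

/-- the numbers of the U-side -/
lemma Cst.nm (N : Cst n a β u κ δ e S E₀ C4 dc κ₁ κ₂ π₀ t δ₁ εT η τ₃ ε₁ ε₂ c0 aS d)
    (hA : Ap n β (u * (51 / 100 * (1 - δ))) (4 * u) (8 * u ^ 3) A (E₀ * (n * u ^ 5)))
    (hs : s ∈ Set.Icc (2 * e) S) (M : Sel n a β u κ δ e s w V E₀ κ₁ κ₂ ε₁) :
    Nm n a β u (51 / 100) (1 + κ) δ e s w V C4 dc (4 * κ₁) κ₂ (gX n u E₀ κ₂) π₀ := by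
  have hu := N.hu
  have ha := N.ha
  have hκ := N.hκ
  have hκ1 := N.hκ1
  have hδ := N.hδ
  have hδ1 := N.hδ1
  have he := N.he
  have hu4 := N.hu4
  have hC : 2 ≤ C4 := by rw [N.hC4]; exact Q4_ge _ _
  have hκ2 := N.hκ2p
  have hκ1p := N.hκ1p
  have ha' : (3 : ℝ) ≤ a := by exact_mod_cast ha
  have hE₀ := N.hE₀
  refine ⟨by have := N.hn; omega, ha, hu, by norm_num, ?_, by linarith, hδ, by linarith,
    by nlinarith, N.hβ, he, by linarith [hs.1], ?_, ?_, by linarith, N.hC4u, N.hdc, N.hdC,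
    by linarith, M.sum, N.hsm, N.hκθ, N.m4 hA hs M, N.hπ, ?_, hκ2, M.lo, ?_, M.gg, N.hD⟩
  · nlinarith
  · have := mul_le_mul_of_nonneg_right hs.2 (sq_nonneg u)
    have := N.hSu
    linarith
  · intro p
    have : 0 < κ₂ * u ^ 3 := by positivity
    exact this.trans_le (M.lo p)
  · refine N.hπ1.trans ?_
    rw [div_le_div_iff₀ (by positivity) (by positivity)]
    have h1 : δ * (2 * a + 2) ≤ δ * (4 * a) := mul_le_mul_of_nonneg_left (by linarith) hδ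
    have h2 : δ * (4 * a) ≤ (1 + κ) * δ * (4 * a) := by
      have : 0 ≤ κ * (δ * (4 * a)) := by positivity
      nlinarith
    linarith
  · unfold gX
    have : (0 : ℝ) ≤ n := Nat.cast_nonneg n
    positivity

/-- **(P4) with the errors collected.** -/
lemma Cst.up (N : Cst n a β u κ δ e S E₀ C4 dc κ₁ κ₂ π₀ t δ₁ εT η τ₃ ε₁ ε₂ c0 aS d)
    (hA : Ap n β (u * (51 / 100 * (1 - δ))) (4 * u) (8 * u ^ 3) A (E₀ * (n * u ^ 5)))
    (hs : s ∈ Set.Icc (2 * e) S) (M : Sel n a β u κ δ e s w V E₀ κ₁ κ₂ ε₁) :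
    thX n a β u (51 / 100) (1 + κ) δ e s w V ≤
      (1 + (4 * CU β (CK β) + 3) *
        max (alX n a β u (51 / 100) (1 + κ) δ e s w V - s) 0) *
      (Gc (1 + κ) * (max (alX n a β u (51 / 100) (1 + κ) δ e s w V - s) 0) ^ 2) + d := by
  have Nn := N.nm hA hs M
  have hu := N.hu
  have ha := N.ha
  have hκ := N.hκ
  have hκ1 := N.hκ1
  have hδ := N.hδ
  have hδ1 := N.hδ1
  have hβ := N.hβ
  -- the response at the last level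
  have hχ : 1 / 2 ≤ β * chX n a β u (51 / 100) (1 + κ) δ e s w V (3 * a + 2) := by
    have h1 := (abs_le.1 (M.ch ⟨3 * a + 1, by unfold PX; rw [Finset.mem_Icc]; omega⟩)).1
    have h2 := N.hε11
    have h3 : chX n a β u (51 / 100) (1 + κ) δ e s w V (3 * a + 1) ≤
        chX n a β u (51 / 100) (1 + κ) δ e s w V (3 * a + 2) := by
      unfold chX
      rw [Finset.sum_eq_sum_Ico_succ_bot (show 3 * a + 1 < KX a + 1 by unfold KX; omega)]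
      have h4 := RX_nonneg (β := β) (e := e) (s := s) (w := w) (V := V) Nn.hn Nn.em
        (show 3 * a + 1 ≤ KX a by unfold KX; omega)
      have h5 := Nn.em.mono (3 * a + 1) (by unfold KX; omega)
      have h6 := mul_nonneg (sub_nonneg.2 h5) h4
      rw [show 3 * a + 1 + 1 = 3 * a + 2 by omega] at h6 ⊢
      linarith
    have h4 := mul_le_mul_of_nonneg_left h3 (by linarith : 0 ≤ β)
    have h1' : -ε₁ ≤ β * chX n a β u (51 / 100) (1 + κ) δ e s w V (3 * a + 1) - 1 := h1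
    linarith
  have h := p4X Nn (by linarith) N.ht N.ht1 N.hδ10 N.hδ11 N.heT hχ N.n1 N.n2 N.n3 N.n4 N.n5
  refine h.trans ?_
  have hG : (1 + κ - 51 / 100) / (4 * (2 * (1 + κ) - 51 / 100) ^ 2) = Gc (1 + κ) := rfl
  rw [hG]
  have hg : 0 < 1 + κ + ((1 + κ) * (1 - δ) - 51 / 100) := by
    have := Nn.hyv
    linarith
  have h5 : 6 * (s * u ^ 2) / (β * (1 + κ + ((1 + κ) * (1 - δ) - 51 / 100))) ^ 2 ≤
      6 * (S * u ^ 2) / (β * (1 + κ + ((1 + κ) * (1 - δ) - 51 / 100))) ^ 2 := by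
    have := mul_le_mul_of_nonneg_right hs.2 (sq_nonneg u)
    refine div_le_div_of_nonneg_right (by linarith) ?_
    positivity
  have h6 : (1 + κ - 51 / 100) * (KU (CK β) ((1 + κ) * (1 - δ) - 51 / 100) * δ₁ +
      6 * (s * u ^ 2) / (β * (1 + κ + ((1 + κ) * (1 - δ) - 51 / 100))) ^ 2) ≤
      (1 + κ - 51 / 100) * (KU (CK β) ((1 + κ) * (1 - δ) - 51 / 100) * δ₁ +
      6 * (S * u ^ 2) / (β * (1 + κ + ((1 + κ) * (1 - δ) - 51 / 100))) ^ 2) :=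
    mul_le_mul_of_nonneg_left (by linarith) (by linarith)
  have h7 := mul_le_mul_of_nonneg_left h6 (by positivity : 0 ≤ β ^ 2 / 4)
  have h8 := N.e4
  rw [mul_add (β ^ 2 / 4)] at h8 ⊢
  linarith

/-- **(P3) with the errors collected.** -/
lemma Cst.dn (N : Cst n a β u κ δ e S E₀ C4 dc κ₁ κ₂ π₀ t δ₁ εT η τ₃ ε₁ ε₂ c0 aS d)
    (hA : Ap n β (u * (51 / 100 * (1 - δ))) (4 * u) (8 * u ^ 3) A (E₀ * (n * u ^ 5)))
    (hs : s ∈ Set.Icc (2 * e) S) (M : Sel n a β u κ δ e s w V E₀ κ₁ κ₂ ε₁) :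
    Gc (1 + κ) * (max (alX n a β u (51 / 100) (1 + κ) δ e s w V - s) 0) ^ 2 ≤
      thX n a β u (51 / 100) (1 + κ) δ e s w V + d := by
  have Nn := N.nm hA hs M
  have hu := N.hu
  have ha := N.ha
  have ha' : (3 : ℝ) ≤ a := by exact_mod_cast ha
  have hκ := N.hκ
  have hκ1 := N.hκ1
  have hδ := N.hδ
  have hδ1 := N.hδ1
  have hβ := N.hβ
  have he := N.he
  have hu4 := N.hu4
  have hn := N.hn
  have hC4 := Nn.C40
  have hs0 : 0 ≤ s := by linarith [hs.1]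
  have hsu : s * u ^ 2 ≤ 1 := Nn.hs1
  have hsq : √(C4 ^ 2) = C4 := Real.sqrt_sq hC4.le
  have hε10 : 0 ≤ ε₁ := by
    refine le_trans ?_ N.hε1
    have := N.hE₀
    have := N.hκ2p
    positivity
  have heS := entX (n := n) (a := a) (V := V) (w := w) (s := s) (e := e) Nn.hn (by omega) hu
    (by norm_num : (0 : ℝ) < 51 / 100) (by norm_num) (num_v hκ hδ hδ1 hκ1) hδ (by linarith)
    (Y := 4 * u) (by nlinarith) hu4 (by linarith) (by linarith) hsu he.le Nn.hes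
    (by linarith [N.hE₀]) hA M.tv
  have h := p3X (n := n) (a := a) (V := V) (w := w) (s := s) (e := e) (β := β) (u := u)
    (y := 51 / 100) (v := 1 + κ) (δ := δ) (κ₁ := κ₁) (γ₀ := gX n u E₀ κ₂) (π₀ := π₀)
    (ϑ₀ := C4 ^ 2) (τ := τ₃) (e₀ := 4 * E₀) (ε₁ := ε₁)
    (M := 2 * mX a u (51 / 100) (1 + κ) δ 1) (η := η) (ε₂ := ε₂)
    Nn.hn (by omega) hu (by linarith) (by norm_num) (by linarith) (num_v hκ hδ hδ1 hκ1) hδ
    (by linarith) Nn.hv1 hβ hs0 hsu Nn.hV N.hκ1p M.v1 M.v1' N.hπ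
    (by
      refine N.hπ1.trans ?_
      rw [div_le_div_iff₀ (by positivity) (by positivity)]
      nlinarith [mul_nonneg hδ (by positivity : (0 : ℝ) ≤ a)])
    (by
      refine N.hπ2.trans ?_
      nlinarith)
    Nn.hγ0 (fun l h1 h2 => M.gg l h1 (by omega)) (sq_nonneg C4) Nn.tr.1 N.hτ N.hτ1
    (by linarith [Nn.em.pos]) heS hε10 N.hε11 (M.ch ⟨1, one_mem a⟩)
    (M.ch ⟨a + 1, by unfold PX; rw [Finset.mem_Icc]; omega⟩) N.hη N.hη1 N.herr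
    (by
      rw [hsq]
      refine le_trans ?_ N.hε2
      have h1 : ε₁ * s ≤ ε₁ * S := mul_le_mul_of_nonneg_left hs.2 hε10
      have h2 : 2 * s ^ 2 * u ^ 2 ≤ 2 * S ^ 2 * u ^ 2 := by
        have := pow_le_pow_left₀ hs0 hs.2 2
        have := mul_le_mul_of_nonneg_right this (sq_nonneg u)
        linarith
      linarith)
  rw [hsq] at h
  have h8 := N.e3
  have h9 : (1 + κ - 51 / 100) / (4 * (2 * (1 + κ) - 51 / 100) ^ 2) = Gc (1 + κ) := rfl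
  rw [h9] at h
  linarith

/-- **The cross rows at fixed numbers.** -/
theorem Cst.crs (N : Cst n a β u κ δ e S E₀ C4 dc κ₁ κ₂ π₀ t δ₁ εT η τ₃ ε₁ ε₂ c0 aS d)
    (hA : Ap n β (u * (51 / 100 * (1 - δ))) (4 * u) (8 * u ^ 3) A (E₀ * (n * u ^ 5)))
    (hCG : ∀ V0, 0 ≤ V0 → V0 ≤ 4 * κ₁ * u ^ 3 →
      CG n β (mX a u (51 / 100) (1 + κ) δ 1) aS V0 (c0 * (n * u ^ 5))) :
    Crs β (4 * CU β (CK β) + 3) κ S (2 * e) d (psiU n β κ e u) := by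
  intro s hs w hw
  obtain ⟨V, M⟩ := N.sel hA hs hw
  have Nn := N.nm hA hs M
  have hu := N.hu
  have ha := N.ha
  have hκ := N.hκ
  have hκ1 := N.hκ1
  have hδ := N.hδ
  have hδ1 := N.hδ1
  have hβ := N.hβ
  have hβ0 : 0 < β := by linarith
  have he := N.he
  have hu4 := N.hu4
  have hn := N.hn
  have hκu : (1 + κ) * u ≤ 1 := by linarith [Nn.hv1]
  have hn2 : 1 ≤ (n : ℝ) * u ^ 2 := by
    refine N.hnu.trans ?_
    exact mul_le_mul_of_nonneg_left (pow_le_pow_of_le_one hu.le (by linarith) (by norm_num))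
      (Nat.cast_nonneg n)
  have hSu : S * u ^ 2 ≤ 1 := by
    have := N.hSu
    linarith
  have hclose := closeX (n := n) (a := a) (u := u) (β := β) (κ := κ) (δ := δ) (e := e)
    (T := 2 * e) (S := S) (V := V) (E₀ := E₀) (A := A) (c0 := c0) (κ0 := 4 * κ₁) (aS := aS)
    hn (by omega) hu hβ0 hκ hκ1 hδ hδ1 he le_rfl hSu hu4 (by linarith [N.hE₀]) hA
    (by
      have h1 := N.hnu
      have h2 := N.hE₀
      nlinarith) hn2 (fun p => (Nn.hV p).le) M.sum (by linarith [N.hκ11]) N.hc0 N.haS N.haS1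
    (hCG _ (Finset.sum_nonneg fun p _ => (Nn.hV p).le) M.sum)
  have hv : (51 : ℝ) / 100 ≤ (1 + κ) * (1 - δ) := num_v hκ hδ hδ1 hκ1
  refine ⟨thX n a β u (51 / 100) (1 + κ) δ e s w V, alX n a β u (51 / 100) (1 + κ) δ e s w V,
    ?_, ?_, N.dn hA hs M, N.up hA hs M⟩
  · intro w' hw'
    have h := agP_w (A₀ := P1 n β (51 / 100 * u)) Nn.hn (by omega) hu (by norm_num) hv hδ
      (by linarith) Nn.hv1 hβ0 hclose hs hw w' hw'
    have hs0 : 0 ≤ s := by linarith [hs.1]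
    rw [psP_psiU hu hκ hκu hs0 he.le (by linarith [hs.1]),
      psP_psiU hu hκ hκu hs0 he.le (by linarith [hs.1])] at h
    have := N.eS
    linarith
  · intro s' hs'
    have h := agP_s (A₀ := P1 n β (51 / 100 * u)) Nn.hn (by omega) hu (by norm_num) hv hδ
      (by linarith) Nn.hv1 hβ0 hclose hs hw (by linarith) hSu s' hs'
    have hs0 : 0 ≤ s := by linarith [hs.1]
    have hs0' : 0 ≤ s' := by linarith [hs'.1]
    rw [psP_psiU hu hκ hκu hs0 he.le (by linarith [hs.1]),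
      psP_psiU hu hκ hκu hs0' he.le (by linarith [hs'.1])] at h
    have := N.eS
    linarith

end cst

end Vale.Agent.P146.H607
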