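import Vale.Agent.P146.H607.Fin3
import Vale.Agent.P146.U.Ex3f
import Vale.Agent.P146.U.H393.Ex2M
import Vale.Agent.P146.U.H240.KStar
import Vale.Agent.P146.U.H979.LRhoF
import Vale.Agent.P146.U.LStar
import Vale.Agent.P146.H622.CgfF

/-!
# P146, upper half without logarithms: the assembly
-/

open MeasureTheory ProbabilityTheory Filter Topology

namespace Vale.Agent.P146.U.H607

open Vale.Agent.P146 Vale.Agent.P146.H605 Vale.Agent.P146.H260.V13 Vale.Agent.P146.H260.V14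
open Vale.Agent.P157.Lv Vale.Agent.P146.H425 Vale.Agent.P146.H332 Vale.Agent.P146.H325
open Vale.Agent.P146.R1 Vale.Agent.P146.H946
open Vale.Agent.P146.H196 (meanF sdF)

variable {β : ℝ}

/-- the output of the selection argument in the form of `Fin1` -/
theorem up_of (hβ : 0 ≤ β) (h2 : Ex2Out β) (hL : LStar β) : Up β := by
  obtain ⟨C, n0, hC, h⟩ := ex3 hβ h2 hL
  refine ⟨C, max n0 1, hC, fun n hn x hx hx' => ?_⟩
  have hn1 : 1 ≤ n := (le_max_right _ _).trans hn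
  obtain ⟨hx0, -⟩ := f_x6 hn1 hx
  have h1 := h n ((le_max_left _ _).trans hn) x hx hx'
  rwa [AP.P2_one hx0, AP.P2_self hx0 zero_le_one le_rfl] at h1

/-- **The upper half**: the increments of the functional above the scale `n^(-1/6)`. -/
theorem up (hβ : 1 < β) : Up β := by
  have hβ0 : 0 < β := by linarith
  exact up_of hβ0.le (ex2_of (H240.kstar hβ0) (cgfU hβ))
    (lstar_of_lrho (H979.lrho hβ0))

/-- The moment generating function at all scales. -/
theorem mg (hβ : 1 < β) : ∃ D : ℝ, 1 ≤ D ∧ ∀ n : ℕ, 1 ≤ n → Mg β D n := by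
  obtain ⟨C, hC, h⟩ := vx_all (up hβ) (cgfU hβ)
  exact ⟨C + β ^ 2, by nlinarith, mg_of hC h⟩

/-- **The upper half, all conclusions with one constant.** -/
theorem final {b : ℝ} (hb : 1 < b) :
    ∃ C : ℝ, 0 < C ∧ ∀ n : ℕ, 1 ≤ n →
      Var[freeEnergy n b; disorder n] ≤ C * (n : ℝ) ^ (1 / 3 : ℝ) ∧
      (∀ x : ℝ, x ≤ (n : ℝ) ^ (-(1 / 6) : ℝ) →
        ∫ g, Real.exp (x * (freeEnergy n b g - meanF n b)) ∂(disorder n) ≤
          Real.exp (C * ((n : ℝ) ^ (1 / 3 : ℝ) * x ^ 2))) ∧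
      (∀ x : ℝ, (n : ℝ) ^ (-(1 / 6) : ℝ) ≤ x → x ≤ 1 →
        ∫ g, Real.exp (x * (freeEnergy n b g - meanF n b)) ∂(disorder n) ≤
          Real.exp (C * (n * x ^ 6))) ∧
      (∀ u : ℝ, 0 ≤ u →
        (disorder n).real {g | freeEnergy n b g ≤ meanF n b - u * (n : ℝ) ^ (1 / 6 : ℝ)} ≤
          Real.exp (-(u ^ 2 / C)) ∧
        (disorder n).real {g | meanF n b + u * (n : ℝ) ^ (1 / 6 : ℝ) ≤ freeEnergy n b g} ≤
          Real.exp (-(min (u ^ 2) (u ^ (6 / 5 : ℝ)) / C))) ∧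
      (∀ p : ℝ, 1 ≤ p →
        ∫ g, |freeEnergy n b g - meanF n b| ^ p ∂(disorder n) ≤
          (C * (p ^ (5 / 6 : ℝ) * (n : ℝ) ^ (1 / 6 : ℝ))) ^ p ∧
        ∫ g, (max (meanF n b - freeEnergy n b g) 0) ^ p ∂(disorder n) ≤
          (C * (p ^ (1 / 2 : ℝ) * (n : ℝ) ^ (1 / 6 : ℝ))) ^ p) ∧
      (∀ t : ℝ, 0 ≤ t → t < 1 →
        n * (1 - t) * crossOverlap n b t ≤ C * (n : ℝ) ^ (1 / 3 : ℝ)) := by
  obtain ⟨D, hD, h⟩ := mg hb
  have hb0 : 0 < b := by linarith
  have hD0 : 0 < D := by linarith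
  -- one constant
  obtain ⟨C, hC⟩ : ∃ C, C = 4 * D + 2 * Real.exp D + (2 * D / b ^ 2 + 1) := ⟨_, rfl⟩
  have hE : 0 < Real.exp D := Real.exp_pos _
  have hB : 0 < 2 * D / b ^ 2 + 1 := by positivity
  have hC0 : 0 < C := by rw [hC]; positivity
  have hC1 : D ≤ C := by rw [hC]; linarith
  have hC4 : 4 * D ≤ C := by rw [hC]; linarith
  have hC2 : 2 * Real.exp D ≤ C := by rw [hC]; linarith
  have hC3 : 2 * D / b ^ 2 + 1 ≤ C := by rw [hC]; linarith
  refine ⟨C, hC0, fun n hn => ?_⟩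
  have H := h n hn
  have hnR : (1 : ℝ) ≤ n := by exact_mod_cast hn
  have hn0 : (0 : ℝ) < n := by linarith
  refine ⟨?_, fun x hx => ?_, fun x hx hx1 => ?_, fun u hu => ⟨?_, ?_⟩, fun p hp => ⟨?_, ?_⟩,
    fun t ht ht1 => ?_⟩
  · exact H.var.trans (mul_le_mul_of_nonneg_right hC1 (by positivity))
  · refine (H.small x hx).trans (Real.exp_le_exp.2 ?_)
    rw [mul_assoc]
    exact mul_le_mul_of_nonneg_right hC1 (by positivity)
  · refine (H.mid x hx hx1).trans (Real.exp_le_exp.2 ?_)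
    exact mul_le_mul_of_nonneg_right hC1 (by positivity)
  · refine (H.left hD hn hu).trans (Real.exp_le_exp.2 (neg_le_neg ?_))
    exact div_le_div_of_nonneg_left (by positivity) (by positivity) hC4
  · refine (H.right hD hn hu).trans (Real.exp_le_exp.2 (neg_le_neg ?_))
    exact div_le_div_of_nonneg_left (le_min (by positivity) (by positivity)) (by positivity) hC4
  · refine (H.mom hD hn hp).trans (Real.rpow_le_rpow (by positivity) ?_ (by linarith))
    exact mul_le_mul_of_nonneg_right hC2 (by positivity)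
  · refine (H.mom_left hD hn hp).trans (Real.rpow_le_rpow (by positivity) ?_ (by linarith))
    exact mul_le_mul_of_nonneg_right hC2 (by positivity)
  · refine (H.chaos hD hn hb0 ht ht1).trans ?_
    exact mul_le_mul_of_nonneg_right hC3 (by positivity)

end Vale.Agent.P146.U.H607
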