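import Vale.Agent.P146.H260.V14R
import Vale.Agent.P146.U.AP3

/-!
# P146, upper half without logarithms: from the increments of the functional to the entropy at
all scales
-/

open MeasureTheory ProbabilityTheory Filter Topology

namespace Vale.Agent.P146.U.H607

open Vale.Agent.P146 Vale.Agent.P146.H605 Vale.Agent.P146.H260.V13 Vale.Agent.P146.H260.V14
open Vale.Agent.P157.Lv Vale.Agent.P146.H425 Vale.Agent.P146.H332 Vale.Agent.P146.H325
open Vale.Agent.P146.R1 Vale.Agent.P146.H946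

set_option linter.unusedSectionVars false

variable {n : ℕ} {β x y b C : ℝ}

/-- The output of the selection argument: the increments of `P1` above the scale `n^(-1/6)`. -/
def Up (β : ℝ) : Prop := ∃ C : ℝ, ∃ n0 : ℕ, 0 < C ∧ ∀ n : ℕ, n0 ≤ n → ∀ x : ℝ,
  (n : ℝ) ^ (-(1 / 6) : ℝ) ≤ x → x ≤ (n : ℝ) ^ (-(1 / 10) : ℝ) →
  P1 n β (2 * x) - P1 n β x ≤ C * (n * x ^ 5)

lemma VX_nonneg (hx : 0 < x) : 0 ≤ VX β n x :=
  (variance_nonneg _ _).trans (var_le_VX (β := β) (n := n) hx)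

/-- the entropy and the increments -/
lemma VX_le_incr (hx : 0 < x) (hxb : x < b) : VX β n x ≤ 2 / (b - x) * (P1 n β b - P1 n β x) := by
  have h := tangent (c11_lz (β / √n) (SkS (n := n))) (cv_lz (β / √n) (SkS (n := n))) hx
    (hx.trans hxb)
  unfold VX VK
  have hb : 0 < b - x := by linarith
  rw [div_mul_eq_mul_div, le_div_iff₀ hb]
  have e1 : W x 1 (lz (β / √n) (SkS (n := n))) 0 = P1 n β x := rfl
  have e2 : W b 1 (lz (β / √n) (SkS (n := n))) 0 = P1 n β b := rfl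
  rw [e1, e2] at h
  linarith

/-- the functional and the entropy -/
lemma P1_le_VX (hx : 0 < x) : P1 n β x ≤ mF n β + x / 2 * VX β n x :=
  W_le_mean (c11_lz (β / √n) (SkS (n := n))) (cv_lz (β / √n) (SkS (n := n))) hx

/-- **Dyadic summation.** -/
lemma P1_chain {C : ℝ} (hC : 0 ≤ C) (hn : 0 < (n : ℝ)) {x0 X : ℝ} (hx0 : 0 < x0)
    (h : ∀ x, x0 ≤ x → x ≤ X → P1 n β (2 * x) - P1 n β x ≤ C * (n * x ^ 5)) (k : ℕ) :
    ∀ x, x0 ≤ x → x < 2 * x0 → 2 ^ k * x ≤ X →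
      P1 n β (2 ^ k * x) - mF n β ≤ 2 * C * (n * (2 ^ k * x) ^ 5) := by
  induction k with
  | zero =>
    intro x hx1 hx2 hxX
    rw [pow_zero, one_mul] at hxX ⊢
    have hx : 0 < x := by linarith
    have h1 := P1_le_VX (n := n) (β := β) hx
    have h2 := VX_le_incr (n := n) (β := β) (b := 2 * x) hx (by linarith)
    have h3 := h x hx1 hxX
    have e : 2 * x - x = x := by ring
    rw [e] at h2
    have h4 : x / 2 * VX β n x ≤ x / 2 * (2 / x * (P1 n β (2 * x) - P1 n β x)) :=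
      mul_le_mul_of_nonneg_left h2 (by positivity)
    have e2 : x / 2 * (2 / x * (P1 n β (2 * x) - P1 n β x)) = P1 n β (2 * x) - P1 n β x := by
      field_simp
    rw [e2] at h4
    have h5 : 0 ≤ C * (n * x ^ 5) := by positivity
    linarith
  | succ k ih =>
    intro x hx1 hx2 hxX
    have hx : 0 < x := by linarith
    have hk : (1 : ℝ) ≤ 2 ^ k := one_le_pow₀ (by norm_num)
    have hz : x ≤ 2 ^ k * x := le_mul_of_one_le_left hx.le hk
    have e : (2 : ℝ) ^ (k + 1) * x = 2 * (2 ^ k * x) := by ring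
    rw [e] at hxX ⊢
    have hz0 : 0 < 2 ^ k * x := by positivity
    have h1 := ih x hx1 hx2 (by linarith)
    have h2 := h (2 ^ k * x) (hx1.trans hz) (by linarith)
    obtain ⟨z, hzz⟩ : ∃ z, z = 2 ^ k * x := ⟨_, rfl⟩
    rw [← hzz] at h1 h2 hz0 ⊢
    have h5 : 0 ≤ C * (n * z ^ 5) := by positivity
    have e3 : 2 * C * (n * (2 * z) ^ 5) = 64 * (C * (n * z ^ 5)) := by ring
    rw [e3]
    linarith

/-- every `x ≥ x0` is `2 ^ k x'` with `x' ∈ [x0, 2 x0)` -/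
lemma dyad {x0 x : ℝ} (hx0 : 0 < x0) (hx : x0 ≤ x) :
    ∃ k : ℕ, ∃ x', x0 ≤ x' ∧ x' < 2 * x0 ∧ 2 ^ k * x' = x := by
  have h1 : 1 ≤ x / x0 := by rwa [le_div_iff₀ hx0, one_mul]
  obtain ⟨k, hk1, hk2⟩ := exists_nat_pow_near (y := (2 : ℝ)) h1 (by norm_num)
  refine ⟨k, x / 2 ^ k, ?_, ?_, by field_simp⟩
  · rw [le_div_iff₀ (by positivity)]
    rw [le_div_iff₀ hx0] at hk1
    linarith
  · rw [div_lt_iff₀ (by positivity)]
    rw [div_lt_iff₀ hx0, pow_succ] at hk2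
    linarith

lemma P1_up {C : ℝ} (hC : 0 ≤ C) (hn : 0 < (n : ℝ)) {x0 X : ℝ} (hx0 : 0 < x0)
    (h : ∀ x, x0 ≤ x → x ≤ X → P1 n β (2 * x) - P1 n β x ≤ C * (n * x ^ 5))
    (hx : x0 ≤ x) (hxX : x ≤ X) : P1 n β x - mF n β ≤ 2 * C * (n * x ^ 5) := by
  obtain ⟨k, x', h1, h2, rfl⟩ := dyad hx0 hx
  exact P1_chain hC hn hx0 h k x' h1 h2 hxX

/-- **The entropy at all scales above `n^(-1/6)`.** -/
theorem vx_all (hU : Up β) (hG : CgfU β) : ∃ C : ℝ, 1 ≤ C ∧ ∀ n : ℕ, 1 ≤ n → ∀ y : ℝ,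
    (n : ℝ) ^ (-(1 / 6) : ℝ) ≤ y → VX β n y ≤ C * (n * y ^ 4) := by
  obtain ⟨C1, n1, hC1, h1⟩ := hU
  obtain ⟨C2, K, hC2, hK, n2, h2⟩ := hG
  -- the logarithm
  have hlim : ∀ᶠ n : ℕ in atTop, (n : ℝ) ^ (-(1 / 6) : ℝ) * Real.log n ^ K ≤
      (n : ℝ) ^ (-(1 / 10) : ℝ) := by
    have h1 := (isLittleO_log_rpow_rpow_atTop K (show (0 : ℝ) < 1 / 15 by norm_num)).bound
      (show (0 : ℝ) < 1 by norm_num)
    have h2 := tendsto_natCast_atTop_atTop.eventually h1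
    filter_upwards [h2, eventually_ge_atTop 2] with n h3 hn
    have hnR : (2 : ℝ) ≤ n := by exact_mod_cast hn
    have hn0 : (0 : ℝ) < n := by linarith
    have hlog : 0 ≤ Real.log n := Real.log_nonneg (by linarith)
    rw [Real.norm_of_nonneg (by positivity), Real.norm_of_nonneg (by positivity), one_mul] at h3
    have h4 := mul_le_mul_of_nonneg_left h3
      (Real.rpow_nonneg hn0.le (-(1 / 6) : ℝ))
    refine h4.trans (le_of_eq ?_)
    rw [← Real.rpow_add hn0]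
    norm_num
  obtain ⟨n3, h3⟩ := eventually_atTop.1 hlim
  obtain ⟨N, hN⟩ : ∃ N : ℕ, N = max (max n1 n2) (max n3 2) := ⟨_, rfl⟩
  have hN1 : n1 ≤ N := by rw [hN]; exact (le_max_left _ _).trans (le_max_left _ _)
  have hN2 : n2 ≤ N := by rw [hN]; exact (le_max_right _ _).trans (le_max_left _ _)
  have hN3 : n3 ≤ N := by rw [hN]; exact (le_max_left _ _).trans (le_max_right _ _)
  have hN4 : 2 ≤ N := by rw [hN]; exact (le_max_right _ _).trans (le_max_right _ _)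
  obtain ⟨C, hC⟩ : ∃ C, C = 1 + 64 * (2 * C1 + C2) + 16 * (β ^ 2 / 2) * (N : ℝ) ^ (2 / 3 : ℝ) :=
    ⟨_, rfl⟩
  have hNR : (1 : ℝ) ≤ N := by exact_mod_cast (by omega : 1 ≤ N)
  have hN23 : (1 : ℝ) ≤ (N : ℝ) ^ (2 / 3 : ℝ) := Real.one_le_rpow hNR (by norm_num)
  have hb2 : 0 ≤ β ^ 2 / 2 := by positivity
  have hCβ : 16 * (β ^ 2 / 2) ≤ C := by
    have : 16 * (β ^ 2 / 2) ≤ 16 * (β ^ 2 / 2) * (N : ℝ) ^ (2 / 3 : ℝ) :=
      le_mul_of_one_le_right (by positivity) hN23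
    rw [hC]; linarith
  refine ⟨C, by rw [hC]; nlinarith, fun n hn y hy => ?_⟩
  have hnR : (1 : ℝ) ≤ n := by exact_mod_cast hn
  have hn0 : (0 : ℝ) < n := by linarith
  have hx0 : 0 < (n : ℝ) ^ (-(1 / 6) : ℝ) := Real.rpow_pos_of_pos hn0 _
  have hy0 : 0 < y := hx0.trans_le hy
  have htriv := VX_le_lin (β := β) (n := n) (by omega) hy0
  -- `y ≥ 1 / 2`
  rcases le_or_gt (1 / 2) y with hy2 | hy2
  · refine htriv.trans ?_
    have h4 : (1 / 2 : ℝ) ^ 4 ≤ y ^ 4 := pow_le_pow_left₀ (by norm_num) hy2 4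
    have h5 : 16 * (β ^ 2 / 2) * (n * y ^ 4) ≤ C * (n * y ^ 4) :=
      mul_le_mul_of_nonneg_right hCβ (by positivity)
    have h6 : β ^ 2 / 2 * n * (1 / 2 : ℝ) ^ 4 ≤ β ^ 2 / 2 * n * y ^ 4 :=
      mul_le_mul_of_nonneg_left h4 (by positivity)
    nlinarith
  -- small `n`
  rcases le_or_gt N n with hNn | hNn
  · -- large `n`
    have key : P1 n β (2 * y) - mF n β ≤ (2 * C1 + C2) * (n * (2 * y) ^ 5) := by
      have hz : 0 ≤ n * (2 * y) ^ 5 := by positivity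
      rcases le_or_gt (2 * y) ((n : ℝ) ^ (-(1 / 10) : ℝ)) with h | h
      · have := P1_up (n := n) (β := β) hC1.le hn0 hx0
          (fun x hx hxX => h1 n (hN1.trans hNn) x hx hxX) (x := 2 * y) (by linarith) h
        nlinarith
      · have := h2 n (hN2.trans hNn) (2 * y) ((h3 n (hN3.trans hNn)).trans h.le) (by linarith)
        nlinarith
    have h4 := VX_le_incr (n := n) (β := β) (b := 2 * y) hy0 (by linarith)
    have h5 := mF_le_P1 (n := n) (β := β) hy0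
    have e : 2 * y - y = y := by ring
    rw [e] at h4
    have h6 : 2 / y * (P1 n β (2 * y) - P1 n β y) ≤
        2 / y * ((2 * C1 + C2) * (n * (2 * y) ^ 5)) :=
      mul_le_mul_of_nonneg_left (by linarith) (by positivity)
    have e2 : 2 / y * ((2 * C1 + C2) * (n * (2 * y) ^ 5)) =
        64 * (2 * C1 + C2) * (n * y ^ 4) := by
      field_simp
      ring
    rw [e2] at h6
    refine (h4.trans h6).trans (mul_le_mul_of_nonneg_right ?_ (by positivity))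
    have : 0 ≤ 16 * (β ^ 2 / 2) * (N : ℝ) ^ (2 / 3 : ℝ) := by positivity
    rw [hC]; linarith
  · refine htriv.trans ?_
    have hnN : (n : ℝ) ≤ N := by exact_mod_cast hNn.le
    -- `y ^ 4 ≥ n ^ (-2/3) ≥ N ^ (-2/3)`
    have h4 : ((n : ℝ) ^ (-(1 / 6) : ℝ)) ^ 4 ≤ y ^ 4 := pow_le_pow_left₀ hx0.le hy 4
    have h5 : ((n : ℝ) ^ (-(1 / 6) : ℝ)) ^ 4 = (n : ℝ) ^ (-(2 / 3) : ℝ) := by
      rw [← Real.rpow_natCast, ← Real.rpow_mul hn0.le]
      norm_num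
    have h6 : (N : ℝ) ^ (-(2 / 3) : ℝ) ≤ (n : ℝ) ^ (-(2 / 3) : ℝ) :=
      Real.rpow_le_rpow_of_nonpos hn0 hnN (by norm_num)
    have h7 : (N : ℝ) ^ (2 / 3 : ℝ) * (N : ℝ) ^ (-(2 / 3) : ℝ) = 1 := by
      rw [← Real.rpow_add (by linarith)]
      norm_num
    rw [h5] at h4
    have h8 : 1 ≤ (N : ℝ) ^ (2 / 3 : ℝ) * y ^ 4 := by
      rw [← h7]
      exact mul_le_mul_of_nonneg_left (h6.trans h4) (by positivity)
    have h9 : (β ^ 2 / 2 * n) * 1 ≤ (β ^ 2 / 2 * n) * ((N : ℝ) ^ (2 / 3 : ℝ) * y ^ 4) :=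
      mul_le_mul_of_nonneg_left h8 (by positivity)
    have h10 : 16 * (β ^ 2 / 2) * (N : ℝ) ^ (2 / 3 : ℝ) * (n * y ^ 4) ≤ C * (n * y ^ 4) := by
      refine mul_le_mul_of_nonneg_right ?_ (by positivity)
      rw [hC]; nlinarith
    have h11 : 0 ≤ β ^ 2 / 2 * n * ((N : ℝ) ^ (2 / 3 : ℝ) * y ^ 4) := by positivity
    nlinarith

end Vale.Agent.P146.U.H607
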