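import Vale.Agent.P146.H607.Fin1
import Vale.Agent.P146.H196.UDefs

/-!
# P146, upper half without logarithms: exponential moments, tails, moments and chaos, from the
entropy at all scales
-/

open MeasureTheory ProbabilityTheory Filter Topology

namespace Vale.Agent.P146.U.H607

open Vale.Agent.P146 Vale.Agent.P146.H605 Vale.Agent.P146.H260.V13 Vale.Agent.P146.H260.V14
open Vale.Agent.P146.H196 (meanF sdF)

set_option linter.unusedSectionVars false

variable {n : ℕ} {β x y b C D : ℝ}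

/-- The bounds of the exponential moments, in one place. -/
structure Mg (β D : ℝ) (n : ℕ) : Prop where
  var : Var[freeEnergy n β; disorder n] ≤ D * (n : ℝ) ^ (1 / 3 : ℝ)
  small : ∀ x : ℝ, x ≤ (n : ℝ) ^ (-(1 / 6) : ℝ) →
    ∫ g, Real.exp (x * (freeEnergy n β g - meanF n β)) ∂(disorder n) ≤
      Real.exp (D * (n : ℝ) ^ (1 / 3 : ℝ) * x ^ 2)
  mid : ∀ x : ℝ, (n : ℝ) ^ (-(1 / 6) : ℝ) ≤ x → x ≤ 1 →
    ∫ g, Real.exp (x * (freeEnergy n β g - meanF n β)) ∂(disorder n) ≤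
      Real.exp (D * (n * x ^ 6))
  big : ∀ x : ℝ, 1 ≤ x →
    ∫ g, Real.exp (x * (freeEnergy n β g - meanF n β)) ∂(disorder n) ≤
      Real.exp (D * (n * x ^ 2))

/-- The exponential moments from the entropy. -/
theorem mg_of {C : ℝ} (hC : 1 ≤ C) (h : ∀ n : ℕ, 1 ≤ n → ∀ y : ℝ,
    (n : ℝ) ^ (-(1 / 6) : ℝ) ≤ y → VX β n y ≤ C * (n * y ^ 4)) :
    ∀ n : ℕ, 1 ≤ n → Mg β (C + β ^ 2) n := by
  intro n hn
  have hnR : (1 : ℝ) ≤ n := by exact_mod_cast hn
  have hn0 : (0 : ℝ) < n := by linarith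
  obtain ⟨y, hy⟩ : ∃ y, y = (n : ℝ) ^ (-(1 / 6) : ℝ) := ⟨_, rfl⟩
  have hy0 : 0 < y := by rw [hy]; exact Real.rpow_pos_of_pos hn0 _
  have hyn : n * y ^ 4 = (n : ℝ) ^ (1 / 3 : ℝ) := by
    rw [hy, ← Real.rpow_natCast, ← Real.rpow_mul hn0.le]
    have e : (n : ℝ) * (n : ℝ) ^ (-(1 / 6) * ((4 : ℕ) : ℝ) : ℝ) =
        (n : ℝ) ^ (-(1 / 6) * ((4 : ℕ) : ℝ) + 1 : ℝ) := by
      rw [Real.rpow_add_one hn0.ne', mul_comm]
    rw [e]
    norm_num
  have hV := h n hn y (by rw [hy])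
  rw [hyn] at hV
  have hb2 : 0 ≤ β ^ 2 := sq_nonneg β
  have hp : 0 ≤ (n : ℝ) ^ (1 / 3 : ℝ) := by positivity
  refine ⟨?_, fun x hx => ?_, fun x hx hx1 => ?_, fun x hx => ?_⟩
  · refine (var_le_VX (β := β) (n := n) hy0).trans (hV.trans ?_)
    nlinarith
  · refine (mgf_both hn hy0 (by rw [hy]; exact hx)).trans (Real.exp_le_exp.2 ?_)
    have h1 := mul_le_mul_of_nonneg_left hV (by positivity : 0 ≤ x ^ 2 / 2)
    have h2 : 0 ≤ (n : ℝ) ^ (1 / 3 : ℝ) * x ^ 2 := by positivity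
    have h3 : 0 ≤ β ^ 2 * ((n : ℝ) ^ (1 / 3 : ℝ) * x ^ 2) := by positivity
    have h4 : 0 ≤ C * ((n : ℝ) ^ (1 / 3 : ℝ) * x ^ 2) := by positivity
    nlinarith
  · have hx0 : 0 < x := by rw [← hy] at hx; linarith
    refine (mgf_both hn hx0 le_rfl).trans (Real.exp_le_exp.2 ?_)
    have h1 := mul_le_mul_of_nonneg_left (h n hn x hx) (by positivity : 0 ≤ x ^ 2 / 2)
    have e : x ^ 2 / 2 * (C * (n * x ^ 4)) = C / 2 * (n * x ^ 6) := by ring
    rw [e] at h1
    have h2 : 0 ≤ (n : ℝ) * x ^ 6 := by positivity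
    nlinarith
  · have hx0 : 0 < x := by linarith
    refine (mgf_both hn hx0 le_rfl).trans (Real.exp_le_exp.2 ?_)
    have h1 := mul_le_mul_of_nonneg_left (VX_le_lin (β := β) (n := n) (by omega) hx0)
      (by positivity : 0 ≤ x ^ 2 / 2)
    have e : x ^ 2 / 2 * (β ^ 2 / 2 * n) = β ^ 2 / 4 * (n * x ^ 2) := by ring
    rw [e] at h1
    have h2 : 0 ≤ (n : ℝ) * x ^ 2 := by positivity
    nlinarith [mul_nonneg hb2 h2]

section

variable (hD : 1 ≤ D) (hn : 1 ≤ n) (h : Mg β D n)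

include hD hn h

/-- **The left tail.** -/
theorem Mg.left {u : ℝ} (hu : 0 ≤ u) :
    (disorder n).real {g | freeEnergy n β g ≤ meanF n β - u * (n : ℝ) ^ (1 / 6 : ℝ)} ≤
      Real.exp (-(u ^ 2 / (4 * D))) := by
  have hD0 : 0 < D := by linarith
  have hnR : (1 : ℝ) ≤ n := by exact_mod_cast hn
  have hn0 : (0 : ℝ) < n := by linarith
  obtain ⟨s, hs⟩ : ∃ s, s = (n : ℝ) ^ (1 / 6 : ℝ) := ⟨_, rfl⟩
  have hs0 : 0 < s := by rw [hs]; positivity
  have hs3 : (n : ℝ) ^ (1 / 3 : ℝ) = s ^ 2 := by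
    rw [hs, ← Real.rpow_natCast, ← Real.rpow_mul hn0.le]
    norm_num
  have hx : 0 ≤ u / (2 * D * s) := by positivity
  have h1 := h.small (-(u / (2 * D * s))) ((neg_nonpos.2 hx).trans (by positivity))
  have h2 := R2.H533.chernoff (n := n) (β := β) (x := u / (2 * D * s)) (u := u * s)
    (B := D * s ^ 2 * (-(u / (2 * D * s))) ^ 2) (fun y => int_exp_sk n β y) hx (by
      rw [← hs3]
      refine le_trans (le_of_eq ?_) h1
      congr 1
      funext g
      congr 1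
      have : meanF n β = ∫ h, freeEnergy n β h ∂(disorder n) := rfl
      rw [this]
      ring)
  rw [← hs]
  refine h2.trans (Real.exp_le_exp.2 (le_of_eq ?_))
  field_simp
  ring

/-- **The right tail.** -/
theorem Mg.right {u : ℝ} (hu : 0 ≤ u) :
    (disorder n).real {g | meanF n β + u * (n : ℝ) ^ (1 / 6 : ℝ) ≤ freeEnergy n β g} ≤
      Real.exp (-(min (u ^ 2) (u ^ (6 / 5 : ℝ)) / (4 * D))) := by
  have hD0 : 0 < D := by linarith
  have hnR : (1 : ℝ) ≤ n := by exact_mod_cast hn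
  have hn0 : (0 : ℝ) < n := by linarith
  obtain ⟨s, hs⟩ : ∃ s, s = (n : ℝ) ^ (1 / 6 : ℝ) := ⟨_, rfl⟩
  have hs0 : 0 < s := by rw [hs]; positivity
  have hs1 : 1 ≤ s := by rw [hs]; exact Real.one_le_rpow hnR (by norm_num)
  have hs3 : (n : ℝ) ^ (1 / 3 : ℝ) = s ^ 2 := by
    rw [hs, ← Real.rpow_natCast, ← Real.rpow_mul hn0.le]
    norm_num
  have hs6 : (n : ℝ) = s ^ 6 := by
    rw [hs, ← Real.rpow_natCast, ← Real.rpow_mul hn0.le]
    norm_num
  have hsi : (n : ℝ) ^ (-(1 / 6) : ℝ) = 1 / s := by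
    rw [hs, Real.rpow_neg hn0.le]
    exact (one_div _).symm
  rw [← hs]
  rcases le_or_gt u (2 * D) with hu1 | hu1
  · -- the Gaussian range
    have hx : 0 ≤ u / (2 * D * s) := by positivity
    have h1 := h.small (u / (2 * D * s)) (by
      rw [hsi, div_le_div_iff₀ (by positivity) hs0]
      nlinarith)
    have h2 := chernoff_up (u := u * s) hx h1
    refine h2.trans (Real.exp_le_exp.2 ?_)
    rw [hs3]
    have e : D * s ^ 2 * (u / (2 * D * s)) ^ 2 - u / (2 * D * s) * (u * s) =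
        -(u ^ 2 / (4 * D)) := by
      field_simp
      ring
    rw [e]
    have h3 : min (u ^ 2) (u ^ (6 / 5 : ℝ)) / (4 * D) ≤ u ^ 2 / (4 * D) :=
      div_le_div_of_nonneg_right (min_le_left _ _) (by positivity)
    linarith
  · obtain ⟨v, hv⟩ : ∃ v, v = u / (2 * D) := ⟨_, rfl⟩
    have hv1 : 1 < v := by rw [hv, lt_div_iff₀ (by positivity)]; linarith
    have hv0 : 0 < v := by linarith
    have huv : u = 2 * D * v := by rw [hv]; field_simp
    -- the main bound
    have key : (disorder n).real {g | meanF n β + u * s ≤ freeEnergy n β g} ≤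
        Real.exp (-(D * v ^ (6 / 5 : ℝ))) := by
      obtain ⟨w, hw⟩ : ∃ w, w = v ^ (1 / 5 : ℝ) := ⟨_, rfl⟩
      have hw1 : 1 ≤ w := by rw [hw]; exact Real.one_le_rpow hv1.le (by norm_num)
      have hw0 : 0 < w := by linarith
      have hwv : v = w ^ 5 := by
        rw [hw, ← Real.rpow_natCast, ← Real.rpow_mul hv0.le]
        norm_num
      have hw6 : v ^ (6 / 5 : ℝ) = w ^ 6 := by
        rw [hw, ← Real.rpow_natCast, ← Real.rpow_mul hv0.le]
        norm_num
      rw [hw6]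
      rcases le_or_gt w s with hws | hws
      · have h1 := h.mid (w / s) (by
          rw [hsi]
          exact div_le_div_of_nonneg_right hw1 hs0.le) (by rwa [div_le_one hs0])
        have h2 := chernoff_up (u := u * s) (by positivity) h1
        refine h2.trans (Real.exp_le_exp.2 (le_of_eq ?_))
        rw [huv, hwv, hs6]
        field_simp
        ring
      · have hsw : s ≤ w := hws.le
        have h1 := h.big (w ^ 5 / s ^ 5) (by
          rw [le_div_iff₀ (by positivity), one_mul]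
          exact pow_le_pow_left₀ hs0.le hsw 5)
        have h2 := chernoff_up (u := u * s) (by positivity) h1
        refine h2.trans (Real.exp_le_exp.2 ?_)
        rw [huv, hwv, hs6]
        have e : D * (s ^ 6 * (w ^ 5 / s ^ 5) ^ 2) - w ^ 5 / s ^ 5 * (2 * D * w ^ 5 * s) =
            -(D * (w ^ 6 * (w ^ 4 / s ^ 4))) := by
          field_simp
          ring
        rw [e]
        have h3 : 1 ≤ w ^ 4 / s ^ 4 := by
          rw [le_div_iff₀ (by positivity), one_mul]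
          exact pow_le_pow_left₀ hs0.le hsw 4
        have h4 : w ^ 6 ≤ w ^ 6 * (w ^ 4 / s ^ 4) := le_mul_of_one_le_right (by positivity) h3
        nlinarith
    refine key.trans (Real.exp_le_exp.2 ?_)
    have h1 : min (u ^ 2) (u ^ (6 / 5 : ℝ)) / (4 * D) ≤ u ^ (6 / 5 : ℝ) / (4 * D) :=
      div_le_div_of_nonneg_right (min_le_right _ _) (by positivity)
    have h2 : u ^ (6 / 5 : ℝ) / (4 * D) ≤ D * v ^ (6 / 5 : ℝ) := by
      rw [huv, Real.mul_rpow (by positivity) hv0.le, div_le_iff₀ (by positivity)]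
      have h3 : (2 * D) ^ (6 / 5 : ℝ) ≤ (2 * D) ^ (2 : ℝ) :=
        Real.rpow_le_rpow_of_exponent_le (by linarith) (by norm_num)
      rw [Real.rpow_two] at h3
      have h4 : 0 ≤ v ^ (6 / 5 : ℝ) := by positivity
      nlinarith [mul_le_mul_of_nonneg_right h3 h4]
    linarith

end

end Vale.Agent.P146.U.H607
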