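import Vale.Agent.P146.H607.Fin2

/-!
# P146, upper half without logarithms: the moments and the chaos
-/

open MeasureTheory ProbabilityTheory Filter Topology

namespace Vale.Agent.P146.U.H607

open Vale.Agent.P146 Vale.Agent.P146.H605 Vale.Agent.P146.H260.V13 Vale.Agent.P146.H260.V14
open Vale.Agent.P146.H196 (meanF sdF)

set_option linter.unusedSectionVars false

variable {n : ℕ} {β x y b C D : ℝ}

lemma rpow_le_exp {t x p : ℝ} (ht : 0 ≤ t) (hx : 0 < x) (hp : 0 < p) :
    t ^ p ≤ (p / x) ^ p * Real.exp (x * t - p) := by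
  obtain ⟨s, hs⟩ : ∃ s, s = x * t / p := ⟨_, rfl⟩
  have hs0 : 0 ≤ s := by rw [hs]; positivity
  have e1 : t = p / x * s := by rw [hs]; field_simp
  have h1 : s ≤ Real.exp (s - 1) := by
    have := Real.add_one_le_exp (s - 1)
    linarith
  have h2 : s ^ p ≤ Real.exp (s - 1) ^ p := Real.rpow_le_rpow hs0 h1 hp.le
  have e2 : Real.exp (s - 1) ^ p = Real.exp (x * t - p) := by
    rw [← Real.exp_mul]
    congr 1
    rw [hs]
    field_simp
  rw [e2] at h2
  calc t ^ p = (p / x) ^ p * s ^ p := by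
        rw [← Real.mul_rpow (by positivity) hs0, ← e1]
    _ ≤ _ := mul_le_mul_of_nonneg_left h2 (by positivity)

lemma int_exp_c (n : ℕ) (β x : ℝ) :
    Integrable (fun g => Real.exp (x * (freeEnergy n β g - meanF n β))) (disorder n) := by
  refine ((int_exp_sk n β x).const_mul (Real.exp (-(x * meanF n β)))).congr
    (Filter.Eventually.of_forall fun g => ?_)
  simp only
  rw [← Real.exp_add]
  congr 1
  ring

/-- the moments from the exponential moments at `± x` -/
lemma abs_mom {p B : ℝ} (hp : 1 ≤ p) (hx : 0 < x)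
    (h1 : ∫ g, Real.exp (x * (freeEnergy n β g - meanF n β)) ∂(disorder n) ≤ Real.exp (D * p))
    (h2 : ∫ g, Real.exp (-x * (freeEnergy n β g - meanF n β)) ∂(disorder n) ≤
      Real.exp (D * p)) (hB : p / x ≤ B) :
    ∫ g, |freeEnergy n β g - meanF n β| ^ p ∂(disorder n) ≤ (2 * Real.exp D * B) ^ p := by
  have hp0 : 0 < p := by linarith
  have i1 := int_exp_c n β x
  have i2 := int_exp_c n β (-x)
  have h3 : ∫ g, |freeEnergy n β g - meanF n β| ^ p ∂(disorder n) ≤
      ∫ g, (p / x) ^ p * Real.exp (-p) *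
        (Real.exp (x * (freeEnergy n β g - meanF n β)) +
          Real.exp (-x * (freeEnergy n β g - meanF n β))) ∂(disorder n) := by
    refine integral_mono_of_nonneg (Filter.Eventually.of_forall fun g => by positivity)
      ((i1.add i2).const_mul _) (Filter.Eventually.of_forall fun g => ?_)
    simp only
    have h4 := rpow_le_exp (abs_nonneg (freeEnergy n β g - meanF n β)) hx hp0
    refine h4.trans ?_
    rw [mul_assoc]
    refine mul_le_mul_of_nonneg_left ?_ (by positivity)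
    have h5 : Real.exp (x * |freeEnergy n β g - meanF n β| - p) =
        Real.exp (-p) * Real.exp (x * |freeEnergy n β g - meanF n β|) := by
      rw [← Real.exp_add]
      congr 1
      ring
    rw [h5]
    refine mul_le_mul_of_nonneg_left ?_ (Real.exp_pos _).le
    rcases abs_cases (freeEnergy n β g - meanF n β) with ⟨h6, -⟩ | ⟨h6, -⟩
    · rw [h6]
      linarith [Real.exp_pos (-x * (freeEnergy n β g - meanF n β))]
    · rw [h6, show x * -(freeEnergy n β g - meanF n β) =
        -x * (freeEnergy n β g - meanF n β) by ring]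
      linarith [Real.exp_pos (x * (freeEnergy n β g - meanF n β))]
  rw [integral_const_mul, integral_add i1 i2] at h3
  have h4 : (p / x) ^ p * Real.exp (-p) *
      ((∫ g, Real.exp (x * (freeEnergy n β g - meanF n β)) ∂(disorder n)) +
        ∫ g, Real.exp (-x * (freeEnergy n β g - meanF n β)) ∂(disorder n)) ≤
      (p / x) ^ p * Real.exp (-p) * (2 * Real.exp (D * p)) :=
    mul_le_mul_of_nonneg_left (by linarith) (by positivity)
  refine (h3.trans h4).trans ?_
  have h5 : (p / x) ^ p ≤ B ^ p := Real.rpow_le_rpow (by positivity) hB hp0.le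
  have hB0 : 0 ≤ B := le_trans (by positivity) hB
  have h6 : (2 : ℝ) ≤ 2 ^ p := by
    have := Real.rpow_le_rpow_of_exponent_le (by norm_num : (1 : ℝ) ≤ 2) hp
    rwa [Real.rpow_one] at this
  have h7 : Real.exp (-p) ≤ 1 := Real.exp_le_one_iff.2 (by linarith)
  have e : (2 * Real.exp D * B) ^ p = B ^ p * 1 * (2 ^ p * Real.exp (D * p)) := by
    rw [Real.mul_rpow (by positivity) hB0, Real.mul_rpow (by norm_num) (Real.exp_pos _).le,
      ← Real.exp_mul]
    ring
  rw [e]
  have hBp : 0 ≤ B ^ p := by positivity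
  have hE : 0 < Real.exp (D * p) := Real.exp_pos _
  exact mul_le_mul (mul_le_mul h5 h7 (Real.exp_pos _).le hBp)
    (mul_le_mul_of_nonneg_right h6 hE.le) (by positivity) (by positivity)

section

variable (hD : 1 ≤ D) (hn : 1 ≤ n) (h : Mg β D n)

include hD hn h

/-- **The moments.** -/
theorem Mg.mom {p : ℝ} (hp : 1 ≤ p) :
    ∫ g, |freeEnergy n β g - meanF n β| ^ p ∂(disorder n) ≤
      (2 * Real.exp D * (p ^ (5 / 6 : ℝ) * (n : ℝ) ^ (1 / 6 : ℝ))) ^ p := by
  have hD0 : 0 < D := by linarith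
  have hp0 : 0 < p := by linarith
  have hnR : (1 : ℝ) ≤ n := by exact_mod_cast hn
  have hn0 : (0 : ℝ) < n := by linarith
  obtain ⟨s, hs⟩ : ∃ s, s = (n : ℝ) ^ (1 / 6 : ℝ) := ⟨_, rfl⟩
  obtain ⟨q, hq⟩ : ∃ q, q = p ^ (1 / 6 : ℝ) := ⟨_, rfl⟩
  have hs1 : 1 ≤ s := by rw [hs]; exact Real.one_le_rpow hnR (by norm_num)
  have hs0 : 0 < s := by linarith
  have hq1 : 1 ≤ q := by rw [hq]; exact Real.one_le_rpow hp (by norm_num)
  have hq0 : 0 < q := by linarith
  have hs3 : (n : ℝ) ^ (1 / 3 : ℝ) = s ^ 2 := by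
    rw [hs, ← Real.rpow_natCast, ← Real.rpow_mul hn0.le]
    norm_num
  have hs6 : (n : ℝ) = s ^ 6 := by
    rw [hs, ← Real.rpow_natCast, ← Real.rpow_mul hn0.le]
    norm_num
  have hsi : (n : ℝ) ^ (-(1 / 6) : ℝ) = 1 / s := by
    rw [hs, Real.rpow_neg hn0.le]
    exact (one_div _).symm
  have hq5 : p ^ (5 / 6 : ℝ) = q ^ 5 := by
    rw [hq, ← Real.rpow_natCast, ← Real.rpow_mul hp0.le]
    norm_num
  have hq6 : p = q ^ 6 := by
    rw [hq, ← Real.rpow_natCast, ← Real.rpow_mul hp0.le]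
    norm_num
  rw [← hs, hq5]
  have hneg : ∀ x, 0 < x → D * (n : ℝ) ^ (1 / 3 : ℝ) * (-x) ^ 2 ≤ D * p →
      ∫ g, Real.exp (-x * (freeEnergy n β g - meanF n β)) ∂(disorder n) ≤
        Real.exp (D * p) := by
    intro x hx hx2
    refine (h.small (-x) ?_).trans (Real.exp_le_exp.2 hx2)
    have : 0 < (n : ℝ) ^ (-(1 / 6) : ℝ) := Real.rpow_pos_of_pos hn0 _
    linarith
  rcases le_or_gt q s with hqs | hqs
  · have hx : 0 < q / s := by positivity
    refine abs_mom hp hx ?_ (hneg _ hx ?_) (le_of_eq ?_)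
    · refine (h.mid (q / s) ?_ ?_).trans (Real.exp_le_exp.2 (le_of_eq ?_))
      · rw [hsi]
        exact div_le_div_of_nonneg_right hq1 hs0.le
      · rwa [div_le_one hs0]
      · rw [hs6, hq6]
        field_simp
    · rw [hs3, mul_assoc]
      refine mul_le_mul_of_nonneg_left ?_ hD0.le
      have e : s ^ 2 * (-(q / s)) ^ 2 = q ^ 2 := by field_simp
      rw [e, hq6]
      exact pow_le_pow_right₀ hq1 (by norm_num)
    · rw [hq6]
      field_simp
  · have hsq : s ≤ q := hqs.le
    have hx : 0 < q ^ 3 / s ^ 3 := by positivity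
    refine abs_mom hp hx ?_ (hneg _ hx ?_) ?_
    · refine (h.big (q ^ 3 / s ^ 3) ?_).trans (Real.exp_le_exp.2 (le_of_eq ?_))
      · rw [le_div_iff₀ (by positivity), one_mul]
        exact pow_le_pow_left₀ hs0.le hsq 3
      · rw [hs6, hq6]
        field_simp
    · rw [hs3, mul_assoc]
      refine mul_le_mul_of_nonneg_left ?_ hD0.le
      have e : s ^ 2 * (-(q ^ 3 / s ^ 3)) ^ 2 = q ^ 6 / s ^ 4 := by field_simp
      rw [e, hq6]
      exact div_le_self (by positivity) (one_le_pow₀ hs1)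
    · rw [hq6]
      have e : q ^ 6 / (q ^ 3 / s ^ 3) = q ^ 3 * (s * s ^ 2) := by field_simp
      have e2 : q ^ 5 * s = q ^ 3 * (s * q ^ 2) := by ring
      rw [e, e2]
      have : s ^ 2 ≤ q ^ 2 := pow_le_pow_left₀ hs0.le hsq 2
      gcongr

/-- **The moments of the lower side.** -/
theorem Mg.mom_left {p : ℝ} (hp : 1 ≤ p) :
    ∫ g, (max (meanF n β - freeEnergy n β g) 0) ^ p ∂(disorder n) ≤
      (2 * Real.exp D * (p ^ (1 / 2 : ℝ) * (n : ℝ) ^ (1 / 6 : ℝ))) ^ p := by
  have hprob : IsProbabilityMeasure (disorder n) := by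
    unfold disorder
    infer_instance
  have hD0 : 0 < D := by linarith
  have hp0 : 0 < p := by linarith
  have hnR : (1 : ℝ) ≤ n := by exact_mod_cast hn
  have hn0 : (0 : ℝ) < n := by linarith
  obtain ⟨s, hs⟩ : ∃ s, s = (n : ℝ) ^ (1 / 6 : ℝ) := ⟨_, rfl⟩
  obtain ⟨q, hq⟩ : ∃ q, q = p ^ (1 / 2 : ℝ) := ⟨_, rfl⟩
  have hs1 : 1 ≤ s := by rw [hs]; exact Real.one_le_rpow hnR (by norm_num)
  have hs0 : 0 < s := by linarith
  have hq1 : 1 ≤ q := by rw [hq]; exact Real.one_le_rpow hp (by norm_num)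
  have hq0 : 0 < q := by linarith
  have hs3 : (n : ℝ) ^ (1 / 3 : ℝ) = s ^ 2 := by
    rw [hs, ← Real.rpow_natCast, ← Real.rpow_mul hn0.le]
    norm_num
  have hq2 : p = q ^ 2 := by
    rw [hq, ← Real.rpow_natCast, ← Real.rpow_mul hp0.le]
    norm_num
  rw [← hs, ← hq]
  obtain ⟨x, hx⟩ : ∃ x, x = q / s := ⟨_, rfl⟩
  have hx0 : 0 < x := by rw [hx]; positivity
  have h1 : ∫ g, Real.exp (-x * (freeEnergy n β g - meanF n β)) ∂(disorder n) ≤
      Real.exp (D * p) := by
    refine (h.small (-x) ?_).trans (Real.exp_le_exp.2 (le_of_eq ?_))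
    · have : 0 < (n : ℝ) ^ (-(1 / 6) : ℝ) := Real.rpow_pos_of_pos hn0 _
      linarith
    · rw [hs3, hx, hq2]
      field_simp
  have i2 := int_exp_c n β (-x)
  have h3 : ∫ g, (max (meanF n β - freeEnergy n β g) 0) ^ p ∂(disorder n) ≤
      ∫ g, (p / x) ^ p * Real.exp (-p) *
        (1 + Real.exp (-x * (freeEnergy n β g - meanF n β))) ∂(disorder n) := by
    refine integral_mono_of_nonneg (Filter.Eventually.of_forall fun g => by positivity)
      (((integrable_const 1).add i2).const_mul _) (Filter.Eventually.of_forall fun g => ?_)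
    simp only
    have h4 := rpow_le_exp (le_max_right (meanF n β - freeEnergy n β g) 0) hx0 hp0
    refine h4.trans ?_
    rw [mul_assoc]
    refine mul_le_mul_of_nonneg_left ?_ (by positivity)
    have h5 : Real.exp (x * max (meanF n β - freeEnergy n β g) 0 - p) =
        Real.exp (-p) * Real.exp (x * max (meanF n β - freeEnergy n β g) 0) := by
      rw [← Real.exp_add]
      congr 1
      ring
    rw [h5]
    refine mul_le_mul_of_nonneg_left ?_ (Real.exp_pos _).le
    rcases le_total (meanF n β - freeEnergy n β g) 0 with h6 | h6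
    · rw [max_eq_right h6, mul_zero, Real.exp_zero]
      linarith [Real.exp_pos (-x * (freeEnergy n β g - meanF n β))]
    · rw [max_eq_left h6, show x * (meanF n β - freeEnergy n β g) =
        -x * (freeEnergy n β g - meanF n β) by ring]
      linarith
  rw [integral_const_mul, integral_add (integrable_const _) i2] at h3
  simp only [integral_const, probReal_univ, one_smul] at h3
  have h8 : 1 ≤ Real.exp (D * p) := Real.one_le_exp (by positivity)
  have h4 : (p / x) ^ p * Real.exp (-p) *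
      (1 + ∫ g, Real.exp (-x * (freeEnergy n β g - meanF n β)) ∂(disorder n)) ≤
      (p / x) ^ p * Real.exp (-p) * (2 * Real.exp (D * p)) :=
    mul_le_mul_of_nonneg_left (by linarith) (by positivity)
  refine (h3.trans h4).trans ?_
  have hB : p / x = q * s := by
    rw [hx, hq2]
    field_simp
  rw [hB]
  have h6 : (2 : ℝ) ≤ 2 ^ p := by
    have := Real.rpow_le_rpow_of_exponent_le (by norm_num : (1 : ℝ) ≤ 2) hp
    rwa [Real.rpow_one] at this
  have h7 : Real.exp (-p) ≤ 1 := Real.exp_le_one_iff.2 (by linarith)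
  have e : (2 * Real.exp D * (q * s)) ^ p =
      (q * s) ^ p * 1 * (2 ^ p * Real.exp (D * p)) := by
    rw [Real.mul_rpow (by positivity) (by positivity),
      Real.mul_rpow (by norm_num) (Real.exp_pos _).le, ← Real.exp_mul]
    ring
  rw [e]
  exact mul_le_mul (mul_le_mul_of_nonneg_left h7 (by positivity))
    (mul_le_mul_of_nonneg_right h6 (Real.exp_pos _).le) (by positivity) (by positivity)

/-- **Chaos.** -/
theorem Mg.chaos (hβ : 0 < β) {t : ℝ} (ht : 0 ≤ t) (ht1 : t < 1) :
    n * (1 - t) * crossOverlap n β t ≤ (2 * D / β ^ 2 + 1) * (n : ℝ) ^ (1 / 3 : ℝ) := by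
  have h1 := var_ge_crossOverlap n β hn ht ht1.le
  have h2 := h.var
  have hnR : (1 : ℝ) ≤ n := by exact_mod_cast hn
  have h3 : 1 ≤ (n : ℝ) ^ (1 / 3 : ℝ) := Real.one_le_rpow hnR (by norm_num)
  have h4 : (1 - t) * (β ^ 2 / 2) * (n * crossOverlap n β t - 1) ≤
      D * (n : ℝ) ^ (1 / 3 : ℝ) := h1.trans h2
  have h5 := mul_le_mul_of_nonneg_left h4 (by positivity : 0 ≤ 2 / β ^ 2)
  have e1 : 2 / β ^ 2 * ((1 - t) * (β ^ 2 / 2) * (n * crossOverlap n β t - 1)) =
      n * (1 - t) * crossOverlap n β t - (1 - t) := by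
    field_simp
  have e2 : 2 / β ^ 2 * (D * (n : ℝ) ^ (1 / 3 : ℝ)) =
      2 * D / β ^ 2 * (n : ℝ) ^ (1 / 3 : ℝ) := by ring
  rw [e1, e2] at h5
  nlinarith

end

end Vale.Agent.P146.U.H607
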