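import Vale.Agent.P146.H607.LSideA
import Vale.Agent.P146.H295.ConcSK

set_option linter.all false

/-!
P146, lower half (helper607): **the L-side theorem**: the lower row inequality at a concentrated
level of a bundle of levels, in terms of finitely many numbers of the law.
-/

open MeasureTheory ProbabilityTheory Finset Matrix

namespace Vale.Agent.P146.H607

open Vale.Agent.P157.Lv Vale.Agent.P157.Lv.Sy
open Vale.Agent.P157.Lv.Fld (uu nh_uu mg_eq eg_mg dep_mg sum_mg_sq Ex_mg_mul)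
open Vale.Agent.P146.H295
open Vale.Agent.P146.H498.Row (tau E4 Fl1 Bnd ent hP_of lrow exc_two nuz_lip t_le_Th)
open Vale.Agent.P146.H498.Edge (nu)

section gen

variable {ι X : Type} [Fintype ι] [DecidableEq ι] [Fintype X] [DecidableEq X] [Nonempty X]
  {S : Sy ι X} {D : ι → (ι → ℝ) → X → ℝ} {N : ℕ}
  {φ : X → Fin N → ℝ} {zc : ℕ → Fin N → ι} {s : ℕ → ℝ} {P : ℕ → Prop}

/-- **The lower row inequality at a concentrated level `l`.** -/
theorem lrow_l (F : FldP S D φ zc s P) (hinj : ∀ p ≤ S.K, P p → Function.Injective (zc p))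
    (hs : ∀ p ≤ S.K, P p → 0 < s p) (hG : GP S φ zc s P) {zb : Pair N → ι} {cb : ℝ}
    (B : Bnd S D φ zc zb cb) (P1 : P 1) {γ π V : ℝ} {l q : ℕ} (Pl : P l)
    (Pl1 : P (l + 1)) (hγ : gg S φ zc s l l ≤ γ) (hγ1 : gg S φ zc s (l + 1) (l + 1) ≤ γ)
    (hl1 : 1 ≤ l) (hlq : l < q) (hq : q ≤ S.K) (hπ : 0 < π) (hpl : π ≤ S.p l)
    (hV : Cv S (uu S φ l) (uu S φ l) ≤ V)
    {D0 E χ1 χq : ℝ} (hD : 0 < D0) (hD1 : D0 ≤ 1) (hE : ent S ≤ E)
    (hχ1 : χ1 = 1 - ∑ i ∈ Finset.Ico 1 (S.K + 1), S.p i * S.Rl φ i)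
    (hχq : χq = 1 - ∑ i ∈ Finset.Ico q (S.K + 1), S.p i * S.Rl φ i)
    (hB : cb * √N * χ1 ≤ 2) :
    s 1 ^ 2 * χ1 ^ 2 * (2 - cb * √N * χ1) ^ 2 / (7 * (1 + S.m 1 * s 1 ^ 2)) +
      2 * (cb * √N * χq - 1) * S.Rl φ l ≤
    cb * √N * (2 * S.m q - S.m l) * (S.Rl φ (q - 1) * S.Rl φ l) +
      cb * √N * (2 * S.m q * V + 4 * γ / π + (S.m l - S.m 1) * Th S φ l) +
      (D0 + cb * √N * S.m 1 / N) * S.Rl φ l +
      3 * (E + Real.log 3) / (N * D0) + 16 * (E + Real.log 5) / N := by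
  have hS := F.hreg
  have hlK : l ≤ S.K := by omega
  have hK1 : 1 ≤ S.K := by omega
  have F1 : Fl1 S D φ zc s := H498.Row.Fl1.ofP F P1 hK1
  have hN := F.N_pos
  have hs1 := hs 1 hK1 P1
  have hP := hP_of hG hs1 hK1 P1
  have hbrk := brk_ge F hinj hs hG Pl Pl1 hγ hγ1 hl1 hlq hq hπ hpl hV
  rw [← hχq] at hbrk
  set Bb := cb * √(N : ℝ) with hBb
  set ρ := S.Rl φ l with hρ
  have hρ0 : 0 ≤ ρ := F.Rl_nonneg hlK
  have hB0 : 0 ≤ Bb := mul_nonneg B.c0 (Real.sqrt_nonneg _)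
  have hm1 : 0 < S.m 1 := hS.pos
  have hsum1 : ∑ i ∈ Finset.Ico 1 (S.K + 1), S.p i * S.Rl φ i ≤ 1 := by
    calc ∑ i ∈ Finset.Ico 1 (S.K + 1), S.p i * S.Rl φ i
        ≤ ∑ i ∈ Finset.Ico 1 (S.K + 1), S.p i := by
          refine Finset.sum_le_sum fun i hi => ?_
          rw [Finset.mem_Ico] at hi
          have h2 : 0 ≤ S.p i := by
            unfold Sy.p
            linarith [hS.mono i (by omega)]
          calc S.p i * S.Rl φ i ≤ S.p i * 1 :=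
                mul_le_mul_of_nonneg_left (F.Rl_le_one (by omega)) h2
            _ = S.p i := mul_one _
      _ ≤ 1 := by
          rw [sum_p_Ico S (show 1 ≤ S.K + 1 by omega), hS.mK]
          linarith
  have hsum0 : 0 ≤ ∑ i ∈ Finset.Ico 1 (S.K + 1), S.p i * S.Rl φ i := by
    refine Finset.sum_nonneg fun i hi => ?_
    rw [Finset.mem_Ico] at hi
    have h2 : 0 ≤ S.p i := by
      unfold Sy.p
      linarith [hS.mono i (by omega)]
    exact mul_nonneg h2 (F.Rl_nonneg (by omega))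
  have hχ0 : 0 ≤ χ1 := by linarith
  have hχle : χ1 ≤ 1 := by linarith
  -- the choice of `lam`
  set A := s 1 * χ1 * (2 + D0 - Bb * χ1) with hA
  set C := (2 * (2 + D0) + 1) * (1 + S.m 1 * s 1 ^ 2 * χ1) with hC
  have hms : 0 ≤ S.m 1 * s 1 ^ 2 := by positivity
  have hC0 : 0 < C := by positivity
  have hA0 : 0 ≤ A := mul_nonneg (mul_nonneg hs1.le hχ0) (by linarith)
  have hrow := lrow F1 B hl1 hlK hs1 hP hD (lam := A / C) (div_nonneg hA0 hC0.le)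
    (τ := 1) one_pos hχ1
  rw [← hBb, ← hρ] at hrow
  have h2A : 2 * (A / C) * A = 2 * (A ^ 2 / C) := by ring
  have hCC : (2 * (2 + D0) + 1) * (A / C) ^ 2 * (1 + S.m 1 * s 1 ^ 2 * χ1) = A ^ 2 / C := by
    rw [div_pow, hC]
    field_simp
  have hlhs : s 1 ^ 2 * χ1 ^ 2 * (2 - Bb * χ1) ^ 2 / (7 * (1 + S.m 1 * s 1 ^ 2)) ≤ A ^ 2 / C := by
    have e1 : C ≤ 7 * (1 + S.m 1 * s 1 ^ 2) := by
      rw [hC]
      refine mul_le_mul (by linarith) ?_ (by positivity) (by norm_num)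
      have := mul_le_mul_of_nonneg_left hχle hms
      linarith
    have e2 : s 1 ^ 2 * χ1 ^ 2 * (2 - Bb * χ1) ^ 2 ≤ A ^ 2 := by
      rw [hA, mul_pow, mul_pow]
      refine mul_le_mul_of_nonneg_left ?_ (by positivity)
      exact pow_le_pow_left₀ (by linarith) (by linarith) 2
    exact div_le_div₀ (by positivity) e2 hC0 e1
  have herr1 : 3 * ((ent S + Real.log 3) / (N * D0)) ≤ 3 * (E + Real.log 3) / (N * D0) := by
    rw [mul_div_assoc]
    refine mul_le_mul_of_nonneg_left ?_ (by norm_num)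
    exact div_le_div_of_nonneg_right (by linarith) (by positivity)
  have herr2 : (2 / (2 + D0) + 1 / 1) * ((ent S + Real.log 5) / (N / 8)) ≤
      16 * (E + Real.log 5) / N := by
    have h0 : 0 ≤ ent S + Real.log 5 := by
      have h1 := exc_two F1 B
      have h2 : 0 ≤ S.Ex (fun z _ => max (nu N (Vale.Agent.P146.H498.Row.gg zb z) - 2) 0 ^ 2) := by
        have hl := nuz_lip (ι := ι) zb
        have hmeas : Measurable fun z : ι → ℝ => nu N (Vale.Agent.P146.H498.Row.gg zb z) :=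
          hl.eg.meas
        have eX2 : EG (fun z : ι → ℝ =>
            max (nu N (Vale.Agent.P146.H498.Row.gg zb z) - 2) 0 ^ 2) := by
          have e1 : EG (fun z : ι → ℝ => nu N (Vale.Agent.P146.H498.Row.gg zb z) - 2) :=
            hl.eg.sub (EG.const 2)
          refine EG.pow (e1.mono (by fun_prop) fun y => ?_) 2
          rw [abs_of_nonneg (le_max_right _ _)]
          exact max_le (le_abs_self _) (abs_nonneg _)
        have h7 := hS.Ex_mono (X := X) (f := fun _ _ => (0 : ℝ))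
          (g := fun z _ => max (nu N (Vale.Agent.P146.H498.Row.gg zb z) - 2) 0 ^ 2)
          (Nh.fst (EG.const 0)) (Nh.fst eX2) fun z _ => sq_nonneg _
        rwa [hS.Ex_const] at h7
      have h3 := h2.trans h1
      have h4 : (0 : ℝ) < N / 8 := by positivity
      rwa [le_div_iff₀ h4, zero_mul] at h3
    have h1 : 2 / (2 + D0) + 1 / 1 ≤ (2 : ℝ) := by
      have : 2 / (2 + D0) ≤ (1 : ℝ) := by
        rw [div_le_one (by positivity)]
        linarith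
      linarith
    calc (2 / (2 + D0) + 1 / 1) * ((ent S + Real.log 5) / (N / 8))
        ≤ 2 * ((ent S + Real.log 5) / (N / 8)) :=
          mul_le_mul_of_nonneg_right h1 (by positivity)
      _ ≤ 2 * ((E + Real.log 5) / (N / 8)) := by
          refine mul_le_mul_of_nonneg_left ?_ (by norm_num)
          exact div_le_div_of_nonneg_right (by linarith) (by positivity)
      _ = 16 * (E + Real.log 5) / N := by field_simp; ring
  have e5 : 2 * (A / C) * (s 1 * χ1 * (2 + D0 - Bb * χ1)) = 2 * (A ^ 2 / C) := by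
    rw [← hA, h2A]
  rw [e5, hCC] at hrow
  have hbB := mul_le_mul_of_nonneg_left hbrk hB0
  have e6 : Bb * (H498.Row.brk S φ l - S.m 1 * ρ / N) =
      Bb * H498.Row.brk S φ l - Bb * S.m 1 / N * ρ := by ring
  rw [e6] at hrow
  have e7 : (D0 + Bb * S.m 1 / N) * ρ = D0 * ρ + Bb * S.m 1 / N * ρ := by ring
  have e8 : 2 * (Bb * χq - 1) * ρ = 2 * Bb * χq * ρ - 2 * ρ := by ring
  rw [e7, e8]
  have e10 : Bb * (2 * χq * ρ - (2 * S.m q - S.m l) * (S.Rl φ (q - 1) * ρ) -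
      (2 * S.m q * V + 4 * γ / π + (S.m l - S.m 1) * Th S φ l)) = 2 * Bb * χq * ρ -
      Bb * (2 * S.m q - S.m l) * (S.Rl φ (q - 1) * ρ) -
      Bb * (2 * S.m q * V + 4 * γ / π + (S.m l - S.m 1) * Th S φ l) := by ring
  rw [e10] at hbB
  linarith

/-- `ρ_l² ≤ Θ_l` -/
lemma Rl_sq_le (F : FldP S D φ zc s P) {l : ℕ} (hl : l ≤ S.K) :
    S.Rl φ l ^ 2 ≤ Th S φ l := by
  have h := Cv_nonneg F (nh_uu (φ := φ) F.hreg hl)
  have h1 := t_le_Th F hl
  unfold Cv at h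
  rw [F.Ex_uu hl] at h
  have e : S.Ex (fun z x => uu S φ l z x ^ 2) = S.Ex (fun z x => uu S φ l z x * uu S φ l z x) := by
    congr 1
    funext z x
    ring
  rw [e] at h1
  nlinarith

end gen

/-! ## the SK system -/

section sk

open Vale.Agent.P146.H93 (Cd st am aSK skS Em linS_sk)
open Vale.Agent.P146.H498.Row (eSK bnd_sk ent_sk)

variable {n K : ℕ} {m b w : ℕ → ℝ}

/-- the error of the L-side -/
noncomputable def errL (n K : ℕ) (m b w : ℕ → ℝ) (c q : ℕ) (π γ ϑ D0 M : ℝ) : ℝ :=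
  b 1 * √n * (2 * m q * (5 * ϑ / (c - 1) + 20 * γ / π ^ 2) + 4 * γ / π + (m c - m 1) * ϑ) +
    (D0 + b 1 * √n * m 1 / n) * √ϑ +
    3 * (eSK n K m b w M + Real.log 3) / (n * D0) + 16 * (eSK n K m b w M + Real.log 5) / n

/-- **The L-side at a good level of a bundle.** -/
theorem lside_sk (hn : 0 < n) (hK : 0 < K) (hm : Em K m) (hb : 0 ≤ b 1) {c q : ℕ} (hc : 1 < c)
    (hcq : c < q) (hq : q ≤ K) (hw : ∀ p, 1 ≤ p → p ≤ c + 1 → 0 < w p) {π γ ϑ : ℝ} (hπ : 0 < π)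
    (hp : ∀ l, 1 ≤ l → l ≤ c → π ≤ m (l + 1) - m l)
    (hγ : ∀ l, 1 ≤ l → l ≤ c + 1 → gg (skS n K m b w) (spn n) (zs hK) w l l ≤ γ)
    (hϑ : Th (skS n K m b w) (spn n) c ≤ ϑ) {D0 M χ1 χq : ℝ} (hD : 0 < D0) (hD1 : D0 ≤ 1)
    (hM : m 1 < M)
    (hχ1 : χ1 = 1 - ∑ i ∈ Finset.Ico 1 (K + 1), (m (i + 1) - m i) *
      (skS n K m b w).Rl (spn n) i)
    (hχq : χq = 1 - ∑ i ∈ Finset.Ico q (K + 1), (m (i + 1) - m i) *
      (skS n K m b w).Rl (spn n) i)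
    (hB : b 1 * √n * χ1 ≤ 2) :
    ∃ l, 1 ≤ l ∧ l < c ∧
      w 1 ^ 2 * χ1 ^ 2 * (2 - b 1 * √n * χ1) ^ 2 / (7 * (1 + m 1 * w 1 ^ 2)) +
        2 * (b 1 * √n * χq - 1) * (skS n K m b w).Rl (spn n) l ≤
      b 1 * √n * (2 * m q - m 1) * ((skS n K m b w).Rl (spn n) (q - 1) *
        (skS n K m b w).Rl (spn n) l) + errL n K m b w c q π γ ϑ D0 M := by
  set S := skS n K m b w with hSd
  obtain ⟨l, hl1, hlc, hconc⟩ := conc_sk hn hK hm le_rfl hc (show c < K by omega) hw hπ hp hγ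
  set P : ℕ → Prop := fun l => 1 ≤ l ∧ l ≤ c + 1 with hPd
  have hP1 : ∀ p, P p → 1 ≤ p := fun p h => h.1
  have hw' : ∀ p ≤ K, P p → 0 < w p := fun p _ h => hw p h.1 h.2
  have F := fldP_sk (P := P) hn hK hm b w hP1
  have hG := gp_sk (P := P) hn hK hm b w hP1 hw'
  have P1 : P 1 := ⟨le_rfl, by omega⟩
  have Pl : P l := ⟨hl1, by omega⟩
  have Pl1 : P (l + 1) := ⟨by omega, by omega⟩
  have hS : S.Reg := F.hreg
  have hinj : ∀ p ≤ S.K, P p → Function.Injective (zs (n := n) hK p) := fun p _ _ => zs_inj hK p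
  have hlK : l ≤ K := by omega
  have hϑ0 : 0 ≤ ϑ := (hS.pairEx_nonneg (show c ≤ K by omega) fun x x' => sq_nonneg _).trans hϑ
  have hc1 : (0 : ℝ) < (c : ℝ) - 1 := by
    have : (1 : ℝ) < c := by exact_mod_cast hc
    linarith
  have hγ0 : 0 ≤ γ := (H498.Row.gg_nonneg hG hlK Pl).trans (hγ l hl1 (by omega))
  have hV : Cv S (uu S (spn n) l) (uu S (spn n) l) ≤ 5 * ϑ / (c - 1) + 20 * γ / π ^ 2 := by
    refine (Cv_le_pair F hlK).trans ?_
    have h1 : 0 ≤ 2 * (S.Rl (spn n) (l + 1) - S.Rl (spn n) l) ^ 2 := by positivity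
    have h2 : 5 * Th S (spn n) c / ((c : ℝ) - 1) ≤ 5 * ϑ / (c - 1) := by gcongr
    have h3 : 5 * Th S (spn n) c / ((c : ℝ) - (1 : ℕ)) = 5 * Th S (spn n) c / ((c : ℝ) - 1) := by
      norm_num
    rw [h3] at hconc
    linarith
  have hD00 : 0 ≤ (n : ℝ) := by positivity
  have h := lrow_l F hinj hw' hG (bnd_sk (w := w) hK hm hb) P1 Pl Pl1 (hγ l hl1 (by omega))
    (hγ (l + 1) (by omega) (by omega)) hl1 (show l < q by omega) hq hπ (hp l hl1 (by omega)) hV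
    hD hD1 (ent_sk (n := n) hK hm b w hM) hχ1 hχq hB
  refine ⟨l, hl1, hlc, h.trans ?_⟩
  have hB0 : 0 ≤ b 1 * √(n : ℝ) := mul_nonneg hb (Real.sqrt_nonneg _)
  have hml : m 1 ≤ m l := hS.m_mono hl1 (show l ≤ K + 1 by omega)
  have hmc : m l ≤ m c := hS.m_mono hlc.le (show c ≤ K + 1 by omega)
  have hm0 : 0 < m 1 := hm.pos
  have r0 : 0 ≤ S.Rl (spn n) l := F.Rl_nonneg hlK
  have r1 : 0 ≤ S.Rl (spn n) (q - 1) := F.Rl_nonneg (show q - 1 ≤ K by omega)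
  have hThl : Th S (spn n) l ≤ ϑ := (Th_mono F hlc.le (show c ≤ K by omega)).trans hϑ
  have hrl : S.Rl (spn n) l ≤ √ϑ :=
    Real.le_sqrt_of_sq_le ((Rl_sq_le F hlK).trans hThl)
  have em : S.m = m := rfl
  rw [em]
  have a1 : b 1 * √(n : ℝ) * (2 * m q - m l) * (S.Rl (spn n) (q - 1) * S.Rl (spn n) l) ≤
      b 1 * √n * (2 * m q - m 1) * (S.Rl (spn n) (q - 1) * S.Rl (spn n) l) := by
    refine mul_le_mul_of_nonneg_right (mul_le_mul_of_nonneg_left (by linarith) hB0)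
      (mul_nonneg r1 r0)
  have a2 : (m l - m 1) * Th S (spn n) l ≤ (m c - m 1) * ϑ :=
    mul_le_mul (by linarith) hThl (hS.pairEx_nonneg hlK fun x x' => sq_nonneg _) (by linarith)
  have a3 : b 1 * √(n : ℝ) * (2 * m q * (5 * ϑ / (c - 1) + 20 * γ / π ^ 2) + 4 * γ / π +
      (m l - m 1) * Th S (spn n) l) ≤ b 1 * √n * (2 * m q * (5 * ϑ / (c - 1) + 20 * γ / π ^ 2) +
        4 * γ / π + (m c - m 1) * ϑ) := mul_le_mul_of_nonneg_left (by linarith) hB0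
  have a4 : (D0 + b 1 * √(n : ℝ) * m 1 / n) * S.Rl (spn n) l ≤
      (D0 + b 1 * √(n : ℝ) * m 1 / n) * √ϑ := mul_le_mul_of_nonneg_left hrl (by positivity)
  unfold errL
  linarith

/-- **The L-side, raw numbers.** `ζ` is a lower bound of the effect of the field of the level one,
`e` an upper bound of the errors. -/
theorem lside_num (hn : 0 < n) (hK : 0 < K) (hm : Em K m) (hb : 0 ≤ b 1) {c q : ℕ} (hc : 1 < c)
    (hcq : c < q) (hq : q ≤ K) (hw : ∀ p, 1 ≤ p → p ≤ c + 1 → 0 < w p) {π γ ϑ : ℝ} (hπ : 0 < π)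
    (hp : ∀ l, 1 ≤ l → l ≤ c → π ≤ m (l + 1) - m l)
    (hγ : ∀ l, 1 ≤ l → l ≤ c + 1 → gg (skS n K m b w) (spn n) (zs hK) w l l ≤ γ)
    (hϑ : Th (skS n K m b w) (spn n) c ≤ ϑ) {D0 M χ1 χq : ℝ} (hD : 0 < D0) (hD1 : D0 ≤ 1)
    (hM : m 1 < M)
    (hχ1 : χ1 = 1 - ∑ i ∈ Finset.Ico 1 (K + 1), (m (i + 1) - m i) *
      (skS n K m b w).Rl (spn n) i)
    (hχq : χq = 1 - ∑ i ∈ Finset.Ico q (K + 1), (m (i + 1) - m i) *
      (skS n K m b w).Rl (spn n) i)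
    (hB : b 1 * √n * χ1 ≤ 2) {ζ e : ℝ} (hζ : 0 < ζ)
    (hζ1 : ζ ≤ w 1 ^ 2 * χ1 ^ 2 * (2 - b 1 * √n * χ1) ^ 2 / (7 * (1 + m 1 * w 1 ^ 2)))
    (he0 : 0 ≤ e) (he : errL n K m b w c q π γ ϑ D0 M ≤ e) (heζ : 2 * e ≤ ζ) :
    2 * (b 1 * √n * χq - 1) ≤ b 1 * √n * (2 * m q - m 1) * (1 + 2 * e / ζ) *
      (skS n K m b w).Rl (spn n) (q - 1) ∧
    (skS n K m b w).Rl (spn n) (q - 1) ^ 2 ≤ Th (skS n K m b w) (spn n) (q - 1) ∧
    0 ≤ (skS n K m b w).Rl (spn n) (q - 1) := by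
  set S := skS n K m b w with hSd
  obtain ⟨l, hl1, hlc, h⟩ := lside_sk hn hK hm hb hc hcq hq hw hπ hp hγ hϑ hD hD1 hM hχ1 hχq hB
  set P : ℕ → Prop := fun l => 1 ≤ l ∧ l ≤ c + 1 with hPd
  have F := fldP_sk (P := P) hn hK hm b w fun p h => h.1
  have hS : S.Reg := F.hreg
  have r0 : 0 ≤ S.Rl (spn n) l := F.Rl_nonneg (show l ≤ K by omega)
  have r1 : 0 ≤ S.Rl (spn n) (q - 1) := F.Rl_nonneg (show q - 1 ≤ K by omega)
  refine ⟨?_, Rl_sq_le F (show q - 1 ≤ K by omega), r1⟩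
  have hB0 : 0 ≤ b 1 * √(n : ℝ) := mul_nonneg hb (Real.sqrt_nonneg _)
  have hmq : m 1 ≤ m q := hS.m_mono (by omega) (show q ≤ K + 1 by omega)
  have hm0 : 0 < m 1 := hm.pos
  have hA0 : 0 ≤ b 1 * √(n : ℝ) * (2 * m q - m 1) * S.Rl (spn n) (q - 1) :=
    mul_nonneg (mul_nonneg hB0 (by linarith)) r1
  by_cases hχ : b 1 * √(n : ℝ) * χq - 1 ≤ 0
  · have : 0 ≤ 1 + 2 * e / ζ := by positivity
    have h2 : 0 ≤ b 1 * √(n : ℝ) * (2 * m q - m 1) * (1 + 2 * e / ζ) * S.Rl (spn n) (q - 1) := by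
      have := mul_nonneg hA0 this
      linarith
    linarith
  · push Not at hχ
    set A := b 1 * √(n : ℝ) * (2 * m q - m 1) * S.Rl (spn n) (q - 1) with hA
    set ρ := S.Rl (spn n) l with hρ
    have h1 : ζ + 2 * (b 1 * √(n : ℝ) * χq - 1) * ρ ≤ A * ρ + e := by
      have e1 : b 1 * √(n : ℝ) * (2 * m q - m 1) * (S.Rl (spn n) (q - 1) * ρ) = A * ρ := by
        rw [hA]; ring
      rw [e1] at h
      linarith
    have h2 : 0 ≤ 2 * (b 1 * √(n : ℝ) * χq - 1) * ρ := by positivity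
    have h3 : ζ / 2 ≤ A * ρ := by linarith
    have hρ0 : 0 < ρ := by
      rcases eq_or_lt_of_le r0 with h0 | h0
      · rw [← h0, mul_zero] at h3
        linarith
      · exact h0
    have h4 : e ≤ A * ρ * (2 * e / ζ) := by
      have h5 := mul_le_mul_of_nonneg_right h3 (show 0 ≤ 2 * e / ζ by positivity)
      have e2 : ζ / 2 * (2 * e / ζ) = e := by field_simp
      rwa [e2] at h5
    have h5 : 2 * (b 1 * √(n : ℝ) * χq - 1) * ρ ≤ (A * (1 + 2 * e / ζ)) * ρ := by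
      have e3 : (A * (1 + 2 * e / ζ)) * ρ = A * ρ + A * ρ * (2 * e / ζ) := by ring
      rw [e3]
      linarith
    have h6 := le_of_mul_le_mul_right h5 hρ0
    have e4 : b 1 * √(n : ℝ) * (2 * m q - m 1) * (1 + 2 * e / ζ) * S.Rl (spn n) (q - 1) =
        A * (1 + 2 * e / ζ) := by rw [hA]; ring
    rw [e4]
    exact h6

end sk

end Vale.Agent.P146.H607
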