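import Vale.Agent.P146.H607.LSideB
import Vale.Agent.P146.H479.Th
import Vale.Agent.P146.H94.OscSK

set_option linter.all false

/-!
P146, lower half (helper607): **the cross law** (`Dat.crs` of helper865's unit-scale theorem).
Letters of the bundled law: `y`-bundle = levels `1..a` (bonds `β²(1 - s u²)/n` on the level one),
`v`-bundle = levels `a+1..2a` (no bonds), level `2a+1` (bonds `β² e u²/n`), `v`-bundle = levels
`2a+2..3a+1` (no bonds), level `3a+2` (bonds `β² (s - e) u²/n`, field of variance `w u³`).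
White fields on all the levels `1..3a+1`.
-/

open MeasureTheory ProbabilityTheory Finset

namespace Vale.Agent.P146.H607

open Vale.Agent.P157.Lv Vale.Agent.P157.Lv.Sy
open Vale.Agent.P146.H93 (Cd st am aSK skS Em linS_sk)
open Vale.Agent.P146.H479
open Vale.Agent.P146.H186 (cSK amp amp_mem)
open Vale.Agent.P146.H610.Win (Bx)

/-- the number of levels -/
def KX (a : ℕ) : ℕ := 3 * a + 2

/-- the exponents -/
noncomputable def mX (a : ℕ) (u y v δ : ℝ) (j : ℕ) : ℝ :=
  if j = 0 then 0 else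
  if j ≤ a then u * (y * (1 - δ + δ * (j / a))) else
  if j ≤ 3 * a + 2 then u * (v * (1 - δ + δ * ((j - a) / (2 * a + 2)))) else 1

/-- the bonds -/
noncomputable def bX (n a : ℕ) (β u e s : ℝ) (j : ℕ) : ℝ :=
  if j = 1 then β / √n * √(1 - s * u ^ 2) else
  if j = 2 * a + 1 then β / √n * √(e * u ^ 2) else
  if j = 3 * a + 2 then β / √n * √((s - e) * u ^ 2) else 0

/-- the known field -/
noncomputable def wX (a : ℕ) (u w : ℝ) (j : ℕ) : ℝ := if j = 3 * a + 2 then √(w * u ^ 3) else 0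

/-- the levels with white fields -/
def PX (a : ℕ) : Finset ℕ := Finset.Icc 1 (3 * a + 1)

section basic

variable {n a : ℕ} {β u y v δ e s s' w w' : ℝ}

lemma mX_A {j : ℕ} (h0 : 1 ≤ j) (h : j ≤ a) :
    mX a u y v δ j = u * (y * (1 - δ + δ * (j / a))) := by
  unfold mX
  rw [if_neg (by omega), if_pos h]

lemma mX_V {j : ℕ} (h0 : a < j) (h : j ≤ 3 * a + 2) :
    mX a u y v δ j = u * (v * (1 - δ + δ * ((j - a) / (2 * a + 2)))) := by
  unfold mX
  rw [if_neg (by omega), if_neg (by omega), if_pos h]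

lemma mX_top : mX a u y v δ (KX a + 1) = 1 := by
  unfold mX KX
  rw [if_neg (by omega), if_neg (by omega), if_neg (by omega)]

lemma mX_E : mX a u y v δ (3 * a + 2) = u * v := by
  rw [mX_V (by omega) le_rfl]
  have h : (0 : ℝ) < 2 * a + 2 := by positivity
  have e1 : (((3 * a + 2 : ℕ) : ℝ) - a) / (2 * a + 2) = 1 := by
    push_cast
    rw [div_eq_one_iff_eq h.ne']
    ring
  rw [e1]
  ring

lemma mX_a (ha : 1 ≤ a) : mX a u y v δ a = u * y := by
  rw [mX_A ha le_rfl]
  have h : (a : ℝ) ≠ 0 := by positivity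
  rw [div_self h]
  ring

/-- steps inside the `y`-bundle -/
lemma mX_stepA {j : ℕ} (h0 : 1 ≤ j) (h : j < a) :
    mX a u y v δ (j + 1) - mX a u y v δ j = u * y * δ / a := by
  rw [mX_A h0 h.le, mX_A (by omega) (by omega)]
  have : (a : ℝ) ≠ 0 := by
    have : 0 < a := by omega
    positivity
  push_cast
  field_simp
  ring

/-- steps inside the `v`-part -/
lemma mX_stepV {j : ℕ} (h0 : a < j) (h : j ≤ 3 * a + 1) :
    mX a u y v δ (j + 1) - mX a u y v δ j = u * v * δ / (2 * a + 2) := by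
  rw [mX_V h0 (by omega), mX_V (by omega) (by omega)]
  have : (2 * a + 2 : ℝ) ≠ 0 := by positivity
  push_cast
  field_simp
  ring

/-- the gap -/
lemma mX_gap (ha : 1 ≤ a) : mX a u y v δ (a + 1) - mX a u y v δ a =
    u * (v * (1 - δ + δ / (2 * a + 2)) - y) := by
  rw [mX_a ha, mX_V (by omega) (by omega)]
  have : (2 * a + 2 : ℝ) ≠ 0 := by positivity
  push_cast
  field_simp
  ring

lemma mX_one_ge (ha : 1 ≤ a) (hu : 0 ≤ u) (hy : 0 ≤ y) (hδ : 0 ≤ δ) :
    u * (y * (1 - δ)) ≤ mX a u y v δ 1 := by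
  rw [mX_A le_rfl ha]
  have : 0 ≤ δ * ((1 : ℕ) / (a : ℝ)) := by positivity
  exact mul_le_mul_of_nonneg_left (mul_le_mul_of_nonneg_left (by linarith) hy) hu

/-- the exponents are exponents -/
lemma em_mX (ha : 1 ≤ a) (hu : 0 < u) (hy : 0 < y) (hv : y ≤ v * (1 - δ)) (hδ : 0 ≤ δ)
    (hδ1 : δ < 1) (hv1 : u * v ≤ 1) : Em (KX a) (mX a u y v δ) where
  m0 := by unfold mX; rw [if_pos rfl]
  mK := mX_top
  mono := by
    have hv0 : 0 < v := by
      have : 0 < v * (1 - δ) := hy.trans_le hv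
      by_contra h
      push Not at h
      nlinarith
    intro l hl
    unfold KX at hl
    rcases Nat.eq_zero_or_pos l with rfl | h0
    · rw [show mX a u y v δ 0 = 0 by unfold mX; rw [if_pos rfl]]
      have h1 := mX_one_ge (v := v) ha hu.le hy.le hδ
      have : 0 ≤ u * (y * (1 - δ)) := by
        have : 0 ≤ 1 - δ := by linarith
        positivity
      linarith
    rcases lt_trichotomy l a with h | h | h
    · have h1 := mX_stepA (u := u) (y := y) (v := v) (δ := δ) h0 h
      have : 0 ≤ u * y * δ / a := by positivity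
      linarith
    · subst h
      have h1 := mX_gap (u := u) (y := y) (v := v) (δ := δ) ha
      have h2 : 0 ≤ v * δ / (2 * l + 2) := by positivity
      have h3 : 0 ≤ u * (v * (1 - δ + δ / (2 * l + 2)) - y) := by
        refine mul_nonneg hu.le ?_
        have : v * (1 - δ + δ / (2 * l + 2)) = v * (1 - δ) + v * δ / (2 * l + 2) := by ring
        linarith
      linarith
    · rcases Nat.lt_or_ge (3 * a + 1) l with h2 | h2
      · obtain rfl : l = 3 * a + 2 := by omega
        rw [mX_E]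
        have := mX_top (a := a) (u := u) (y := y) (v := v) (δ := δ)
        unfold KX at this
        rw [this]
        exact hv1
      · have h1 := mX_stepV (u := u) (y := y) (v := v) (δ := δ) h h2
        have : 0 ≤ u * v * δ / (2 * a + 2) := by positivity
        linarith
  pos := by
    have h1 := mX_one_ge (v := v) ha hu.le hy.le hδ
    have : 0 < u * (y * (1 - δ)) := by
      have : 0 < 1 - δ := by linarith
      positivity
    linarith

lemma bX_nonneg (hβ : 0 ≤ β) : Na (KX a) (bX n a β u e s) := by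
  intro j _ _
  unfold bX
  split_ifs <;> positivity

lemma bX_one : bX n a β u e s 1 = β / √n * √(1 - s * u ^ 2) := by
  unfold bX
  rw [if_pos rfl]

lemma bX_one_sqrt (hn : 0 < n) : bX n a β u e s 1 * √n = β * √(1 - s * u ^ 2) := by
  have : √(n : ℝ) ≠ 0 := (Real.sqrt_pos.2 (by exact_mod_cast hn)).ne'
  rw [bX_one]
  field_simp

lemma bX_E (ha : 1 ≤ a) : bX n a β u e s (3 * a + 2) = β / √n * √((s - e) * u ^ 2) := by
  unfold bX
  rw [if_neg (by omega), if_neg (by omega), if_pos rfl]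

lemma bX_ne {j : ℕ} (h1 : j ≠ 1) (h3 : j ≠ 3 * a + 2) :
    bX n a β u e s j = bX n a β u e s' j := by
  unfold bX
  rw [if_neg h1, if_neg h1]
  split_ifs <;> rfl

lemma sq_one (hn : 0 < n) (hs : s * u ^ 2 ≤ 1) :
    bX n a β u e s 1 ^ 2 = β ^ 2 * (1 - s * u ^ 2) / n := by
  rw [bX_one, mul_pow, div_pow, Real.sq_sqrt (Nat.cast_nonneg n), Real.sq_sqrt (by linarith)]
  ring

lemma sq_E (ha : 1 ≤ a) (hs : e ≤ s) :
    bX n a β u e s (3 * a + 2) ^ 2 = β ^ 2 * ((s - e) * u ^ 2) / n := by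
  have : 0 ≤ (s - e) * u ^ 2 := mul_nonneg (by linarith) (sq_nonneg _)
  rw [bX_E ha, mul_pow, div_pow, Real.sq_sqrt (Nat.cast_nonneg n), Real.sq_sqrt this]
  ring

/-- the cumulative difference of the bonds between the shares `s` and `s'` -/
lemma dc_bX (hn : 0 < n) (ha : 1 ≤ a) (h1 : s * u ^ 2 ≤ 1) (h1' : s' * u ^ 2 ≤ 1) {l : ℕ}
    (hl : 1 ≤ l) (hl' : l ≤ 3 * a + 1) :
    dc (bX n a β u e s) (bX n a β u e s') l = -(β ^ 2 * ((s' - s) * u ^ 2) / n) := by
  unfold dc
  induction l with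
  | zero => omega
  | succ l ih =>
    rw [cum_succ]
    rcases Nat.eq_zero_or_pos l with rfl | hl0
    · rw [cum_zero, sq_one hn h1, sq_one hn h1']
      ring
    · rw [ih (by omega) (by omega), bX_ne (n := n) (β := β) (u := u) (e := e) (s := s) (s' := s')
        (j := l + 1) (by omega) (by omega)]
      ring

lemma dc_bX_K (hn : 0 < n) (ha : 1 ≤ a) (h1 : s * u ^ 2 ≤ 1) (h1' : s' * u ^ 2 ≤ 1)
    (h2 : e ≤ s) (h2' : e ≤ s') :
    dc (bX n a β u e s) (bX n a β u e s') (KX a) = 0 := by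
  have h := dc_bX (β := β) (e := e) hn ha h1 h1' (l := 3 * a + 1) (by omega) le_rfl
  unfold dc at h ⊢
  unfold KX
  rw [show 3 * a + 2 = (3 * a + 1) + 1 by ring, cum_succ, h,
    show 3 * a + 1 + 1 = 3 * a + 2 by ring, sq_E ha h2, sq_E ha h2']
  ring

end basic

/-! ### the supergradient of the bundled law -/

section ag

variable {n a : ℕ} {β u y v δ e s s' w w' : ℝ} {V : {p // p ∈ PX a} → ℝ}

/-- the bundled law -/
noncomputable def fX (n a : ℕ) (β u y v δ e s w : ℝ) (V : {p // p ∈ PX a} → ℝ) : ℝ :=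
  (skS n (KX a) (mX a u y v δ) (bX n a β u e s) (amp (wX a u w) (PX a) V)).fe

/-- the squared overlap at the level `l` -/
noncomputable def TX (n a : ℕ) (β u y v δ e s w : ℝ) (V : {p // p ∈ PX a} → ℝ) (l : ℕ) : ℝ :=
  Tq n (KX a) (mX a u y v δ) (bX n a β u e s) (amp (wX a u w) (PX a) V) l

/-- the overlap at the level `l` -/
noncomputable def RX (n a : ℕ) (β u y v δ e s w : ℝ) (V : {p // p ∈ PX a} → ℝ) (l : ℕ) : ℝ :=
  Rq n (KX a) (mX a u y v δ) (bX n a β u e s) (amp (wX a u w) (PX a) V) l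

/-- the response at the level `p` -/
noncomputable def chX (n a : ℕ) (β u y v δ e s w : ℝ) (V : {p // p ∈ PX a} → ℝ) (p : ℕ) : ℝ :=
  1 - ∑ i ∈ Finset.Ico p (KX a + 1), (mX a u y v δ (i + 1) - mX a u y v δ i) *
    RX n a β u y v δ e s w V i

/-- the slope in the share, unit scale -/
noncomputable def thX (n a : ℕ) (β u y v δ e s w : ℝ) (V : {p // p ∈ PX a} → ℝ) : ℝ :=
  β ^ 2 / 4 * (∑ l ∈ Finset.Ico 1 (3 * a + 2), (mX a u y v δ (l + 1) - mX a u y v δ l) *
    (TX n a β u y v δ e s w V l - 1 / n)) / u ^ 3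

/-- the response in the field, unit scale -/
noncomputable def alX (n a : ℕ) (β u y v δ e s w : ℝ) (V : {p // p ∈ PX a} → ℝ) : ℝ :=
  2 * (β * chX n a β u y v δ e s w V (3 * a + 2) - 1) / u ^ 2

lemma cSK_chX (hn : 0 < n) (p : ℕ) : cSK n (KX a) (mX a u y v δ) (bX n a β u e s)
    (amp (wX a u w) (PX a) V) p = n * chX n a β u y v δ e s w V p := by
  rw [cSK_Rq hn]
  rfl

lemma na_amp (j : ℕ) : 0 ≤ amp (wX a u w) (PX a) V j := by
  unfold amp wX
  split_ifs <;> positivity

lemma amp_E : amp (wX a u w) (PX a) V (3 * a + 2) = √(w * u ^ 3) := by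
  unfold amp wX PX
  rw [dif_neg (by simp), if_pos rfl]

lemma amp_ne {j : ℕ} (hj : j ≠ 3 * a + 2) : amp (wX a u w) (PX a) V j =
    amp (wX a u w') (PX a) V j := by
  unfold amp wX
  rw [if_neg hj, if_neg hj]

/-- **AG in the share** -/
theorem ag_s (hn : 0 < n) (ha : 1 ≤ a) (hu : 0 < u) (hy : 0 < y) (hv : y ≤ v * (1 - δ))
    (hδ : 0 ≤ δ) (hδ1 : δ < 1) (hv1 : u * v ≤ 1) (hβ : 0 ≤ β) (h1 : s * u ^ 2 ≤ 1)
    (h1' : s' * u ^ 2 ≤ 1) (h2 : e ≤ s) (h2' : e ≤ s') :
    fX n a β u y v δ e s' w V ≤ fX n a β u y v δ e s w V +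
      n * u ^ 5 * (thX n a β u y v δ e s w V * (s' - s)) := by
  have hm := em_mX ha hu hy hv hδ hδ1 hv1
  have hn' : (0 : ℝ) < n := by exact_mod_cast hn
  have h := fe_super (n := n) (K := KX a) hm (bX_nonneg (n := n) (a := a) (u := u) (e := e)
    (s := s) hβ) (fun j _ _ => na_amp (a := a) (u := u) (w := w) (V := V) j)
    (bX_nonneg (n := n) (a := a) (u := u) (e := e) (s := s') hβ)
    (fun j _ _ => na_amp (a := a) (u := u) (w := w) (V := V) j)
  rw [gv_abel (bX_nonneg (n := n) (a := a) (u := u) (e := e) (s := s) hβ)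
    (fun j _ _ => na_amp (a := a) (u := u) (w := w) (V := V) j)] at h
  refine h.trans (le_of_eq ?_)
  have hdw : ∀ l, dc (amp (wX a u w) (PX a) V) (amp (wX a u w) (PX a) V) l = 0 := by
    intro l
    unfold dc cum
    simp
  rw [dc_bX_K hn ha h1 h1' h2 h2', hdw]
  have hsum : ∑ l ∈ Finset.Ico 1 (KX a + 1), (mX a u y v δ (l + 1) - mX a u y v δ l) *
      (dc (bX n a β u e s) (bX n a β u e s') l * QB n (KX a) (mX a u y v δ) (bX n a β u e s)
        (amp (wX a u w) (PX a) V) l +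
      dc (amp (wX a u w) (PX a) V) (amp (wX a u w) (PX a) V) l * QW n (KX a) (mX a u y v δ)
        (bX n a β u e s) (amp (wX a u w) (PX a) V) l) =
      -(β ^ 2 * ((s' - s) * u ^ 2) / n) * (n ^ 2 / 2 * ∑ l ∈ Finset.Ico 1 (3 * a + 2),
        (mX a u y v δ (l + 1) - mX a u y v δ l) * (TX n a β u y v δ e s w V l - 1 / n)) := by
    rw [show KX a + 1 = (3 * a + 2) + 1 by unfold KX; ring,
      Finset.sum_Ico_succ_top (by omega : 1 ≤ 3 * a + 2)]
    have e0 : dc (bX n a β u e s) (bX n a β u e s') (3 * a + 2) = 0 := by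
      have := dc_bX_K (β := β) (u := u) hn ha h1 h1' h2 h2'
      unfold KX at this
      exact this
    rw [e0, hdw, zero_mul, zero_mul, add_zero, mul_zero, add_zero, Finset.mul_sum,
      Finset.mul_sum]
    refine Finset.sum_congr rfl fun l hl => ?_
    rw [Finset.mem_Ico] at hl
    rw [dc_bX hn ha h1 h1' hl.1 (by omega), hdw, zero_mul, add_zero,
      QB_eq hn hm (show l ≤ KX a by unfold KX; omega)]
    unfold TX
    field_simp
  rw [hsum]
  unfold fX thX
  field_simp
  ring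

/-- **AG in the field** -/
theorem ag_w (hn : 0 < n) (ha : 1 ≤ a) (hu : 0 < u) (hy : 0 < y) (hv : y ≤ v * (1 - δ))
    (hδ : 0 ≤ δ) (hδ1 : δ < 1) (hv1 : u * v ≤ 1) (hβ : 0 < β) (hw : 0 ≤ w) (hw' : 0 ≤ w') :
    fX n a β u y v δ e s w' V ≤ fX n a β u y v δ e s w V +
      n * u ^ 5 * (alX n a β u y v δ e s w V / (4 * β) * (w' - w)) +
      n * (w' * u ^ 3) / (2 * β) - n * (w * u ^ 3) / (2 * β) := by
  have hm := em_mX ha hu hy hv hδ hδ1 hv1
  have hn' : (0 : ℝ) < n := by exact_mod_cast hn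
  have h := fe_super (n := n) (K := KX a) hm (bX_nonneg (n := n) (a := a) (u := u) (e := e)
    (s := s) hβ.le) (fun j _ _ => na_amp (a := a) (u := u) (w := w) (V := V) j)
    (bX_nonneg (n := n) (a := a) (u := u) (e := e) (s := s) hβ.le)
    (fun j _ _ => na_amp (a := a) (u := u) (w := w') (V := V) j)
  refine h.trans (le_of_eq ?_)
  have hg : gv n (KX a) (mX a u y v δ) (bX n a β u e s) (amp (wX a u w) (PX a) V)
      (bX n a β u e s) (amp (wX a u w') (PX a) V) =
      1 / 2 * ((w' * u ^ 3 - w * u ^ 3) * (n * chX n a β u y v δ e s w V (3 * a + 2))) := by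
    unfold gv
    congr 1
    have hK : (3 * a + 1) < KX a := by unfold KX; omega
    rw [Finset.sum_eq_single (⟨3 * a + 1, hK⟩ : Fin (KX a))]
    · rw [show ((⟨3 * a + 1, hK⟩ : Fin (KX a)) : ℕ) + 1 = 3 * a + 2 from rfl, amp_E, amp_E,
        Real.sq_sqrt (by positivity), Real.sq_sqrt (by positivity), cSK_chX hn]
      ring
    · intro j _ hj
      have hj' : (j : ℕ) + 1 ≠ 3 * a + 2 := by
        intro h
        exact hj (Fin.ext (by simpa using Nat.succ_injective h))
      rw [amp_ne (w := w) (w' := w') (V := V) (u := u) hj']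
      ring
    · intro h
      exact absurd (Finset.mem_univ _) h
  rw [hg]
  unfold fX alX
  field_simp
  ring

end ag

end Vale.Agent.P146.H607
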