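import Vale.Agent.P146.H607.X0

set_option linter.all false

/-!
P146, lower half (helper607): the cross row, lower side (P3), in unit-scale numbers.
-/

open MeasureTheory ProbabilityTheory Finset

namespace Vale.Agent.P146.H607

/-! ### real numbers -/

/-- the error of the L-side in the unit scale -/
noncomputable def errU (β v y δ ϑ₀ γ₀ π₀ τ e₀ N u : ℝ) (a : ℕ) : ℝ :=
  β * (2 * v * (5 * ϑ₀ / (a - 1) + 20 * γ₀ / π₀ ^ 2) + 4 * γ₀ / π₀ + y * δ * ϑ₀) +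
    (τ + β * v / (N * u)) * √ϑ₀ + 3 * (e₀ * u + 2 / (N * u ^ 5)) / τ +
    16 * (e₀ * u ^ 3 + 2 / (N * u ^ 3))

lemma log3_le : Real.log 3 ≤ 2 := by
  have := Real.log_le_sub_one_of_pos (show (0 : ℝ) < 3 by norm_num)
  linarith

lemma log5_le : Real.log 5 ≤ 2 := by
  have h : Real.log 5 ≤ Real.log (Real.exp 1 ^ 2) := by
    refine Real.log_le_log (by norm_num) ?_
    have := Real.exp_one_gt_d9
    nlinarith
  rw [Real.log_pow, Real.log_exp] at h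
  norm_num at h
  exact h

/-- a sharp lower bound of the square root -/
lemma one_sub_sqrt_le {t : ℝ} (h0 : 0 ≤ t) (h1 : t ≤ 1) : 1 - √(1 - t) ≤ t / 2 + t ^ 2 / 2 := by
  have h2 : 1 - t / 2 - t ^ 2 / 2 ≤ √(1 - t) := by
    rcases le_or_gt (1 - t / 2 - t ^ 2 / 2) 0 with h | h
    · exact h.trans (Real.sqrt_nonneg _)
    · refine Real.le_sqrt_of_sq_le ?_
      have : (1 - t / 2 - t ^ 2 / 2) ^ 2 = 1 - t - t ^ 2 * (3 / 4 - t / 2 - t ^ 2 / 4) := by ring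
      rw [this]
      have h3 : 0 ≤ 3 / 4 - t / 2 - t ^ 2 / 4 := by nlinarith
      nlinarith [mul_nonneg (sq_nonneg t) h3]
  linarith

/-- from the response at the level `q` to the response at the level `E`, unit scale -/
lemma al_le {β u s χE χq ρ1 ε1 R : ℝ} (hβ : 0 ≤ β) (hu : 0 < u) (hs : 0 ≤ s)
    (ht : s * u ^ 2 ≤ 1) (hχ : χE - χq ≤ ρ1 * u ^ 2) (hq : |β * χq - 1| ≤ ε1) (hε : ε1 ≤ 1)
    (hR : 2 * (β * √(1 - s * u ^ 2) * χq - 1) ≤ R * u ^ 2) :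
    2 * (β * χE - 1) / u ^ 2 - s ≤ R + 2 * β * ρ1 + ε1 * s + 2 * s ^ 2 * u ^ 2 := by
  set t := s * u ^ 2 with ht'
  have ht0 : 0 ≤ t := by positivity
  have h1 := one_sub_sqrt_le ht0 ht
  have hq' := abs_le.1 hq
  have hX : 0 ≤ β * χq := by linarith
  have h2 : 2 * (β * χq * (1 - √(1 - t))) ≤ β * χq * (t + t ^ 2) := by
    have := mul_le_mul_of_nonneg_left h1 hX
    linarith
  have h3 : β * χq * (t + t ^ 2) ≤ t + ε1 * t + 2 * t ^ 2 := by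
    have h4 : β * χq ≤ 1 + ε1 := by linarith
    calc β * χq * (t + t ^ 2) ≤ (1 + ε1) * (t + t ^ 2) :=
          mul_le_mul_of_nonneg_right h4 (by positivity)
      _ = t + ε1 * t + (1 + ε1) * t ^ 2 := by ring
      _ ≤ t + ε1 * t + 2 * t ^ 2 := by nlinarith [sq_nonneg t]
  have h5 : 2 * (β * χE - 1) ≤ 2 * (β * χq - 1) + 2 * β * ρ1 * u ^ 2 := by
    have := mul_le_mul_of_nonneg_left hχ hβ
    linarith
  have h6 : 2 * (β * χq - 1) = 2 * (β * √(1 - t) * χq - 1) +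
      2 * (β * χq * (1 - √(1 - t))) := by ring
  have h7 : 2 * (β * χE - 1) ≤ (R + 2 * β * ρ1 + s + ε1 * s + 2 * s ^ 2 * u ^ 2) * u ^ 2 := by
    have e1 : (R + 2 * β * ρ1 + s + ε1 * s + 2 * s ^ 2 * u ^ 2) * u ^ 2 =
        R * u ^ 2 + 2 * β * ρ1 * u ^ 2 + t + ε1 * t + 2 * t ^ 2 := by rw [ht']; ring
    rw [e1]
    linarith
  have hu2 : 0 < u ^ 2 := by positivity
  have h8 : 2 * (β * χE - 1) / u ^ 2 ≤ R + 2 * β * ρ1 + s + ε1 * s + 2 * s ^ 2 * u ^ 2 := by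
    rw [div_le_iff₀ hu2]
    exact h7
  linarith

/-- the last step of (P3) -/
lemma p3_last {β v y r A θ ε2 ε3 ϑ₀ : ℝ} (hβ : 0 ≤ β) (hy : 0 < y) (hyv : y < v) (hr : 0 ≤ r)
    (hrϑ : r ^ 2 ≤ ϑ₀) (hε2 : 0 ≤ ε2) (hA : A ≤ β * (2 * v - y) * r + ε2)
    (hθ : β ^ 2 / 4 * ((v - y) * r ^ 2) ≤ θ + ε3) :
    (v - y) / (4 * (2 * v - y) ^ 2) * (max A 0) ^ 2 ≤
      θ + (ε3 + (v - y) / (4 * (2 * v - y) ^ 2) * (2 * (β * (2 * v - y) * √ϑ₀) * ε2 + ε2 ^ 2)) := by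
  have h1 : 0 < 2 * v - y := by linarith
  have hG : 0 ≤ (v - y) / (4 * (2 * v - y) ^ 2) := by
    have : 0 ≤ v - y := by linarith
    positivity
  have hr' : r ≤ √ϑ₀ := Real.le_sqrt_of_sq_le hrϑ
  have hb : 0 ≤ β * (2 * v - y) * r := by positivity
  have h2 : max A 0 ≤ β * (2 * v - y) * r + ε2 := max_le hA (by linarith)
  have h3 : (max A 0) ^ 2 ≤ (β * (2 * v - y) * r + ε2) ^ 2 :=
    pow_le_pow_left₀ (le_max_right _ _) h2 2
  have h4 : (β * (2 * v - y) * r + ε2) ^ 2 ≤ (β * (2 * v - y) * r) ^ 2 +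
      (2 * (β * (2 * v - y) * √ϑ₀) * ε2 + ε2 ^ 2) := by
    have h5 : β * (2 * v - y) * r ≤ β * (2 * v - y) * √ϑ₀ :=
      mul_le_mul_of_nonneg_left hr' (by positivity)
    nlinarith
  have h6 := mul_le_mul_of_nonneg_left (h3.trans h4) hG
  have h7 : (v - y) / (4 * (2 * v - y) ^ 2) * (β * (2 * v - y) * r) ^ 2 =
      β ^ 2 / 4 * ((v - y) * r ^ 2) := by
    have h8 : v * 2 - y ≠ 0 := by linarith
    field_simp
  rw [mul_add, h7] at h6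
  linarith

/-! ### the law -/

section law

open Vale.Agent.P157.Lv Vale.Agent.P157.Lv.Sy
open Vale.Agent.P146.H93 (Cd st am aSK skS Em linS_sk)
open Vale.Agent.P146.H479
open Vale.Agent.P146.H295
open Vale.Agent.P146.H186 (cSK amp amp_mem)
open Vale.Agent.P146.H498.Row (eSK)

variable {n a : ℕ} {β u y v δ e s w : ℝ} {V : {p // p ∈ PX a} → ℝ}

lemma KX_pos : 0 < KX a := by unfold KX; omega

/-- the system of the bundled law -/
noncomputable def SX (n a : ℕ) (β u y v δ e s w : ℝ) (V : {p // p ∈ PX a} → ℝ) :=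
  skS n (KX a) (mX a u y v δ) (bX n a β u e s) (amp (wX a u w) (PX a) V)

lemma amp_pos (hV : ∀ p, 0 < V p) {p : ℕ} (h1 : 1 ≤ p) (h2 : p ≤ 3 * a + 1) :
    0 < amp (wX a u w) (PX a) V p := by
  have hp : p ∈ PX a := by unfold PX; rw [Finset.mem_Icc]; omega
  unfold amp
  rw [dif_pos hp]
  exact Real.sqrt_pos.2 (hV _)

lemma one_mem (a : ℕ) : 1 ∈ PX a := by unfold PX; rw [Finset.mem_Icc]; omega

lemma TX_nonneg (hn : 0 < n) (hm : Em (KX a) (mX a u y v δ)) {l : ℕ} (hl : l ≤ KX a) :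
    0 ≤ TX n a β u y v δ e s w V l := by
  have F := fldP_sk (P := fun p => 1 ≤ p) hn (KX_pos (a := a)) hm (bX n a β u e s)
    (amp (wX a u w) (PX a) V) fun p h => h
  exact F.hreg.pairEx_nonneg hl fun x x' => sq_nonneg _

lemma TX_mono (hn : 0 < n) (hm : Em (KX a) (mX a u y v δ)) {l l' : ℕ} (hl : l ≤ l')
    (hl' : l' ≤ KX a) : TX n a β u y v δ e s w V l ≤ TX n a β u y v δ e s w V l' := by
  have F := fldP_sk (P := fun p => 1 ≤ p) hn (KX_pos (a := a)) hm (bX n a β u e s)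
    (amp (wX a u w) (PX a) V) fun p h => h
  exact Th_mono F hl hl'

lemma RX_nonneg (hn : 0 < n) (hm : Em (KX a) (mX a u y v δ)) {l : ℕ} (hl : l ≤ KX a) :
    0 ≤ RX n a β u y v δ e s w V l := by
  have F := fldP_sk (P := fun p => 1 ≤ p) hn (KX_pos (a := a)) hm (bX n a β u e s)
    (amp (wX a u w) (PX a) V) fun p h => h
  exact F.Rl_nonneg hl

lemma RX_sq_le (hn : 0 < n) (hm : Em (KX a) (mX a u y v δ)) {l : ℕ} (hl : l ≤ KX a) :
    RX n a β u y v δ e s w V l ^ 2 ≤ TX n a β u y v δ e s w V l := by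
  have F := fldP_sk (P := fun p => 1 ≤ p) hn (KX_pos (a := a)) hm (bX n a β u e s)
    (amp (wX a u w) (PX a) V) fun p h => h
  exact Rl_sq_le F hl

lemma mX_one_le (ha1 : 1 ≤ a) (hu : 0 < u) (hy : 0 < y) (hδ : 0 ≤ δ) :
    mX a u y v δ 1 ≤ u * y := by
  rw [mX_A le_rfl ha1]
  refine mul_le_mul_of_nonneg_left ?_ hu.le
  have ha' : (1 : ℝ) ≤ a := by exact_mod_cast ha1
  have h1 : ((1 : ℕ) : ℝ) / a ≤ 1 := by
    rw [div_le_one (by linarith)]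
    push_cast
    linarith
  have h2 : 1 - δ + δ * (((1 : ℕ) : ℝ) / a) ≤ 1 := by nlinarith
  calc y * (1 - δ + δ * (((1 : ℕ) : ℝ) / a)) ≤ y * 1 := mul_le_mul_of_nonneg_left h2 hy.le
    _ = y := mul_one _

lemma mX_q_le (hu : 0 < u) (hv0 : 0 < v) (hδ : 0 ≤ δ) : mX a u y v δ (a + 1) ≤ u * v := by
  rw [mX_V (by omega) (by omega)]
  refine mul_le_mul_of_nonneg_left ?_ hu.le
  have ha' : (0 : ℝ) ≤ a := Nat.cast_nonneg a
  have e1 : (((a + 1 : ℕ) : ℝ) - a) / (2 * a + 2) ≤ 1 := by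
    rw [div_le_one (by positivity)]
    push_cast
    linarith
  have h2 : 1 - δ + δ * ((((a + 1 : ℕ) : ℝ) - a) / (2 * a + 2)) ≤ 1 := by nlinarith
  calc v * (1 - δ + δ * ((((a + 1 : ℕ) : ℝ) - a) / (2 * a + 2))) ≤ v * 1 :=
        mul_le_mul_of_nonneg_left h2 hv0.le
    _ = v := mul_one _

lemma mX_q_ge (hu : 0 < u) (hv0 : 0 < v) (hδ : 0 ≤ δ) :
    u * (v * (1 - δ)) ≤ mX a u y v δ (a + 1) := by
  rw [mX_V (by omega) (by omega)]
  refine mul_le_mul_of_nonneg_left (mul_le_mul_of_nonneg_left ?_ hv0.le) hu.le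
  have ha' : (0 : ℝ) ≤ a := Nat.cast_nonneg a
  have e1 : 0 ≤ δ * ((((a + 1 : ℕ) : ℝ) - a) / (2 * a + 2)) := by
    refine mul_nonneg hδ (div_nonneg ?_ (by positivity))
    push_cast
    linarith
  linarith

lemma mX_pa (ha1 : 1 ≤ a) (hu : 0 < u) (hv0 : 0 < v) (hδ : 0 ≤ δ) :
    u * (v * (1 - δ) - y) ≤ mX a u y v δ (a + 1) - mX a u y v δ a := by
  rw [mX_a ha1]
  have h1 := mX_q_ge (a := a) (y := y) hu hv0 hδ
  have : u * (v * (1 - δ) - y) = u * (v * (1 - δ)) - u * y := by ring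
  linarith

/-- the error of the L-side in the unit scale -/
lemma errX (hn : 0 < n) (ha : 2 ≤ a) (hu : 0 < u) (hy : 0 < y)
    (hyv : y < v) (hδ : 0 ≤ δ) (hm10 : 0 < mX a u y v δ 1) (hβ : 0 ≤ β)
    {γ₀ π₀ ϑ₀ τ e₀ M : ℝ} (hπ : 0 < π₀) (hγ0 : 0 ≤ γ₀) (hϑ0 : 0 ≤ ϑ₀) (hτ : 0 < τ)
    (hs : 0 ≤ s)
    (heS : eSK n (KX a) (mX a u y v δ) (bX n a β u e s) (amp (wX a u w) (PX a) V) M ≤
      e₀ * n * u ^ 6) :
    errL n (KX a) (mX a u y v δ) (bX n a β u e s) (amp (wX a u w) (PX a) V) a (a + 1)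
      (π₀ * u) (γ₀ * u ^ 4) (ϑ₀ * u ^ 2) (τ * u ^ 2) M ≤
      u ^ 3 * errU β v y δ ϑ₀ γ₀ π₀ τ e₀ n u a := by
  have ha1 : 1 ≤ a := by omega
  have ha' : (2 : ℝ) ≤ a := by exact_mod_cast ha
  have hn' : (0 : ℝ) < n := by exact_mod_cast hn
  have hα : (0 : ℝ) < (a : ℝ) - 1 := by linarith
  have hsϑ : √(ϑ₀ * u ^ 2) = √ϑ₀ * u := by
    rw [Real.sqrt_mul hϑ0, Real.sqrt_sq hu.le]
  have hv0 : 0 < v := hy.trans hyv
  obtain ⟨q, hq⟩ : ∃ q, q = √(1 - s * u ^ 2) := ⟨_, rfl⟩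
  have hq0 : 0 ≤ q := by rw [hq]; exact Real.sqrt_nonneg _
  have hq1 : q ≤ 1 := by
    rw [hq]
    refine Real.sqrt_le_one.2 ?_
    have : 0 ≤ s * u ^ 2 := by positivity
    linarith
  have hb1 : bX n a β u e s 1 * √(n : ℝ) = β * q := by rw [hq]; exact bX_one_sqrt hn
  have hB0 : 0 ≤ β * q := by positivity
  have hBβ : β * q ≤ β := by
    calc β * q ≤ β * 1 := mul_le_mul_of_nonneg_left hq1 hβ
      _ = β := mul_one _
  have hm1 := mX_one_le (v := v) ha1 hu hy hδ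
  have hm1' : u * (y * (1 - δ)) ≤ mX a u y v δ 1 := mX_one_ge ha1 hu.le hy.le hδ
  have hmq := mX_q_le (a := a) (y := y) hu hv0 hδ
  have hmq0 := mX_q_ge (a := a) (y := y) hu hv0 hδ
  obtain ⟨M1, hM1⟩ : ∃ M1, M1 = mX a u y v δ 1 := ⟨_, rfl⟩
  obtain ⟨Mq, hMq⟩ : ∃ Mq, Mq = mX a u y v δ (a + 1) := ⟨_, rfl⟩
  obtain ⟨E0, hE0⟩ : ∃ E0, E0 = eSK n (KX a) (mX a u y v δ) (bX n a β u e s)
    (amp (wX a u w) (PX a) V) M := ⟨_, rfl⟩
  unfold errL errU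
  rw [hb1, hsϑ, mX_a ha1]
  rw [← hM1] at hm1 hm1' hm10
  rw [← hMq] at hmq hmq0
  rw [← hE0] at heS
  rw [← hM1, ← hMq, ← hE0]
  have i1 : β * q * (2 * Mq * (5 * (ϑ₀ * u ^ 2) / (a - 1) +
      20 * (γ₀ * u ^ 4) / (π₀ * u) ^ 2) + 4 * (γ₀ * u ^ 4) / (π₀ * u) +
      (u * y - M1) * (ϑ₀ * u ^ 2)) ≤
      u ^ 3 * (β * (2 * v * (5 * ϑ₀ / (a - 1) + 20 * γ₀ / π₀ ^ 2) + 4 * γ₀ / π₀ +
        y * δ * ϑ₀)) := by
    have j1 : 0 ≤ 5 * (ϑ₀ * u ^ 2) / ((a : ℝ) - 1) + 20 * (γ₀ * u ^ 4) / (π₀ * u) ^ 2 := by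
      positivity
    have j2 : 2 * Mq * (5 * (ϑ₀ * u ^ 2) / (a - 1) +
        20 * (γ₀ * u ^ 4) / (π₀ * u) ^ 2) ≤ 2 * (u * v) * (5 * (ϑ₀ * u ^ 2) / (a - 1) +
        20 * (γ₀ * u ^ 4) / (π₀ * u) ^ 2) :=
      mul_le_mul_of_nonneg_right (by linarith) j1
    have j3 : (u * y - M1) * (ϑ₀ * u ^ 2) ≤ (u * (y * δ)) * (ϑ₀ * u ^ 2) := by
      refine mul_le_mul_of_nonneg_right ?_ (by positivity)
      have : u * (y * (1 - δ)) = u * y - u * (y * δ) := by ring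
      linarith
    have j0 : 0 ≤ 2 * (u * v) * (5 * (ϑ₀ * u ^ 2) / ((a : ℝ) - 1) +
        20 * (γ₀ * u ^ 4) / (π₀ * u) ^ 2) + 4 * (γ₀ * u ^ 4) / (π₀ * u) +
        (u * (y * δ)) * (ϑ₀ * u ^ 2) := by positivity
    have j4 : 2 * Mq * (5 * (ϑ₀ * u ^ 2) / (a - 1) +
        20 * (γ₀ * u ^ 4) / (π₀ * u) ^ 2) + 4 * (γ₀ * u ^ 4) / (π₀ * u) +
        (u * y - M1) * (ϑ₀ * u ^ 2) ≤ 2 * (u * v) * (5 * (ϑ₀ * u ^ 2) / (a - 1) +
        20 * (γ₀ * u ^ 4) / (π₀ * u) ^ 2) + 4 * (γ₀ * u ^ 4) / (π₀ * u) +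
        (u * (y * δ)) * (ϑ₀ * u ^ 2) := by linarith
    calc _ ≤ β * q * (2 * (u * v) * (5 * (ϑ₀ * u ^ 2) / (a - 1) +
        20 * (γ₀ * u ^ 4) / (π₀ * u) ^ 2) + 4 * (γ₀ * u ^ 4) / (π₀ * u) +
        (u * (y * δ)) * (ϑ₀ * u ^ 2)) := mul_le_mul_of_nonneg_left j4 hB0
      _ ≤ β * (2 * (u * v) * (5 * (ϑ₀ * u ^ 2) / (a - 1) +
        20 * (γ₀ * u ^ 4) / (π₀ * u) ^ 2) + 4 * (γ₀ * u ^ 4) / (π₀ * u) +
        (u * (y * δ)) * (ϑ₀ * u ^ 2)) := mul_le_mul_of_nonneg_right hBβ j0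
      _ = _ := by field_simp
  have i2 : (τ * u ^ 2 + β * q * M1 / n) * (√ϑ₀ * u) ≤
      u ^ 3 * ((τ + β * v / (n * u)) * √ϑ₀) := by
    have j1 : β * q * M1 / n ≤ β * (u * v) / n := by
      refine div_le_div_of_nonneg_right ?_ hn'.le
      exact mul_le_mul hBβ (hm1.trans (mul_le_mul_of_nonneg_left hyv.le hu.le)) hm10.le hβ
    have j2 : β * (u * v) / n = β * v / (n * u) * u ^ 2 := by field_simp
    calc _ ≤ (τ * u ^ 2 + β * v / (n * u) * u ^ 2) * (√ϑ₀ * u) :=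
          mul_le_mul_of_nonneg_right (by linarith) (by positivity)
      _ = _ := by ring
  have i3 : 3 * (E0 + Real.log 3) / (n * (τ * u ^ 2)) ≤
      u ^ 3 * (3 * (e₀ * u + 2 / (n * u ^ 5)) / τ) := by
    have h3 := log3_le
    calc _ ≤ 3 * (e₀ * n * u ^ 6 + 2) / (n * (τ * u ^ 2)) := by
          refine div_le_div_of_nonneg_right ?_ (by positivity)
          linarith
      _ = _ := by field_simp
  have i4 : 16 * (E0 + Real.log 5) / n ≤ u ^ 3 * (16 * (e₀ * u ^ 3 + 2 / (n * u ^ 3))) := by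
    have h5 := log5_le
    calc _ ≤ 16 * (e₀ * n * u ^ 6 + 2) / n := by
          refine div_le_div_of_nonneg_right ?_ hn'.le
          linarith
      _ = _ := by field_simp
  calc _ ≤ u ^ 3 * (β * (2 * v * (5 * ϑ₀ / (a - 1) + 20 * γ₀ / π₀ ^ 2) + 4 * γ₀ / π₀ +
        y * δ * ϑ₀)) + u ^ 3 * ((τ + β * v / (n * u)) * √ϑ₀) +
        u ^ 3 * (3 * (e₀ * u + 2 / (n * u ^ 5)) / τ) +
        u ^ 3 * (16 * (e₀ * u ^ 3 + 2 / (n * u ^ 3))) :=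
      add_le_add (add_le_add (add_le_add i1 i2) i3) i4
    _ = _ := by ring

/-- the responses at the two ends of the `v`-bundles -/
lemma chX_diff (hn : 0 < n) (hm : Em (KX a) (mX a u y v δ)) (hu : 0 < u) (hv0 : 0 < v)
    (hδ : 0 ≤ δ) {ϑ₀ : ℝ} (hϑ0 : 0 ≤ ϑ₀)
    (hϑ : TX n a β u y v δ e s w V (3 * a + 1) ≤ ϑ₀ * u ^ 2) :
    chX n a β u y v δ e s w V (3 * a + 2) - chX n a β u y v δ e s w V (a + 1) ≤
      (v * δ * √ϑ₀) * u ^ 2 := by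
  unfold chX
  have h1 : ∑ i ∈ Finset.Ico (a + 1) (KX a + 1), (mX a u y v δ (i + 1) - mX a u y v δ i) *
      RX n a β u y v δ e s w V i = ∑ i ∈ Finset.Ico (a + 1) (3 * a + 2),
      (mX a u y v δ (i + 1) - mX a u y v δ i) * RX n a β u y v δ e s w V i +
      ∑ i ∈ Finset.Ico (3 * a + 2) (KX a + 1), (mX a u y v δ (i + 1) - mX a u y v δ i) *
      RX n a β u y v δ e s w V i :=
    (Finset.sum_Ico_consecutive _ (by omega) (by unfold KX; omega)).symm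
  rw [h1]
  have h2 : ∑ i ∈ Finset.Ico (a + 1) (3 * a + 2), (mX a u y v δ (i + 1) - mX a u y v δ i) *
      RX n a β u y v δ e s w V i ≤ ∑ i ∈ Finset.Ico (a + 1) (3 * a + 2),
      (mX a u y v δ (i + 1) - mX a u y v δ i) * (√ϑ₀ * u) := by
    refine Finset.sum_le_sum fun i hi => ?_
    rw [Finset.mem_Ico] at hi
    refine mul_le_mul_of_nonneg_left ?_ (by linarith [hm.mono i (by unfold KX; omega)])
    have h3 := RX_sq_le (β := β) (e := e) (s := s) (w := w) (V := V) hn hm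
      (show i ≤ KX a by unfold KX; omega)
    have h4 := h3.trans ((TX_mono hn hm (show i ≤ 3 * a + 1 by omega)
      (by unfold KX; omega)).trans hϑ)
    have h5 := Real.le_sqrt_of_sq_le h4
    rwa [Real.sqrt_mul hϑ0, Real.sqrt_sq hu.le] at h5
  have h3 : ∑ i ∈ Finset.Ico (a + 1) (3 * a + 2), (mX a u y v δ (i + 1) - mX a u y v δ i) *
      (√ϑ₀ * u) = (mX a u y v δ (3 * a + 2) - mX a u y v δ (a + 1)) * (√ϑ₀ * u) := by
    rw [← Finset.sum_mul]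
    congr 1
    exact Finset.sum_Ico_sub (fun i => mX a u y v δ i) (by omega)
  rw [h3, mX_E] at h2
  have hmq0 := mX_q_ge (a := a) (y := y) hu hv0 hδ
  have h4 : (u * v - mX a u y v δ (a + 1)) * (√ϑ₀ * u) ≤ (u * (v * δ)) * (√ϑ₀ * u) := by
    refine mul_le_mul_of_nonneg_right ?_ (by positivity)
    have : u * (v * (1 - δ)) = u * v - u * (v * δ) := by ring
    linarith
  have h5 : (u * (v * δ)) * (√ϑ₀ * u) = (v * δ * √ϑ₀) * u ^ 2 := by ring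
  linarith

/-- lower bound of the slope -/
lemma thX_ge (hn : 0 < n) (ha1 : 1 ≤ a) (hm : Em (KX a) (mX a u y v δ)) (hu : 0 < u)
    (hv0 : 0 < v) (hδ : 0 ≤ δ) {ϑ₀ r : ℝ}
    (hρr : RX n a β u y v δ e s w V a = r * u) (hrϑ : r ^ 2 ≤ ϑ₀) :
    β ^ 2 / 4 * ((v - y) * r ^ 2) ≤ thX n a β u y v δ e s w V +
      β ^ 2 / 4 * (v * δ * ϑ₀ + v / (n * u ^ 2)) := by
  have hn' : (0 : ℝ) < n := by exact_mod_cast hn
  have hKa : a ≤ KX a := by unfold KX; omega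
  have hpa := mX_pa (y := y) ha1 hu hv0 hδ
  have hm10 := hm.pos
  have h1 : u * ((v - y) - v * δ) * (r * u) ^ 2 - u * v / n ≤ ∑ l ∈ Finset.Ico 1 (3 * a + 2),
      (mX a u y v δ (l + 1) - mX a u y v δ l) * (TX n a β u y v δ e s w V l - 1 / n) := by
    have h2 : ∑ l ∈ Finset.Ico 1 (3 * a + 2), (mX a u y v δ (l + 1) - mX a u y v δ l) *
        (TX n a β u y v δ e s w V l - 1 / n) = ∑ l ∈ Finset.Ico 1 (3 * a + 2),
        (mX a u y v δ (l + 1) - mX a u y v δ l) * TX n a β u y v δ e s w V l -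
        (mX a u y v δ (3 * a + 2) - mX a u y v δ 1) / n := by
      rw [← Finset.sum_Ico_sub (fun i => mX a u y v δ i) (show 1 ≤ 3 * a + 2 by omega),
        Finset.sum_div, ← Finset.sum_sub_distrib]
      refine Finset.sum_congr rfl fun l _ => ?_
      ring
    rw [h2]
    have h3 : (mX a u y v δ (a + 1) - mX a u y v δ a) * TX n a β u y v δ e s w V a ≤
        ∑ l ∈ Finset.Ico 1 (3 * a + 2),
        (mX a u y v δ (l + 1) - mX a u y v δ l) * TX n a β u y v δ e s w V l := by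
      refine Finset.single_le_sum (f := fun l => (mX a u y v δ (l + 1) - mX a u y v δ l) *
        TX n a β u y v δ e s w V l) (fun l hl => ?_) (Finset.mem_Ico.2 ⟨ha1, by omega⟩)
      rw [Finset.mem_Ico] at hl
      exact mul_nonneg (by linarith [hm.mono l (by unfold KX; omega)])
        (TX_nonneg hn hm (by unfold KX; omega))
    have h4 : u * ((v - y) - v * δ) * (r * u) ^ 2 ≤
        (mX a u y v δ (a + 1) - mX a u y v δ a) * TX n a β u y v δ e s w V a := by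
      have h5 : u * ((v - y) - v * δ) ≤ mX a u y v δ (a + 1) - mX a u y v δ a := by
        have : u * ((v - y) - v * δ) = u * (v * (1 - δ) - y) := by ring
        linarith
      have h7 := RX_sq_le (β := β) (e := e) (s := s) (w := w) (V := V) hn hm hKa
      rw [hρr] at h7
      refine mul_le_mul h5 h7 (sq_nonneg _) ?_
      linarith [hm.mono a (by unfold KX; omega)]
    have h6 : (mX a u y v δ (3 * a + 2) - mX a u y v δ 1) / n ≤ u * v / n := by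
      rw [mX_E]
      exact div_le_div_of_nonneg_right (by linarith) hn'.le
    linarith
  have hu3 : 0 < u ^ 3 := by positivity
  unfold thX
  have h7 : β ^ 2 / 4 * (u * ((v - y) - v * δ) * (r * u) ^ 2 - u * v / n) / u ^ 3 ≤
      β ^ 2 / 4 * (∑ l ∈ Finset.Ico 1 (3 * a + 2), (mX a u y v δ (l + 1) - mX a u y v δ l) *
        (TX n a β u y v δ e s w V l - 1 / n)) / u ^ 3 :=
    div_le_div_of_nonneg_right (mul_le_mul_of_nonneg_left h1 (by positivity)) hu3.le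
  have h8 : β ^ 2 / 4 * (u * ((v - y) - v * δ) * (r * u) ^ 2 - u * v / n) / u ^ 3 =
      β ^ 2 / 4 * ((v - y) * r ^ 2 - v * δ * r ^ 2 - v / (n * u ^ 2)) := by
    field_simp
  have h9 : v * δ * r ^ 2 ≤ v * δ * ϑ₀ := mul_le_mul_of_nonneg_left hrϑ (by positivity)
  have h10 : β ^ 2 / 4 * (v * δ * r ^ 2) ≤ β ^ 2 / 4 * (v * δ * ϑ₀) :=
    mul_le_mul_of_nonneg_left h9 (by positivity)
  rw [h8] at h7
  have e1 : β ^ 2 / 4 * ((v - y) * r ^ 2 - v * δ * r ^ 2 - v / (n * u ^ 2)) =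
      β ^ 2 / 4 * ((v - y) * r ^ 2) - β ^ 2 / 4 * (v * δ * r ^ 2) -
      β ^ 2 / 4 * (v / (n * u ^ 2)) := by ring
  have e2 : β ^ 2 / 4 * (v * δ * ϑ₀ + v / (n * u ^ 2)) = β ^ 2 / 4 * (v * δ * ϑ₀) +
    β ^ 2 / 4 * (v / (n * u ^ 2)) := by ring
  rw [e1] at h7
  rw [e2]
  linarith

/-- the effect of the field of the level one -/
lemma zetaX (hu : 0 < u) {κ₁ B X m1 V1 : ℝ} (hβ : 1 ≤ β) (hκ : 0 < κ₁) (hm1 : 0 < m1)
    (hm1' : m1 ≤ 1) (hV0 : 0 < V1) (hV1 : V1 ≤ 1) (hVκ : κ₁ * u ^ 3 ≤ V1)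
    (hX : 3 / 4 ≤ β * X) (hB : B * X ≤ 5 / 4) :
    κ₁ * u ^ 3 / (100 * β ^ 2) ≤ V1 * X ^ 2 * (2 - B * X) ^ 2 / (7 * (1 + m1 * V1)) := by
  have hβ0 : 0 < β := by linarith
  have h1 : m1 * V1 ≤ 1 := by
    calc m1 * V1 ≤ 1 * 1 := mul_le_mul hm1' hV1 hV0.le zero_le_one
      _ = 1 := one_mul 1
  have h3 : 9 / 16 / β ^ 2 ≤ X ^ 2 := by
    rw [div_le_iff₀ (by positivity)]
    nlinarith
  have h4 : 9 / 16 ≤ (2 - B * X) ^ 2 := by nlinarith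
  have h5 : 0 < m1 * V1 := mul_pos hm1 hV0
  rw [le_div_iff₀ (by positivity)]
  have h6 : κ₁ * u ^ 3 * (9 / 16 / β ^ 2) * (9 / 16) ≤ V1 * X ^ 2 * (2 - B * X) ^ 2 := by
    refine mul_le_mul (mul_le_mul hVκ h3 (by positivity) hV0.le) h4 (by norm_num) ?_
    exact mul_nonneg hV0.le (sq_nonneg _)
  refine le_trans ?_ h6
  have h7 : 7 * (1 + m1 * V1) ≤ 14 := by linarith
  have hz : 0 < κ₁ * u ^ 3 / (100 * β ^ 2) := by positivity
  calc κ₁ * u ^ 3 / (100 * β ^ 2) * (7 * (1 + m1 * V1)) ≤ κ₁ * u ^ 3 / (100 * β ^ 2) * 14 :=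
        mul_le_mul_of_nonneg_left h7 hz.le
    _ ≤ κ₁ * u ^ 3 * (9 / 16 / β ^ 2) * (9 / 16) := by
        have : κ₁ * u ^ 3 / (100 * β ^ 2) * 14 = κ₁ * u ^ 3 / β ^ 2 * (14 / 100) := by
          field_simp
        rw [this]
        have h8 : κ₁ * u ^ 3 * (9 / 16 / β ^ 2) * (9 / 16) = κ₁ * u ^ 3 / β ^ 2 *
          (81 / 256) := by field_simp; norm_num
        rw [h8]
        have : 0 ≤ κ₁ * u ^ 3 / β ^ 2 := by positivity
        nlinarith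

/-- the L-side for the law -/
theorem lsideX (hn : 0 < n) (ha : 2 ≤ a) (hu : 0 < u) (hu1 : u ≤ 1) (hy : 0 < y)
    (hyv : y < v) (hv : y ≤ v * (1 - δ)) (hδ : 0 ≤ δ) (hδ1 : δ < 1) (hv1 : u * v ≤ 1)
    (hβ : 1 ≤ β) (hs : 0 ≤ s) (hsu : s * u ^ 2 ≤ 1) (hV : ∀ p, 0 < V p)
    {κ₁ γ₀ π₀ ϑ₀ τ e₀ ε₁ M η : ℝ} (hκ : 0 < κ₁) (hVκ : κ₁ * u ^ 3 ≤ V ⟨1, one_mem a⟩)
    (hV1 : V ⟨1, one_mem a⟩ ≤ 1) (hπ : 0 < π₀) (hπA : π₀ ≤ y * δ / a)
    (hπg : π₀ ≤ v * (1 - δ) - y) (hγ0 : 0 ≤ γ₀)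
    (hγ : ∀ l, 1 ≤ l → l ≤ a + 1 → gg (SX n a β u y v δ e s w V) (spn n) (zs (KX_pos (a := a)))
      (amp (wX a u w) (PX a) V) l l ≤ γ₀ * u ^ 4)
    (hϑ0 : 0 ≤ ϑ₀) (hϑa : TX n a β u y v δ e s w V a ≤ ϑ₀ * u ^ 2)
    (hτ : 0 < τ) (hτ1 : τ * u ^ 2 ≤ 1) (hM : mX a u y v δ 1 < M)
    (heS : eSK n (KX a) (mX a u y v δ) (bX n a β u e s) (amp (wX a u w) (PX a) V) M ≤
      e₀ * n * u ^ 6)
    (hε1 : ε₁ ≤ 1 / 4) (hχ1 : |β * chX n a β u y v δ e s w V 1 - 1| ≤ ε₁)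
    (hη : 0 ≤ η) (hη1 : η ≤ 1)
    (herr : errU β v y δ ϑ₀ γ₀ π₀ τ e₀ n u a ≤ η * (κ₁ / (100 * β ^ 2)) / 2) :
    2 * (β * √(1 - s * u ^ 2) * chX n a β u y v δ e s w V (a + 1) - 1) ≤
    β * √(1 - s * u ^ 2) * (2 * mX a u y v δ (a + 1) - mX a u y v δ 1) * (1 + η) *
      RX n a β u y v δ e s w V a := by
  have ha1 : 1 ≤ a := by omega
  have hm := em_mX (u := u) (y := y) (v := v) (δ := δ) ha1 hu hy hv hδ hδ1 hv1
  have hv0 : 0 < v := hy.trans hyv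
  have hβ0 : 0 < β := by linarith
  have hm10 : 0 < mX a u y v δ 1 := hm.pos
  have hm1 := mX_one_le (v := v) ha1 hu hy hδ
  have hpa := mX_pa (y := y) ha1 hu hv0 hδ
  have herr1 := errX (V := V) (w := w) (e := e) (s := s) hn ha hu hy hyv hδ hm10 hβ0.le hπ hγ0
    hϑ0 hτ hs heS
  have hsq0 : 0 ≤ √(1 - s * u ^ 2) := Real.sqrt_nonneg _
  have hsq1 : √(1 - s * u ^ 2) ≤ 1 := by
    refine Real.sqrt_le_one.2 ?_
    have : 0 ≤ s * u ^ 2 := by positivity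
    linarith
  have hb1 : bX n a β u e s 1 * √(n : ℝ) = β * √(1 - s * u ^ 2) := bX_one_sqrt hn
  have c1 := abs_le.1 hχ1
  have hBχ : β * √(1 - s * u ^ 2) * chX n a β u y v δ e s w V 1 ≤ 5 / 4 := by
    have e1 : β * √(1 - s * u ^ 2) * chX n a β u y v δ e s w V 1 =
      √(1 - s * u ^ 2) * (β * chX n a β u y v δ e s w V 1) := by ring
    rw [e1]
    have h1 : 0 ≤ β * chX n a β u y v δ e s w V 1 := by linarith
    calc √(1 - s * u ^ 2) * (β * chX n a β u y v δ e s w V 1) ≤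
        1 * (β * chX n a β u y v δ e s w V 1) := mul_le_mul_of_nonneg_right hsq1 h1
      _ ≤ 5 / 4 := by linarith
  have hw1sq : amp (wX a u w) (PX a) V 1 ^ 2 = V ⟨1, one_mem a⟩ := by
    unfold amp
    rw [dif_pos (one_mem a), Real.sq_sqrt (hV _).le]
  have hζ : 0 < κ₁ * u ^ 3 / (100 * β ^ 2) := by positivity
  have hζ1 : κ₁ * u ^ 3 / (100 * β ^ 2) ≤ amp (wX a u w) (PX a) V 1 ^ 2 *
      chX n a β u y v δ e s w V 1 ^ 2 * (2 - bX n a β u e s 1 * √(n : ℝ) *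
        chX n a β u y v δ e s w V 1) ^ 2 /
      (7 * (1 + mX a u y v δ 1 * amp (wX a u w) (PX a) V 1 ^ 2)) := by
    rw [hb1, hw1sq]
    refine zetaX hu hβ hκ hm10 ?_ (hV _) hV1 hVκ (by linarith) hBχ
    refine hm1.trans ?_
    have : u * y ≤ u * v := mul_le_mul_of_nonneg_left hyv.le hu.le
    linarith
  have herr' : errL n (KX a) (mX a u y v δ) (bX n a β u e s) (amp (wX a u w) (PX a) V) a (a + 1)
      (π₀ * u) (γ₀ * u ^ 4) (ϑ₀ * u ^ 2) (τ * u ^ 2) M ≤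
      η * (κ₁ * u ^ 3 / (100 * β ^ 2)) / 2 := by
    refine herr1.trans ?_
    calc u ^ 3 * errU β v y δ ϑ₀ γ₀ π₀ τ e₀ n u a ≤ u ^ 3 * (η * (κ₁ / (100 * β ^ 2)) / 2) :=
          mul_le_mul_of_nonneg_left herr (by positivity)
      _ = _ := by ring
  have hL := lside_num (n := n) (K := KX a) (m := mX a u y v δ) (b := bX n a β u e s)
    (w := amp (wX a u w) (PX a) V) hn KX_pos hm (bX_nonneg hβ0.le 1 le_rfl (by unfold KX; omega))
    (c := a) (q := a + 1) (by omega) (by omega) (by unfold KX; omega)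
    (fun p h1 h2 => amp_pos hV h1 (by omega)) (π := π₀ * u) (γ := γ₀ * u ^ 4) (ϑ := ϑ₀ * u ^ 2)
    (by positivity) (fun l h1 h2 => by
      rcases Nat.lt_or_ge l a with h | h
      · rw [mX_stepA h1 h]
        have : u * y * δ / a = y * δ / a * u := by ring
        rw [this]
        exact mul_le_mul_of_nonneg_right hπA hu.le
      · obtain rfl : l = a := by omega
        refine le_trans ?_ hpa
        rw [mul_comm]
        exact mul_le_mul_of_nonneg_left hπg hu.le)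
    hγ hϑa (D0 := τ * u ^ 2) (M := M) (χ1 := chX n a β u y v δ e s w V 1)
    (χq := chX n a β u y v δ e s w V (a + 1)) (by positivity) hτ1 hM rfl rfl
    (by rw [hb1]; linarith) hζ hζ1 (e := η * (κ₁ * u ^ 3 / (100 * β ^ 2)) / 2) (by positivity)
    herr' (by nlinarith)
  obtain ⟨hL1, -, -⟩ := hL
  have eη : 2 * (η * (κ₁ * u ^ 3 / (100 * β ^ 2)) / 2) / (κ₁ * u ^ 3 / (100 * β ^ 2)) = η := by
    field_simp
  rw [eη, hb1, show a + 1 - 1 = a by omega] at hL1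
  exact hL1

lemma l2X {q X M1 Mq r η : ℝ} (hu : 0 < u) (hy : 0 < y) (hyv : y < v) (hδ : 0 ≤ δ) (hβ : 0 ≤ β)
    (hq0 : 0 ≤ q) (hq1 : q ≤ 1) (hmq : Mq ≤ u * v) (hm1 : u * (y * (1 - δ)) ≤ M1) (hη : 0 ≤ η)
    (hr : 0 ≤ r) (hL1 : X ≤ β * q * (2 * Mq - M1) * (1 + η) * (r * u)) :
    X ≤ (β * (2 * v - y + y * δ) * (1 + η) * r) * u ^ 2 := by
  have h1 : 2 * Mq - M1 ≤ u * (2 * v - y + y * δ) := by
    have : u * (2 * v - y + y * δ) = 2 * (u * v) - u * (y * (1 - δ)) := by ring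
    linarith
  have h0 : 0 ≤ 2 * v - y + y * δ := by
    have := mul_nonneg hy.le hδ
    linarith
  have h2 : β * q * (2 * Mq - M1) ≤ β * (u * (2 * v - y + y * δ)) := by
    calc β * q * (2 * Mq - M1) ≤ β * q * (u * (2 * v - y + y * δ)) :=
          mul_le_mul_of_nonneg_left h1 (by positivity)
      _ ≤ β * 1 * (u * (2 * v - y + y * δ)) := by
          refine mul_le_mul_of_nonneg_right (mul_le_mul_of_nonneg_left hq1 hβ) ?_
          positivity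
      _ = _ := by ring
  calc X ≤ β * q * (2 * Mq - M1) * (1 + η) * (r * u) := hL1
    _ ≤ β * (u * (2 * v - y + y * δ)) * (1 + η) * (r * u) := by
        refine mul_le_mul_of_nonneg_right (mul_le_mul_of_nonneg_right h2 (by linarith)) ?_
        positivity
    _ = _ := by ring

lemma l3X {r η q : ℝ} (hy : 0 < y) (hδ1 : δ < 1) (hβ : 0 ≤ β) (hη : 0 ≤ η) (hr0 : 0 ≤ r)
    (hv0 : 0 < v) (hδ : 0 ≤ δ) (hrs : r ≤ q) :
    β * (2 * v - y + y * δ) * (1 + η) * r ≤ β * (2 * v - y) * r +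
      β * (y * δ + η * (2 * v)) * q := by
  have h1 : β * (2 * v - y + y * δ) * (1 + η) * r = β * (2 * v - y) * r +
      β * (y * δ + η * (2 * v - y * (1 - δ))) * r := by ring
  rw [h1]
  have h2 : 2 * v - y * (1 - δ) ≤ 2 * v := by
    have : 0 ≤ y * (1 - δ) := mul_nonneg hy.le (by linarith)
    linarith
  have h3 : β * (y * δ + η * (2 * v - y * (1 - δ))) ≤ β * (y * δ + η * (2 * v)) :=
    mul_le_mul_of_nonneg_left (by linarith [mul_le_mul_of_nonneg_left h2 hη]) hβ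
  have h4 : β * (y * δ + η * (2 * v - y * (1 - δ))) * r ≤ β * (y * δ + η * (2 * v)) * q :=
    mul_le_mul h3 hrs hr0 (by positivity)
  linarith

/-- **(P3): the cross row, lower side, in unit-scale numbers.** -/
theorem p3X (hn : 0 < n) (ha : 2 ≤ a) (hu : 0 < u) (hu1 : u ≤ 1) (hy : 0 < y)
    (hyv : y < v) (hv : y ≤ v * (1 - δ)) (hδ : 0 ≤ δ) (hδ1 : δ < 1) (hv1 : u * v ≤ 1)
    (hβ : 1 ≤ β) (hs : 0 ≤ s) (hsu : s * u ^ 2 ≤ 1) (hV : ∀ p, 0 < V p)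
    {κ₁ γ₀ π₀ ϑ₀ τ e₀ ε₁ M η : ℝ} (hκ : 0 < κ₁) (hVκ : κ₁ * u ^ 3 ≤ V ⟨1, one_mem a⟩)
    (hV1 : V ⟨1, one_mem a⟩ ≤ 1) (hπ : 0 < π₀) (hπA : π₀ ≤ y * δ / a)
    (hπg : π₀ ≤ v * (1 - δ) - y) (hγ0 : 0 ≤ γ₀)
    (hγ : ∀ l, 1 ≤ l → l ≤ a + 1 → gg (SX n a β u y v δ e s w V) (spn n) (zs (KX_pos (a := a)))
      (amp (wX a u w) (PX a) V) l l ≤ γ₀ * u ^ 4)
    (hϑ0 : 0 ≤ ϑ₀) (hϑ : TX n a β u y v δ e s w V (3 * a + 1) ≤ ϑ₀ * u ^ 2)
    (hτ : 0 < τ) (hτ1 : τ * u ^ 2 ≤ 1) (hM : mX a u y v δ 1 < M)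
    (heS : eSK n (KX a) (mX a u y v δ) (bX n a β u e s) (amp (wX a u w) (PX a) V) M ≤
      e₀ * n * u ^ 6)
    (hε : 0 ≤ ε₁) (hε1 : ε₁ ≤ 1 / 4) (hχ1 : |β * chX n a β u y v δ e s w V 1 - 1| ≤ ε₁)
    (hχq : |β * chX n a β u y v δ e s w V (a + 1) - 1| ≤ ε₁)
    (hη : 0 ≤ η) (hη1 : η ≤ 1)
    (herr : errU β v y δ ϑ₀ γ₀ π₀ τ e₀ n u a ≤ η * (κ₁ / (100 * β ^ 2)) / 2) {ε₂ : ℝ}
    (hε₂ : β * (y * δ + η * (2 * v)) * √ϑ₀ + 2 * β * (v * δ * √ϑ₀) + ε₁ * s +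
      2 * s ^ 2 * u ^ 2 ≤ ε₂) :
    (v - y) / (4 * (2 * v - y) ^ 2) * (max (alX n a β u y v δ e s w V - s) 0) ^ 2 ≤
      thX n a β u y v δ e s w V +
      (β ^ 2 / 4 * (v * δ * ϑ₀ + v / (n * u ^ 2)) +
        (v - y) / (4 * (2 * v - y) ^ 2) * (2 * (β * (2 * v - y) * √ϑ₀) * ε₂ + ε₂ ^ 2)) := by
  have ha1 : 1 ≤ a := by omega
  have hm := em_mX (u := u) (y := y) (v := v) (δ := δ) ha1 hu hy hv hδ hδ1 hv1
  have hv0 : 0 < v := hy.trans hyv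
  have hβ0 : 0 < β := by linarith
  have hKa : a ≤ KX a := by unfold KX; omega
  have hm1' : u * (y * (1 - δ)) ≤ mX a u y v δ 1 := mX_one_ge ha1 hu.le hy.le hδ
  have hmq := mX_q_le (a := a) (y := y) hu hv0 hδ
  have hϑa : TX n a β u y v δ e s w V a ≤ ϑ₀ * u ^ 2 :=
    (TX_mono hn hm (by omega) (by unfold KX; omega)).trans hϑ
  have hL1 := lsideX hn ha hu hu1 hy hyv hv hδ hδ1 hv1 hβ hs hsu hV hκ hVκ hV1 hπ hπA hπg hγ0 hγ
    hϑ0 hϑa hτ hτ1 hM heS hε1 hχ1 hη hη1 herr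
  have hχE := chX_diff (V := V) (w := w) (e := e) (s := s) (β := β) hn hm hu hv0 hδ hϑ0 hϑ
  have hρ0 : 0 ≤ RX n a β u y v δ e s w V a := RX_nonneg hn hm hKa
  have hρϑ := (RX_sq_le (β := β) (e := e) (s := s) (w := w) (V := V) hn hm hKa).trans hϑa
  obtain ⟨r, hρr⟩ : ∃ r, RX n a β u y v δ e s w V a = r * u :=
    ⟨RX n a β u y v δ e s w V a / u, by field_simp⟩
  have hr0 : 0 ≤ r := by
    rw [hρr] at hρ0
    exact nonneg_of_mul_nonneg_left hρ0 hu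
  have hrϑ : r ^ 2 ≤ ϑ₀ := by
    rw [hρr, mul_pow] at hρϑ
    exact le_of_mul_le_mul_right hρϑ (by positivity)
  have hrs : r ≤ √ϑ₀ := Real.le_sqrt_of_sq_le hrϑ
  have hθ := thX_ge (β := β) (e := e) (s := s) (w := w) (V := V) hn ha1 hm hu hv0 hδ hρr hrϑ
  have hε20 : 0 ≤ ε₂ := by
    refine le_trans ?_ hε₂
    have : 0 ≤ ε₁ * s := by positivity
    positivity
  refine p3_last hβ0.le hy hyv hr0 hrϑ hε20 ?_ hθ
  have hsq0 : 0 ≤ √(1 - s * u ^ 2) := Real.sqrt_nonneg _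
  have hsq1 : √(1 - s * u ^ 2) ≤ 1 := by
    refine Real.sqrt_le_one.2 ?_
    have : 0 ≤ s * u ^ 2 := by positivity
    linarith
  rw [hρr] at hL1
  have hL2 := l2X hu hy hyv hδ hβ0.le hsq0 hsq1 hmq hm1' hη hr0 hL1
  have hal := al_le (χE := chX n a β u y v δ e s w V (3 * a + 2))
    (χq := chX n a β u y v δ e s w V (a + 1)) hβ0.le hu hs hsu hχE hχq (by linarith) hL2
  have e1 := l3X (q := √ϑ₀) hy hδ1 hβ0.le hη hr0 hv0 hδ hrs
  unfold alX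
  linarith

end law

end Vale.Agent.P146.H607
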