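import Vale.Agent.P146.H607.X1

set_option linter.all false

/-!
P146, lower half (helper607): from the bundled cross law to the plain cross law (AG part).
-/

open MeasureTheory ProbabilityTheory Finset

namespace Vale.Agent.P146.H607

open Vale.Agent.P157.Lv Vale.Agent.P157.Lv.Sy
open Vale.Agent.P146.H93 (Cd st am aSK skS Em linS_sk)
open Vale.Agent.P146.H479
open Vale.Agent.P146.H295
open Vale.Agent.P146.H186 (cSK amp amp_mem)

variable {n a : ℕ} {β u y v δ e s w T S : ℝ} {V : {p // p ∈ PX a} → ℝ}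

/-- the white variances are a constant, the plain law is `fP` -/
def Close (n a : ℕ) (β u y v δ e T S : ℝ) (V : {p // p ∈ PX a} → ℝ) (fP : ℝ → ℝ → ℝ)
    (d₀ : ℝ) : Prop :=
  ∀ s ∈ Set.Icc T S, ∀ w ∈ Set.Icc (0 : ℝ) 1,
    |fX n a β u y v δ e s w V - (fP s w + n / (2 * β) * ∑ p, V p)| ≤ d₀ * (n * u ^ 5)

/-- the unit-scale function of the plain law -/
noncomputable def psP (n : ℕ) (β u A₀ : ℝ) (fP : ℝ → ℝ → ℝ) (s w : ℝ) : ℝ :=
  (fP s w - A₀ - n * (w * u ^ 3) / (2 * β)) / (n * u ^ 5)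

/-- **AG in the field for the plain law** -/
theorem agP_w (hn : 0 < n) (ha : 1 ≤ a) (hu : 0 < u) (hy : 0 < y) (hv : y ≤ v * (1 - δ))
    (hδ : 0 ≤ δ) (hδ1 : δ < 1) (hv1 : u * v ≤ 1) (hβ : 0 < β) {fP : ℝ → ℝ → ℝ} {d₀ A₀ : ℝ}
    (hc : Close n a β u y v δ e T S V fP d₀) (hs : s ∈ Set.Icc T S)
    (hw : w ∈ Set.Icc (0 : ℝ) 1) :
    ∀ w' ∈ Set.Icc (0 : ℝ) 1, psP n β u A₀ fP s w' ≤ psP n β u A₀ fP s w +
      alX n a β u y v δ e s w V / (4 * β) * (w' - w) + 2 * d₀ := by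
  intro w' hw'
  have hn' : (0 : ℝ) < n := by exact_mod_cast hn
  have hN : 0 < (n : ℝ) * u ^ 5 := by positivity
  have h := ag_w (n := n) (a := a) (β := β) (e := e) (s := s) (w := w) (w' := w') (V := V) hn ha
    hu hy hv hδ hδ1 hv1 hβ hw.1 hw'.1
  have h1 := abs_le.1 (hc s hs w hw)
  have h2 := abs_le.1 (hc s hs w' hw')
  unfold psP
  have e1 : (fP s w - A₀ - n * (w * u ^ 3) / (2 * β)) / (n * u ^ 5) +
      alX n a β u y v δ e s w V / (4 * β) * (w' - w) + 2 * d₀ =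
      (fP s w - A₀ - n * (w * u ^ 3) / (2 * β) +
        n * u ^ 5 * (alX n a β u y v δ e s w V / (4 * β) * (w' - w)) +
        2 * (d₀ * (n * u ^ 5))) / (n * u ^ 5) := by
    rw [eq_div_iff hN.ne', add_mul, add_mul, div_mul_cancel₀ _ hN.ne']
    ring
  rw [e1]
  exact div_le_div_of_nonneg_right (by linarith) hN.le

/-- **AG in the share for the plain law** -/
theorem agP_s (hn : 0 < n) (ha : 1 ≤ a) (hu : 0 < u) (hy : 0 < y) (hv : y ≤ v * (1 - δ))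
    (hδ : 0 ≤ δ) (hδ1 : δ < 1) (hv1 : u * v ≤ 1) (hβ : 0 < β) {fP : ℝ → ℝ → ℝ} {d₀ A₀ : ℝ}
    (hc : Close n a β u y v δ e T S V fP d₀) (hs : s ∈ Set.Icc T S)
    (hw : w ∈ Set.Icc (0 : ℝ) 1) (heT : e ≤ T) (hS : S * u ^ 2 ≤ 1) :
    ∀ s' ∈ Set.Icc T S, psP n β u A₀ fP s' w ≤ psP n β u A₀ fP s w +
      thX n a β u y v δ e s w V * (s' - s) + 2 * d₀ := by
  intro s' hs'
  have hn' : (0 : ℝ) < n := by exact_mod_cast hn
  have hN : 0 < (n : ℝ) * u ^ 5 := by positivity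
  have hu2 : 0 ≤ u ^ 2 := by positivity
  have h := ag_s (n := n) (a := a) (β := β) (e := e) (s := s) (s' := s') (w := w) (V := V) hn ha
    hu hy hv hδ hδ1 hv1 hβ.le ((mul_le_mul_of_nonneg_right hs.2 hu2).trans hS)
    ((mul_le_mul_of_nonneg_right hs'.2 hu2).trans hS) (heT.trans hs.1) (heT.trans hs'.1)
  have h1 := abs_le.1 (hc s hs w hw)
  have h2 := abs_le.1 (hc s' hs' w hw)
  unfold psP
  have e1 : (fP s w - A₀ - n * (w * u ^ 3) / (2 * β)) / (n * u ^ 5) +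
      thX n a β u y v δ e s w V * (s' - s) + 2 * d₀ =
      (fP s w - A₀ - n * (w * u ^ 3) / (2 * β) +
        n * u ^ 5 * (thX n a β u y v δ e s w V * (s' - s)) +
        2 * (d₀ * (n * u ^ 5))) / (n * u ^ 5) := by
    rw [eq_div_iff hN.ne', add_mul, add_mul, div_mul_cancel₀ _ hN.ne']
    ring
  rw [e1]
  exact div_le_div_of_nonneg_right (by linarith) hN.le

end Vale.Agent.P146.H607
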