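import Vale.Agent.P146.H607.X2
import Vale.Agent.P146.H758.Box

set_option linter.all false

/-!
P146, lower half (helper607): the selection of the white fields of the bundled cross law.
-/

open MeasureTheory ProbabilityTheory Finset

namespace Vale.Agent.P146.H607

open Vale.Agent.P157.Lv Vale.Agent.P157.Lv.Sy
open Vale.Agent.P146.H93 (Cd st am aSK skS Em linS_sk)
open Vale.Agent.P146.H479
open Vale.Agent.P146.H295
open Vale.Agent.P146.H186 (cSK amp amp_mem wc)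
open Vale.Agent.P146.H758 (tv tv_Icc rst Ap Ex2 sel_box)

variable {n a : ℕ} {β u y v δ e s w T S : ℝ} {V : {p // p ∈ PX a} → ℝ}

/-- sum of the bonds -/
lemma tv_bX (hn : 0 < n) (ha : 1 ≤ a) (hs : s * u ^ 2 ≤ 1) (he : 0 ≤ e) (hes : e ≤ s) :
    tv (KX a) (bX n a β u e s) = β ^ 2 / n := by
  have h1 := dc_bX (β := β) (e := e) (s := 0) (s' := s) hn ha (by simp) hs (l := 2 * a)
    (by omega) (by omega)
  have hn' : (0 : ℝ) < n := by exact_mod_cast hn
  rw [tv_Icc]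
  have hsub : ({1, 2 * a + 1, 3 * a + 2} : Finset ℕ) ⊆ Finset.Icc 1 (KX a) := by
    intro j hj
    simp only [Finset.mem_insert, Finset.mem_singleton] at hj
    rw [Finset.mem_Icc]
    unfold KX
    omega
  rw [← Finset.sum_subset hsub]
  · rw [Finset.sum_insert, Finset.sum_insert, Finset.sum_singleton, sq_one hn hs,
      sq_E ha hes]
    · have hD : bX n a β u e s (2 * a + 1) = β / √n * √(e * u ^ 2) := by
        unfold bX
        rw [if_neg (by omega), if_pos rfl]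
      rw [hD, mul_pow, div_pow, Real.sq_sqrt hn'.le, Real.sq_sqrt (by positivity)]
      ring
    · rw [Finset.mem_singleton]; omega
    · rw [Finset.mem_insert, Finset.mem_singleton]; omega
  · intro j _ hj
    simp only [Finset.mem_insert, Finset.mem_singleton, not_or] at hj
    unfold bX
    rw [if_neg hj.1, if_neg hj.2.1, if_neg hj.2.2]
    ring

/-- the range of the exponents -/
lemma ex2X (ha : 1 ≤ a) (hu : 0 < u) (hy : 0 < y) (hv : y ≤ v * (1 - δ)) (hδ : 0 ≤ δ)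
    (hδ1 : δ < 1) {Y : ℝ} (hvY : u * v ≤ Y) (hY : Y ≤ 1) :
    Ex2 (KX a) (mX a u y v δ) (u * (y * (1 - δ))) Y where
  em := em_mX ha hu hy hv hδ hδ1 (hvY.trans hY)
  K1 := by unfold KX; omega
  y0 := by
    have : 0 < 1 - δ := by linarith
    positivity
  Y1 := hY
  ge := mX_one_ge ha hu.le hy.le hδ
  le := by
    rw [show KX a = 3 * a + 2 from rfl, mX_E]
    exact hvY

lemma hPX : ∀ p ∈ PX a, 1 ≤ p ∧ p ≤ KX a := by
  intro p hp
  unfold PX at hp
  rw [Finset.mem_Icc] at hp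
  unfold KX
  omega

lemma rst_wX (hu : 0 ≤ u) (hw : 0 ≤ w) : rst (KX a) (wX a u w) (PX a) = w * u ^ 3 := by
  unfold rst
  have e1 : (Finset.Icc 1 (KX a)).filter (· ∉ PX a) = {3 * a + 2} := by
    ext j
    unfold PX KX
    simp only [Finset.mem_filter, Finset.mem_Icc, Finset.mem_singleton]
    omega
  rw [e1, Finset.sum_singleton]
  unfold wX
  rw [if_pos rfl, Real.sq_sqrt (by positivity)]

/-- the centre of the box of the white variances -/
noncomputable def cX (a : ℕ) (u κ₁ κ₂ : ℝ) (p : {p // p ∈ PX a}) : ℝ :=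
  if (p : ℕ) = 1 then 2 * κ₁ * u ^ 3 else 3 * κ₂ * u ^ 3

/-- **The selection.** -/
theorem selX (hn : 0 < n) (ha : 1 ≤ a) (hu : 0 < u) (hy : 0 < y) (hv : y ≤ v * (1 - δ))
    (hδ : 0 ≤ δ) (hδ1 : δ < 1) {Y : ℝ} (hvY : u * v ≤ Y) (hY : Y ≤ 1) (hβ : 0 < β)
    (hs : s * u ^ 2 ≤ 1) (he : 0 ≤ e)
    (hes : e ≤ s) (hw : 0 ≤ w) {κ₁ κ₂ V1 A E : ℝ} (hκ2 : 0 < κ₂) (hκ : 2 * κ₂ ≤ κ₁)
    (hE : 0 < E) (hA : Ap n β (u * (y * (1 - δ))) Y V1 A E)
    (hV1 : (w + 4 * κ₁ + (3 * a + 1) * (5 * κ₂)) * u ^ 3 ≤ V1) :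
    ∃ V : {p // p ∈ PX a} → ℝ, (∀ p, |V p - cX a u κ₁ κ₂ p| < κ₂ * u ^ 3) ∧
      tv (KX a) (amp (wX a u w) (PX a) V) ≤ V1 ∧
      (∀ p : {p // p ∈ PX a}, |β * chX n a β u y v δ e s w V p - 1| ≤
        4 * β * E / (κ₂ * u ^ 3 * n)) ∧
      ∀ l, 1 ≤ l → l ≤ 3 * a + 1 → gg (SX n a β u y v δ e s w V) (spn n)
        (zs (KX_pos (a := a))) (amp (wX a u w) (PX a) V) l l ≤
          64 * E / (mX a u y v δ 1 * n ^ 2 * (κ₂ * u ^ 3) ^ 2) := by
  have hn' : (0 : ℝ) < n := by exact_mod_cast hn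
  have hm := em_mX (a := a) (u := u) (y := y) (v := v) (δ := δ) ha hu hy hv hδ hδ1 (hvY.trans hY)
  have hR : 0 < κ₂ * u ^ 3 := by positivity
  have hκ1 : 0 < κ₁ := by linarith
  have hc : ∀ p : {p // p ∈ PX a}, 2 * (κ₂ * u ^ 3) < cX a u κ₁ κ₂ p := by
    intro p
    unfold cX
    split_ifs
    · have : κ₂ * u ^ 3 < κ₁ * u ^ 3 := mul_lt_mul_of_pos_right (by linarith) (by positivity)
      linarith
    · linarith
  have hsum : ∑ p : {p // p ∈ PX a}, (cX a u κ₁ κ₂ p + 2 * (κ₂ * u ^ 3)) ≤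
      (4 * κ₁ + (3 * a + 1) * (5 * κ₂)) * u ^ 3 := by
    have h1 : ∀ p : {p // p ∈ PX a}, cX a u κ₁ κ₂ p + 2 * (κ₂ * u ^ 3) ≤
        (if (p : ℕ) = 1 then 2 * κ₁ * u ^ 3 else 0) + 5 * κ₂ * u ^ 3 := by
      intro p
      unfold cX
      split_ifs
      · have : 0 ≤ κ₂ * u ^ 3 := hR.le
        linarith
      · linarith
    refine (Finset.sum_le_sum fun p _ => h1 p).trans ?_
    rw [Finset.sum_add_distrib, Finset.sum_const, Finset.card_univ, Fintype.card_coe]
    have hcard : (PX a).card = 3 * a + 1 := by unfold PX; simp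
    rw [hcard]
    have h2 : ∑ p : {p // p ∈ PX a}, (if (p : ℕ) = 1 then 2 * κ₁ * u ^ 3 else 0) ≤
        4 * κ₁ * u ^ 3 := by
      rw [Finset.sum_coe_sort (PX a) (fun p => if p = 1 then 2 * κ₁ * u ^ 3 else 0),
        Finset.sum_ite_eq' (PX a) 1]
      split_ifs
      · have : 0 ≤ κ₁ * u ^ 3 := by positivity
        linarith
      · positivity
    rw [nsmul_eq_mul]
    push_cast
    calc _ ≤ 4 * κ₁ * u ^ 3 + (3 * a + 1) * (5 * κ₂ * u ^ 3) := by linarith
      _ = _ := by ring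
  obtain ⟨V, hV, htv, hch, hg⟩ := sel_box (J := Unit) hn hβ.le (K := fun _ => KX a)
    (m := fun _ => mX a u y v δ) (b := fun _ => bX n a β u e s) (w := fun _ => wX a u w)
    (y := fun _ => u * (y * (1 - δ))) (Y := fun _ => Y) (A := fun _ => A) hE (fun _ => hA)
    (fun _ => ex2X ha hu hy hv hδ hδ1 hvY hY) (fun _ => tv_bX hn ha hs he hes) (P := PX a)
    (fun _ => hPX) (c := cX a u κ₁ κ₂) hR hc (fun _ => by
      rw [rst_wX hu.le hw]
      refine le_trans ?_ hV1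
      have : (w + 4 * κ₁ + (3 * a + 1) * (5 * κ₂)) * u ^ 3 = w * u ^ 3 +
        (4 * κ₁ + (3 * a + 1) * (5 * κ₂)) * u ^ 3 := by ring
      rw [this]
      linarith)
  refine ⟨V, hV, htv (), fun p => ?_, fun l h1 h2 => ?_⟩
  · have h := hch () p
    rw [cSK_chX hn] at h
    have e1 : β * chX n a β u y v δ e s w V p - 1 =
        (n * chX n a β u y v δ e s w V p - n / β) * (β / n) := by field_simp
    rw [e1, abs_mul, abs_of_pos (show 0 < β / (n : ℝ) by positivity)]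
    refine (mul_le_mul_of_nonneg_right h (by positivity)).trans (le_of_eq ?_)
    field_simp
  · have hl : l ∈ PX a := by unfold PX; rw [Finset.mem_Icc]; exact ⟨h1, h2⟩
    have h := hg () (zs (KX_pos (a := a))) ⟨l, hl⟩ (by
      show zs (KX_pos (a := a)) l = wc (hPX l hl)
      funext i
      exact zs_eq _ (hPX l hl) i)
    have e1 : (fun (x : Fin n → ℤˣ) i => H325.sp x i) = spn n := rfl
    rw [e1] at h
    refine h.trans ?_
    simp only [Fintype.card_unit, Nat.cast_one, mul_one]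
    have hm1 : mX a u y v δ 1 ≤ mX a u y v δ l := H758.em_mono hm h1 (by unfold KX; omega)
    have hm10 := hm.pos
    have : 0 ≤ 64 * E := by positivity
    refine div_le_div_of_nonneg_left this (by positivity) ?_
    gcongr

end Vale.Agent.P146.H607
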