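import Vale.Agent.P146.H607.X3
import Vale.Agent.P146.H66.M4Num
import Vale.Agent.P146.H758.Ent
import Vale.Agent.P146.H295.Cub

set_option linter.all false

/-!
P146, lower half (helper607): moments, entropy and the good levels of the bundled cross law.
-/

open MeasureTheory ProbabilityTheory Finset

namespace Vale.Agent.P146.H607

open Vale.Agent.P157.Lv Vale.Agent.P157.Lv.Sy
open Vale.Agent.P146.H93 (Cd st am aSK skS Em linS_sk)
open Vale.Agent.P146.H479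
open Vale.Agent.P146.H295
open Vale.Agent.P146.H186 (cSK amp amp_mem wc)
open Vale.Agent.P146.H758 (tv tv_Icc rst Ap Ex2 sel_box Pu)
open Vale.Agent.P146.H498.Row (eSK)

variable {n a : ℕ} {β u y v δ e s w T S : ℝ} {V : {p // p ∈ PX a} → ℝ}

/-- the constant of the fourth moment -/
noncomputable def Q4 (E₀ τ : ℝ) : ℝ := 540 * (64 * E₀ / τ) ^ 2 + 2

lemma Q4_ge (E₀ τ : ℝ) : 2 ≤ Q4 E₀ τ := by
  unfold Q4
  have : 0 ≤ 540 * (64 * E₀ / τ) ^ 2 := by positivity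
  linarith

/-- **the fourth moment** -/
theorem fourX (hn : 2 ≤ n) (ha : 1 ≤ a) (hu : 0 < u) (hy : 0 < y) (hy2 : 1 / 2 ≤ y * (1 - δ))
    (hy1 : y ≤ 1) (hv : y ≤ v * (1 - δ)) (hδ : 0 ≤ δ) (hδ1 : δ < 1) {Y : ℝ}
    (hvY : 3 / 2 * (u * v) ≤ Y) (hv0 : 0 < v) (hY : Y ≤ 1) (hβ : 1 ≤ β) (hs : s * u ^ 2 ≤ 1)
    (he : 0 ≤ e) {τ : ℝ} (hτ : 0 < τ) (hes : e + τ ≤ s) {V1 A E₀ : ℝ} (hE₀ : 1 ≤ E₀)
    (hA : Ap n β (u * (y * (1 - δ))) Y V1 A (E₀ * (n * u ^ 5)))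
    (htv : tv (KX a) (amp (wX a u w) (PX a) V) ≤ V1) (hnu : 1 ≤ n * u ^ 6) (hu1 : u ≤ 1)
    {l : ℕ} (hl : l < KX a) :
    (SX n a β u y v δ e s w V).pairEx l (fun x x' => Rov (spn n) x x' ^ 4) ≤
      Q4 E₀ τ * u ^ 4 := by
  have hn' : (0 : ℝ) < n := by
    have : 0 < n := by omega
    exact_mod_cast this
  have hvY' : u * v ≤ Y := by
    have : 0 ≤ u * v := by positivity
    linarith
  have hX := ex2X (a := a) ha hu hy hv hδ hδ1 hvY' hY
  have hbt := tv_bX (n := n) (β := β) (u := u) (e := e) (a := a) (by omega : 0 < n) ha hs he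
    (by linarith : e ≤ s)
  have hloc := H758.Ap.loc hA hX (by linarith : 0 ≤ β) hbt htv
  have hmK : mX a u y v δ (KX a) = u * v := by
    rw [show KX a = 3 * a + 2 from rfl, mX_E]
  have hup : (skS n (KX a) (H66.up (KX a) (1 / 2) (mX a u y v δ)) (bX n a β u e s)
      (amp (wX a u w) (PX a) V)).fe - (skS n (KX a) (mX a u y v δ) (bX n a β u e s)
      (amp (wX a u w) (PX a) V)).fe ≤ 2 * E₀ * n * u ^ 5 := by
    refine (H758.fe_inc_le hX (by linarith : 0 ≤ β) hbt hloc ?_ ?_).trans (le_of_eq (by ring))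
    · intro j h1 h2
      unfold H66.up
      split_ifs with hj
      · rw [hmK]; positivity
      · exact hX.y0.trans_le (hX.yj h1 (by omega))
    · intro j h1 h2
      unfold H66.up
      split_ifs with hj
      · rw [hmK]; linarith
      · exact (H758.em_mono hX.em h2 (by omega)).trans hX.le
  have hbK : bX n a β u e s (KX a) = β / √n * √((s - e) * u ^ 2) := by
    rw [show KX a = 3 * a + 2 from rfl]
    exact bX_E ha
  have hse : 0 < (s - e) * u ^ 2 := by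
    have : 0 < s - e := by linarith
    positivity
  have hbK0 : 0 < bX n a β u e s (KX a) := by
    rw [hbK]
    have : 0 < √((s - e) * u ^ 2) := Real.sqrt_pos.2 hse
    have h2 : 0 < √(n : ℝ) := Real.sqrt_pos.2 hn'
    positivity
  have hbKs : τ * u ^ 2 ≤ n * bX n a β u e s (KX a) ^ 2 := by
    rw [hbK, mul_pow, div_pow, Real.sq_sqrt hn'.le, Real.sq_sqrt hse.le]
    have h1 : (n : ℝ) * (β ^ 2 / n * ((s - e) * u ^ 2)) = β ^ 2 * ((s - e) * u ^ 2) := by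
      field_simp
    rw [h1]
    have h2 : 1 ≤ β ^ 2 := one_le_pow₀ hβ
    have h3 : τ * u ^ 2 ≤ (s - e) * u ^ 2 := mul_le_mul_of_nonneg_right (by linarith) (by positivity)
    nlinarith
  have hu6 : (n : ℝ) * u ^ 6 ≤ n * u ^ 2 := by
    refine mul_le_mul_of_nonneg_left ?_ hn'.le
    exact pow_le_pow_of_le_one hu.le hu1 (by norm_num)
  have h := H66.sk_four_num (n := n) (K := KX a) (m := mX a u y v δ) (b := bX n a β u e s)
    (w := amp (wX a u w) (PX a) V) hn (by unfold KX; omega) hX.em hbK0 (κ := 1 / 2) (x := u)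
    (E0 := 2 * E₀) (τ := τ) (c1 := 1 / 2) (c2 := 1) (by norm_num) (by norm_num)
    (by rw [hmK]; linarith) hu (by norm_num) (by norm_num) hτ
    (by
      refine le_trans ?_ hX.ge
      have := mul_le_mul_of_nonneg_left hy2 hu.le
      linarith)
    (by
      refine (mX_one_le ha hu hy hδ).trans ?_
      have := mul_le_mul_of_nonneg_left hy1 hu.le
      linarith)
    hbKs hup (by nlinarith) (by linarith) hl
  refine h.trans (le_of_eq ?_)
  unfold Q4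
  have e1 : 4 * 1 * (2 * E₀) / (1 / 2 * (1 / 2) ^ 2 * τ) = 64 * E₀ / τ := by
    field_simp
    ring
  rw [e1]

/-- the second moment from the fourth -/
lemma twoX (hn : 0 < n) (hm : Em (KX a) (mX a u y v δ)) {q : ℝ} (hq : 1 ≤ q) {l : ℕ}
    (hl : l ≤ KX a)
    (h4 : (SX n a β u y v δ e s w V).pairEx l (fun x x' => Rov (spn n) x x' ^ 4) ≤ q * u ^ 4) :
    TX n a β u y v δ e s w V l ≤ q * u ^ 2 := by
  have hS : (SX n a β u y v δ e s w V).Reg := (linS_sk hm _ _).reg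
  have h := pair_sq_le hS (l := l) hl (fun x y : Fin n → ℤˣ => Rov (spn n) x y ^ 2)
  have e4 : (fun x y : Fin n → ℤˣ => (Rov (spn n) x y ^ 2) ^ 2) =
      fun x y => Rov (spn n) x y ^ 4 := by
    funext x y
    ring
  rw [e4] at h
  have h0 : 0 ≤ TX n a β u y v δ e s w V l := TX_nonneg hn hm hl
  have h1 : TX n a β u y v δ e s w V l ^ 2 ≤ (q * u ^ 2) ^ 2 := by
    refine (h.trans h4).trans ?_
    have : q * u ^ 4 ≤ q ^ 2 * u ^ 4 := mul_le_mul_of_nonneg_right (by nlinarith) (by positivity)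
    calc q * u ^ 4 ≤ q ^ 2 * u ^ 4 := this
      _ = _ := by ring
  have hq0 : 0 ≤ q * u ^ 2 := by positivity
  exact (sq_le_sq₀ h0 hq0).1 h1

/-- **the entropy of the level one** -/
theorem entX (hn : 0 < n) (ha : 1 ≤ a) (hu : 0 < u) (hy : 0 < y)
    (hy1 : y ≤ 1) (hv : y ≤ v * (1 - δ)) (hδ : 0 ≤ δ) (hδ1 : δ < 1) {Y : ℝ}
    (hvY : u * v ≤ Y) (hY : Y ≤ 1) (hyY : 2 * u ≤ Y) (hβ : 0 ≤ β) (hs : s * u ^ 2 ≤ 1)
    (he : 0 ≤ e) (hes : e ≤ s) {V1 A E₀ : ℝ} (hE₀ : 0 ≤ E₀)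
    (hA : Ap n β (u * (y * (1 - δ))) Y V1 A (E₀ * (n * u ^ 5)))
    (htv : tv (KX a) (amp (wX a u w) (PX a) V) ≤ V1) :
    eSK n (KX a) (mX a u y v δ) (bX n a β u e s) (amp (wX a u w) (PX a) V)
      (2 * mX a u y v δ 1) ≤ 4 * E₀ * n * u ^ 6 := by
  have hn' : (0 : ℝ) < n := by exact_mod_cast hn
  have hX := ex2X (a := a) ha hu hy hv hδ hδ1 hvY hY
  have hbt := tv_bX (n := n) (β := β) (u := u) (e := e) (a := a) hn ha hs he hes
  have hloc := H758.Ap.loc hA hX hβ hbt htv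
  have hm1 : mX a u y v δ 1 ≤ u := by
    refine (mX_one_le ha hu hy hδ).trans ?_
    have := mul_le_mul_of_nonneg_left hy1 hu.le
    linarith
  have hm10 := hX.em.pos
  refine (H758.eSK_le hX hβ hbt hloc le_rfl (by linarith)).trans ?_
  have h0 : 0 ≤ 2 * (E₀ * (n * u ^ 5)) := by positivity
  calc 2 * mX a u y v δ 1 * (2 * (E₀ * (n * u ^ 5))) ≤ 2 * u * (2 * (E₀ * (n * u ^ 5))) :=
        mul_le_mul_of_nonneg_right (by linarith) h0
    _ = _ := by ring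

/-- gaps of the levels `≥ a + 1` -/
lemma gapV (hu : 0 ≤ u) {π₀ : ℝ} (hπ : π₀ ≤ v * δ / (2 * a + 2)) {l : ℕ} (h1 : a < l)
    (h2 : l ≤ 3 * a + 1) : π₀ * u ≤ mX a u y v δ (l + 1) - mX a u y v δ l := by
  rw [mX_stepV h1 h2]
  have : u * v * δ / (2 * a + 2) = v * δ / (2 * a + 2) * u := by ring
  rw [this]
  exact mul_le_mul_of_nonneg_right hπ hu

/-- **a good level of the bundle `[a', c']`** -/
theorem goodX (hn : 0 < n) (ha : 1 ≤ a) (hu : 0 < u) (hm : Em (KX a) (mX a u y v δ))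
    (hV : ∀ p, 0 < V p) {π₀ γ₀ ϑ₀ D : ℝ} (hπ : 0 < π₀) (hπV : π₀ ≤ v * δ / (2 * a + 2))
    (hγ : ∀ l, 1 ≤ l → l ≤ 3 * a + 1 → gg (SX n a β u y v δ e s w V) (spn n)
      (zs (KX_pos (a := a))) (amp (wX a u w) (PX a) V) l l ≤ γ₀ * u ^ 4)
    (hϑ0 : 0 ≤ ϑ₀) (hϑ : TX n a β u y v δ e s w V (3 * a + 1) ≤ ϑ₀ * u ^ 2) {a' c' : ℕ}
    (h1 : a < a') (h2 : a' + (a - 2) ≤ c') (h2' : a' < c') (ha2 : 2 < a) (h3 : c' ≤ 3 * a)
    (hD : 5 * ϑ₀ / (a - 2) + 20 * γ₀ / π₀ ^ 2 ≤ D ^ 2) :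
    ∃ l, a' ≤ l ∧ l < c' ∧ (SX n a β u y v δ e s w V).pairEx l
      (fun x x' => (Rov (spn n) x x' - (SX n a β u y v δ e s w V).Rl (spn n) l) ^ 2) ≤
        (D * u) ^ 2 := by
  obtain ⟨l, hl1, hl2, hc⟩ := conc_sk (n := n) (K := KX a) (m := mX a u y v δ)
    (b := bX n a β u e s) (w := amp (wX a u w) (PX a) V) hn KX_pos hm (a := a') (c := c')
    (by omega) h2' (by unfold KX; omega) (fun p h4 h5 => amp_pos hV (by omega) (by omega))
    (π := π₀ * u) (γ := γ₀ * u ^ 4) (by positivity)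
    (fun l h4 h5 => gapV hu.le hπV (by omega) (by omega))
    (fun l h4 h5 => hγ l (by omega) (by omega))
  refine ⟨l, hl1, hl2, ?_⟩
  have ha' : (0 : ℝ) < (a : ℝ) - 2 := by
    have : (2 : ℝ) < a := by exact_mod_cast ha2
    linarith
  have hca : (a : ℝ) - 2 ≤ (c' : ℝ) - a' := by
    have : ((a' + (a - 2) : ℕ) : ℝ) ≤ c' := by exact_mod_cast h2
    rw [Nat.cast_add, Nat.cast_sub (by omega)] at this
    push_cast at this
    linarith
  have hT : Th (skS n (KX a) (mX a u y v δ) (bX n a β u e s) (amp (wX a u w) (PX a) V))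
      (spn n) c' ≤ ϑ₀ * u ^ 2 := (TX_mono hn hm (by omega) (by unfold KX; omega)).trans hϑ
  have e1 : 5 * Th (skS n (KX a) (mX a u y v δ) (bX n a β u e s) (amp (wX a u w) (PX a) V))
      (spn n) c' / ((c' : ℝ) - a') ≤ 5 * (ϑ₀ * u ^ 2) / (a - 2) := by
    refine div_le_div₀ (by positivity) (by linarith) ha' hca
  have e2 : 20 * (γ₀ * u ^ 4) / (π₀ * u) ^ 2 = 20 * γ₀ / π₀ ^ 2 * u ^ 2 := by
    field_simp
  have e3 : 5 * (ϑ₀ * u ^ 2) / ((a : ℝ) - 2) = 5 * ϑ₀ / (a - 2) * u ^ 2 := by ring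
  have e4 : 0 ≤ 2 * ((skS n (KX a) (mX a u y v δ) (bX n a β u e s)
      (amp (wX a u w) (PX a) V)).Rl (spn n) (l + 1) - (skS n (KX a) (mX a u y v δ)
      (bX n a β u e s) (amp (wX a u w) (PX a) V)).Rl (spn n) l) ^ 2 := by positivity
  have e5 : (5 * ϑ₀ / ((a : ℝ) - 2) + 20 * γ₀ / π₀ ^ 2) * u ^ 2 ≤ D ^ 2 * u ^ 2 :=
    mul_le_mul_of_nonneg_right hD (by positivity)
  have e6 : (D * u) ^ 2 = D ^ 2 * u ^ 2 := by ring
  rw [e6]
  unfold SX
  rw [e2] at hc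
  rw [e3] at e1
  linarith

end Vale.Agent.P146.H607
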