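import Vale.Agent.P146.H607.X5
import Vale.Agent.P146.H877x.RowX
import Vale.Agent.P146.H93.Pnum

set_option linter.all false

/-!
P146, lower half (helper607): the cross row, upper side (P4), at the bundled law.
-/

open MeasureTheory ProbabilityTheory Finset

namespace Vale.Agent.P146.H607

open Vale.Agent.P157.Lv Vale.Agent.P157.Lv.Sy
open Vale.Agent.P146.H93 (Cd st am aSK skS Em linS_sk)
open Vale.Agent.P146.H479
open Vale.Agent.P146.H295
open Vale.Agent.P146.H186 (cSK amp amp_mem wc)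
open Vale.Agent.P146.H758 (tv tv_Icc rst Ap Ex2 sel_box Pu)
open Vale.Agent.P146.H379.Row (bt2 Tt FdA ch FdA_le FdA_nonneg Tt_eq)
open Vale.Agent.P146.H877x (SB Hz Gd Gs eT uside_sk ur_sk Tt_le_good KV)

variable {n a : ℕ} {β u y v δ e s w T S : ℝ} {V : {p // p ∈ PX a} → ℝ}

/-! ### bookkeeping -/

/-- the bonds below the level `2 a + 1` -/
lemma bt2_lo (hn : 0 < n) (hs : s * u ^ 2 ≤ 1) {l : ℕ} (h1 : 1 ≤ l) (h2 : l ≤ 2 * a) :
    bt2 n (bX n a β u e s) l = β ^ 2 * (1 - s * u ^ 2) := by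
  have hn' : (0 : ℝ) < n := by exact_mod_cast hn
  unfold bt2
  rw [Fin.sum_univ_eq_sum_range (fun q => (n : ℝ) * bX n a β u e s (q + 1) ^ 2) l,
    Finset.sum_eq_single 0]
  · rw [zero_add, sq_one hn hs]
    field_simp
  · intro q hq h0
    rw [Finset.mem_range] at hq
    unfold bX
    rw [if_neg (by omega), if_neg (by omega), if_neg (by omega)]
    ring
  · intro h
    exact absurd (Finset.mem_range.2 h1) h

/-- the bonds from the level `2 a + 1` to the level `3 a + 1` -/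
lemma bt2_hi (hn : 0 < n) (ha : 1 ≤ a) (hs : s * u ^ 2 ≤ 1) (he : 0 ≤ e) {l : ℕ}
    (h1 : 2 * a + 1 ≤ l) (h2 : l ≤ 3 * a + 1) :
    bt2 n (bX n a β u e s) l = β ^ 2 * (1 - s * u ^ 2) + β ^ 2 * (e * u ^ 2) := by
  have hn' : (0 : ℝ) < n := by exact_mod_cast hn
  unfold bt2
  rw [Fin.sum_univ_eq_sum_range (fun q => (n : ℝ) * bX n a β u e s (q + 1) ^ 2) l]
  have hsub : ({0, 2 * a} : Finset ℕ) ⊆ Finset.range l := by
    intro j hj
    simp only [Finset.mem_insert, Finset.mem_singleton] at hj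
    rw [Finset.mem_range]
    omega
  rw [← Finset.sum_subset hsub]
  · rw [Finset.sum_insert, Finset.sum_singleton, zero_add, sq_one hn hs]
    · have hD : bX n a β u e s (2 * a + 1) = β / √n * √(e * u ^ 2) := by
        unfold bX
        rw [if_neg (by omega), if_pos rfl]
      rw [hD, mul_pow, div_pow, Real.sq_sqrt hn'.le, Real.sq_sqrt (by positivity)]
      field_simp
    · rw [Finset.mem_singleton]
      omega
  · intro q hq hq1
    rw [Finset.mem_range] at hq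
    simp only [Finset.mem_insert, Finset.mem_singleton, not_or] at hq1
    unfold bX
    rw [if_neg (by omega), if_neg (by omega), if_neg (by omega)]
    ring

/-- the white fields of the first levels -/
lemma SB_le (hV : ∀ p, 0 ≤ V p) {l : ℕ} (hl : l ≤ 3 * a + 1) :
    SB (amp (wX a u w) (PX a) V) l ≤ ∑ p, V p := by
  have h1 : SB (amp (wX a u w) (PX a) V) l = ∑ c ∈ Finset.range l, vf a V (c + 1) := by
    unfold SB
    refine Finset.sum_congr rfl fun c hc => ?_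
    rw [Finset.mem_range] at hc
    have h : c + 1 ∈ PX a := by
      unfold PX
      rw [Finset.mem_Icc]
      omega
    unfold amp vf
    rw [dif_pos h, dif_pos h, Real.sq_sqrt (hV _)]
  rw [h1, ← tot_vf]
  unfold H985.S3.tot
  refine Finset.sum_le_sum_of_subset_of_nonneg (Finset.range_mono (by unfold KX; omega))
    fun _ _ _ => vf_nonneg hV _

/-- the levels below the gap -/
lemma Gs_ge (hn : 0 < n) (ha : 1 ≤ a) (hm : Em (KX a) (mX a u y v δ)) (hu : 0 < u)
    (hv0 : 0 < v) (hδ : 0 ≤ δ) (hs : s * u ^ 2 ≤ 1) :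
    (v * (1 - δ) - y) * u * (β ^ 2 * (1 - s * u ^ 2)) * TX n a β u y v δ e s w V a ≤
      Gs n (KX a) (mX a u y v δ) (bX n a β u e s) (amp (wX a u w) (PX a) V) (a + 1) := by
  have hT : ∀ l, l ≤ KX a → Tt (skS n (KX a) (mX a u y v δ) (bX n a β u e s)
      (amp (wX a u w) (PX a) V)) l = TX n a β u y v δ e s w V l := fun l hl => Tt_eq hm hn hl
  have hnn : ∀ j ∈ Finset.Ico 1 (a + 1), 0 ≤ (mX a u y v δ (j + 1) - mX a u y v δ j) *
      bt2 n (bX n a β u e s) j * Tt (skS n (KX a) (mX a u y v δ) (bX n a β u e s)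
        (amp (wX a u w) (PX a) V)) j := by
    intro j hj
    rw [Finset.mem_Ico] at hj
    have hjK : j ≤ KX a := by unfold KX; omega
    rw [hT j hjK]
    exact mul_nonneg (mul_nonneg (by linarith [hm.mono j hjK]) (H877x.bt2_nonneg n _ j))
      (TX_nonneg hn hm hjK)
  have h1 := Finset.single_le_sum hnn (Finset.mem_Ico.2 ⟨ha, by omega⟩ : a ∈ Finset.Ico 1 (a + 1))
  refine le_trans ?_ h1
  have hKa : a ≤ KX a := by unfold KX; omega
  rw [hT a hKa, bt2_lo hn hs ha (by omega)]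
  refine mul_le_mul_of_nonneg_right ?_ (TX_nonneg hn hm hKa)
  refine mul_le_mul_of_nonneg_right ?_ (mul_nonneg (sq_nonneg _) (by linarith))
  have := mX_pa (y := y) ha hu hv0 hδ
  linarith

/-- the number of the level `q = 3 a + 2` -/
lemma ch_chX : ch n (KX a) (mX a u y v δ) (bX n a β u e s) (amp (wX a u w) (PX a) V)
    (3 * a + 2 - 1) = chX n a β u y v δ e s w V (3 * a + 2) := by
  unfold ch chX
  rw [show 3 * a + 2 - 1 + 1 = 3 * a + 2 by omega]
  rfl

/-- upper bound of the slope -/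
lemma thX_le (hn : 0 < n) (ha1 : 1 ≤ a) (hm : Em (KX a) (mX a u y v δ)) (hu : 0 < u)
    (hy : 0 < y) (hyv : y < v) (hδ : 0 ≤ δ) {ϑ₀ : ℝ} (hϑ0 : 0 ≤ ϑ₀)
    (hϑ : TX n a β u y v δ e s w V (3 * a + 1) ≤ ϑ₀ * u ^ 2) :
    thX n a β u y v δ e s w V ≤ β ^ 2 / 4 * ((v - y) * (TX n a β u y v δ e s w V a / u ^ 2) +
      2 * v * δ * ϑ₀) := by
  have hn' : (0 : ℝ) < n := by exact_mod_cast hn
  have hv0 : 0 < v := hy.trans hyv
  have hKa : a ≤ KX a := by unfold KX; omega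
  have hTa0 : 0 ≤ TX n a β u y v δ e s w V a := TX_nonneg hn hm hKa
  have hTaϑ : TX n a β u y v δ e s w V a ≤ ϑ₀ * u ^ 2 :=
    (TX_mono hn hm (by omega) (by unfold KX; omega)).trans hϑ
  obtain ⟨Ta, hTa⟩ : ∃ x, x = TX n a β u y v δ e s w V a := ⟨_, rfl⟩
  rw [← hTa] at hTa0 hTaϑ ⊢
  have hp : ∀ l, l ≤ KX a → 0 ≤ mX a u y v δ (l + 1) - mX a u y v δ l := fun l hl => by
    linarith [hm.mono l hl]
  have h1 : ∑ l ∈ Finset.Ico 1 (3 * a + 2), (mX a u y v δ (l + 1) - mX a u y v δ l) *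
      (TX n a β u y v δ e s w V l - 1 / n) ≤
      (mX a u y v δ (a + 1) - mX a u y v δ 1) * Ta +
      (mX a u y v δ (3 * a + 2) - mX a u y v δ (a + 1)) * (ϑ₀ * u ^ 2) := by
    rw [← Finset.sum_Ico_consecutive _ (show 1 ≤ a + 1 by omega)
      (show a + 1 ≤ 3 * a + 2 by omega)]
    refine add_le_add ?_ ?_
    · rw [← Finset.sum_Ico_sub (fun i => mX a u y v δ i) (show 1 ≤ a + 1 by omega),
        Finset.sum_mul]
      refine Finset.sum_le_sum fun l hl => ?_
      rw [Finset.mem_Ico] at hl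
      refine mul_le_mul_of_nonneg_left ?_ (hp l (by unfold KX; omega))
      have h2 := TX_mono (β := β) (e := e) (s := s) (w := w) (V := V) hn hm
        (show l ≤ a by omega) hKa
      rw [← hTa] at h2
      have h3 : 0 ≤ 1 / (n : ℝ) := by positivity
      linarith
    · rw [← Finset.sum_Ico_sub (fun i => mX a u y v δ i) (show a + 1 ≤ 3 * a + 2 by omega),
        Finset.sum_mul]
      refine Finset.sum_le_sum fun l hl => ?_
      rw [Finset.mem_Ico] at hl
      refine mul_le_mul_of_nonneg_left ?_ (hp l (by unfold KX; omega))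
      have h2 := (TX_mono (β := β) (e := e) (s := s) (w := w) (V := V) hn hm
        (show l ≤ 3 * a + 1 by omega) (by unfold KX; omega)).trans hϑ
      have h3 : 0 ≤ 1 / (n : ℝ) := by positivity
      linarith
  have hmq := mX_q_le (a := a) (y := y) hu hv0 hδ
  have hmq0 := mX_q_ge (a := a) (y := y) hu hv0 hδ
  have hm1 := mX_one_ge (a := a) (u := u) (y := y) (v := v) ha1 hu.le hy.le hδ
  have hE : mX a u y v δ (3 * a + 2) = u * v := mX_E
  have h2 : (mX a u y v δ (a + 1) - mX a u y v δ 1) * Ta ≤ u * (v - y + y * δ) * Ta := by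
    refine mul_le_mul_of_nonneg_right ?_ hTa0
    have : u * (v - y + y * δ) = u * v - u * (y * (1 - δ)) := by ring
    linarith
  have h3 : (mX a u y v δ (3 * a + 2) - mX a u y v δ (a + 1)) * (ϑ₀ * u ^ 2) ≤
      u * (v * δ) * (ϑ₀ * u ^ 2) := by
    refine mul_le_mul_of_nonneg_right ?_ (by positivity)
    rw [hE]
    have : u * (v * (1 - δ)) = u * v - u * (v * δ) := by ring
    linarith
  have h4 : u * (v - y + y * δ) * Ta ≤ u * (v - y) * Ta + u * (v * δ) * (ϑ₀ * u ^ 2) := by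
    have h5 : u * (y * δ) * Ta ≤ u * (v * δ) * (ϑ₀ * u ^ 2) := by
      refine mul_le_mul ?_ hTaϑ hTa0 (by positivity)
      exact mul_le_mul_of_nonneg_left (mul_le_mul_of_nonneg_right hyv.le hδ) hu.le
    have : u * (v - y + y * δ) * Ta = u * (v - y) * Ta + u * (y * δ) * Ta := by ring
    linarith
  have hu3 : 0 < u ^ 3 := by positivity
  unfold thX
  rw [div_le_iff₀ hu3]
  have h5 : β ^ 2 / 4 * ((v - y) * (Ta / u ^ 2) + 2 * v * δ * ϑ₀) * u ^ 3 =
      β ^ 2 / 4 * (u * (v - y) * Ta + 2 * (u * (v * δ) * (ϑ₀ * u ^ 2))) := by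
    field_simp
  rw [h5]
  refine mul_le_mul_of_nonneg_left ?_ (by positivity)
  linarith

/-! ### real numbers -/

/-- the correction of the gap -/
lemma gap_fix {CU P δ v y : ℝ} (hCU : 0 ≤ CU) (hP : 0 ≤ P) (hδ : 0 ≤ δ) (hδ1 : δ ≤ 1 / 10)
    (hy : 0 < y) (hyv : y < v) :
    (v - y) / (4 * (v + (v * (1 - δ) - y)) ^ 2) * ((1 + CU * P) * P ^ 2) ≤
      (1 + (4 * CU + 3) * P) * ((v - y) / (4 * (2 * v - y) ^ 2) * P ^ 2) +
      (v - y) / (4 * (2 * v - y) ^ 2) * (3 * δ * (1 + CU)) := by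
  have hv : 0 < v := hy.trans hyv
  have hQ : 0 < 2 * v - y := by linarith
  have hvy : 0 ≤ v - y := by linarith
  have hQ1 : (2 * v - y) * (1 - δ) ≤ v + (v * (1 - δ) - y) := by nlinarith
  have hQ2 : 0 < (2 * v - y) * (1 - δ) := mul_pos hQ (by linarith)
  have h1 : (v - y) / (4 * (v + (v * (1 - δ) - y)) ^ 2) ≤
      (v - y) / (4 * (2 * v - y) ^ 2) * (1 + 3 * δ) := by
    have h2 : (v - y) / (4 * (v + (v * (1 - δ) - y)) ^ 2) ≤
        (v - y) / (4 * ((2 * v - y) * (1 - δ)) ^ 2) := by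
      refine div_le_div_of_nonneg_left hvy (by positivity) ?_
      have := pow_le_pow_left₀ hQ2.le hQ1 2
      linarith
    refine h2.trans ?_
    have e1 : (v - y) / (4 * ((2 * v - y) * (1 - δ)) ^ 2) =
        (v - y) / (4 * (2 * v - y) ^ 2) * (1 / (1 - δ) ^ 2) := by
      field_simp
    rw [e1]
    refine mul_le_mul_of_nonneg_left ?_ (by positivity)
    have hd : 0 < (1 - δ) ^ 2 := by
      have : 0 < 1 - δ := by linarith
      positivity
    rw [div_le_iff₀ hd]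
    have e2 : (1 + 3 * δ) * (1 - δ) ^ 2 = 1 + δ * (1 - 5 * δ + 3 * δ ^ 2) := by ring
    rw [e2]
    have : 0 ≤ δ * (1 - 5 * δ + 3 * δ ^ 2) := by
      refine mul_nonneg hδ ?_
      nlinarith [sq_nonneg δ]
    linarith
  obtain ⟨G, hG⟩ : ∃ G, G = (v - y) / (4 * (2 * v - y) ^ 2) := ⟨_, rfl⟩
  have hG0 : 0 ≤ G := by rw [hG]; positivity
  rw [← hG] at h1 ⊢
  have hX : 0 ≤ (1 + CU * P) * P ^ 2 := by positivity
  refine (mul_le_mul_of_nonneg_right h1 hX).trans ?_
  have e3 : (1 + (4 * CU + 3) * P) * (G * P ^ 2) + G * (3 * δ * (1 + CU)) -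
      G * (1 + 3 * δ) * ((1 + CU * P) * P ^ 2) =
      G * ((3 * CU + 3) * P ^ 3 + 3 * δ * (1 + CU) - 3 * δ * (P ^ 2 + CU * P ^ 3)) := by ring
  have h2 : P ^ 2 ≤ P ^ 3 + 1 := by
    rcases le_total P 1 with h | h
    · have h9 : P ^ 2 ≤ 1 := pow_le_one₀ hP h
      have h10 : 0 ≤ P ^ 3 := by positivity
      linarith
    · have h9 : P ^ 2 * 1 ≤ P ^ 2 * P := mul_le_mul_of_nonneg_left h (by positivity)
      have e : P ^ 3 = P ^ 2 * P := by ring
      rw [e]
      linarith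
  have h3 : 3 * δ * (P ^ 2 + CU * P ^ 3) ≤ (3 * CU + 3) * P ^ 3 + 3 * δ * (1 + CU) := by
    have h4 : 3 * δ * (P ^ 2 + CU * P ^ 3) ≤ 3 * δ * (P ^ 3 + 1 + CU * P ^ 3) :=
      mul_le_mul_of_nonneg_left (by linarith) (by positivity)
    have h5 : 3 * δ * ((1 + CU) * P ^ 3) ≤ 1 * ((1 + CU) * P ^ 3) :=
      mul_le_mul_of_nonneg_right (by linarith) (by positivity)
    have h6 : 0 ≤ 3 * δ * CU := by positivity
    have h7 : 0 ≤ (1 + CU) * P ^ 3 := by positivity
    have e4 : 3 * δ * (P ^ 3 + 1 + CU * P ^ 3) = 3 * δ * ((1 + CU) * P ^ 3) + 3 * δ := by ring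
    rw [e4] at h4
    linarith [show (3 * CU + 3) * P ^ 3 = 3 * ((1 + CU) * P ^ 3) by ring,
      show 3 * δ * (1 + CU) = 3 * δ + 3 * δ * CU by ring]
  have h4 := mul_nonneg hG0 (sub_nonneg.2 h3)
  have e5 : G * ((3 * CU + 3) * P ^ 3 + 3 * δ * (1 + CU) - 3 * δ * (P ^ 2 + CU * P ^ 3)) =
    G * ((3 * CU + 3) * P ^ 3 + 3 * δ * (1 + CU) - 3 * δ * (P ^ 2 + CU * P ^ 3)) := rfl
  rw [← e3] at h4
  linarith

end Vale.Agent.P146.H607
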