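import Vale.Agent.P146.H607.X6

set_option linter.all false

/-!
P146, lower half (helper607): the cross row, upper side (P4), at the bundled law (end).
-/

open MeasureTheory ProbabilityTheory Finset

namespace Vale.Agent.P146.H607

open Vale.Agent.P157.Lv Vale.Agent.P157.Lv.Sy
open Vale.Agent.P146.H93 (Cd st am aSK skS Em linS_sk)
open Vale.Agent.P146.H479
open Vale.Agent.P146.H295
open Vale.Agent.P146.H186 (cSK amp amp_mem wc)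
open Vale.Agent.P146.H758 (tv tv_Icc rst Ap Ex2 sel_box Pu)
open Vale.Agent.P146.H379.Row (bt2 Tt FdA ch FdA_le FdA_nonneg Tt_eq)
open Vale.Agent.P146.H877x (SB Hz Gd Gs eT uside_sk ur_sk Tt_le_good KV)
open Vale.Agent.P146.H93.Pnum (CU KU p4unit)

variable {n a : ℕ} {β u y v δ e s w T S : ℝ} {V : {p // p ∈ PX a} → ℝ}

/-- the second moments from the fourth -/
lemma two4 (hn : 0 < n) (hm : Em (KX a) (mX a u y v δ)) {C : ℝ} (hC : 0 ≤ C) (hu : 0 ≤ u) {l : ℕ}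
    (hl : l ≤ KX a)
    (h4 : (SX n a β u y v δ e s w V).pairEx l (fun x x' => Rov (spn n) x x' ^ 4) ≤ (C * u) ^ 4) :
    TX n a β u y v δ e s w V l ≤ C ^ 2 * u ^ 2 ∧ RX n a β u y v δ e s w V l ≤ C * u := by
  have hS : (SX n a β u y v δ e s w V).Reg := (linS_sk hm _ _).reg
  have h := pair_sq_le hS (l := l) hl (fun x y : Fin n → ℤˣ => Rov (spn n) x y ^ 2)
  have e4 : (fun x y : Fin n → ℤˣ => (Rov (spn n) x y ^ 2) ^ 2) =
      fun x y => Rov (spn n) x y ^ 4 := by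
    funext x y
    ring
  rw [e4] at h
  have h0 : 0 ≤ TX n a β u y v δ e s w V l := TX_nonneg hn hm hl
  have h1 : TX n a β u y v δ e s w V l ^ 2 ≤ (C ^ 2 * u ^ 2) ^ 2 := by
    refine (h.trans h4).trans (le_of_eq ?_)
    ring
  have hq0 : 0 ≤ C ^ 2 * u ^ 2 := by positivity
  have h2 := (sq_le_sq₀ h0 hq0).1 h1
  refine ⟨h2, ?_⟩
  have h3 := (RX_sq_le (β := β) (e := e) (s := s) (w := w) (V := V) hn hm hl).trans h2
  have h5 : RX n a β u y v δ e s w V l ^ 2 ≤ (C * u) ^ 2 := by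
    refine h3.trans (le_of_eq ?_)
    ring
  exact (sq_le_sq₀ (RX_nonneg hn hm hl) (by positivity)).1 h5

/-- the a priori numbers at a good level -/
lemma hzX (hu : 0 < u) (hV : ∀ p, 0 ≤ V p) {C4 dc k : ℝ} (hC4 : 0 < C4) (hC4u : C4 * u ≤ 1)
    (hdc : 0 < dc) (hdC : dc ≤ C4) (hβ : 1 ≤ β) (hk : ∑ p, V p ≤ k * u ^ 3)
    (hsm : 4 * (C4 * u) ^ 2 * (β ^ 2 + k * u ^ 3) ≤ 1 / 4) {l : ℕ} (hl : l ≤ 3 * a + 1)
    (hml : mX a u y v δ (l + 1) ≤ C4 * u) (hbt : bt2 n (bX n a β u e s) l ≤ β ^ 2)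
    (h4 : (SX n a β u y v δ e s w V).pairEx l (fun x x' => Rov (spn n) x x' ^ 4) ≤ (C4 * u) ^ 4)
    (h2 : (SX n a β u y v δ e s w V).pairEx l (fun x x' => (Rov (spn n) x x' -
      (SX n a β u y v δ e s w V).Rl (spn n) l) ^ 2) ≤ (dc * u) ^ 2) :
    Hz n (KX a) (mX a u y v δ) (bX n a β u e s) (amp (wX a u w) (PX a) V) l (C4 * u) (dc * u)
      (k * u ^ 3) (β ^ 2) where
  θ0 := by positivity
  θ1 := hC4u
  D0 := by positivity
  Dθ := mul_le_mul_of_nonneg_right hdC hu.le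
  mθ := hml
  κw := (SB_le hV hl).trans hk
  B1 := one_le_pow₀ hβ
  bB := hbt
  sm := hsm
  h4 := h4
  h2 := h2

/-- a good level -/
lemma gdX (hu : 0 < u) (hV : ∀ p, 0 < V p) {γ₀ π₀ R₀ : ℝ} (hπ : 0 < π₀)
    (hπV : π₀ ≤ v * δ / (2 * a + 2)) (hR₀ : 0 < R₀) (hR : ∀ p, R₀ * u ^ 3 ≤ V p)
    (hγ : ∀ l, 1 ≤ l → l ≤ 3 * a + 1 → gg (SX n a β u y v δ e s w V) (spn n)
      (zs (KX_pos (a := a))) (amp (wX a u w) (PX a) V) l l ≤ γ₀ * u ^ 4) {l : ℕ}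
    (h1 : a < l) (h2 : l ≤ 3 * a) :
    Gd n (KX a) (mX a u y v δ) (bX n a β u e s) (amp (wX a u w) (PX a) V) l (γ₀ * u ^ 4)
      (π₀ * u) (R₀ * u ^ 3) where
  l1 := by omega
  lK := by unfold KX; omega
  w0 := amp_pos hV (by omega) (by omega)
  w1 := amp_pos hV (by omega) (by omega)
  π0 := by positivity
  gap := gapV hu.le hπV h1 (by omega)
  R0 := by positivity
  fld := by
    have h : l + 1 ∈ PX a := by
      unfold PX
      rw [Finset.mem_Icc]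
      omega
    unfold amp
    rw [dif_pos h, Real.sq_sqrt (hV _).le]
    exact hR _
  g0 := hγ l (by omega) (by omega)
  g1 := hγ (l + 1) (by omega) (by omega)

/-- the constant of the U-side -/
noncomputable def CK (β : ℝ) : ℝ := KV ^ 2 * (60 * (β ^ 2) ^ 3)

lemma CK_nonneg : 0 ≤ CK β := by
  unfold CK
  positivity

/-- the numbers of the bundled law (all the a priori inputs of the U-side) -/
structure Nm (n a : ℕ) (β u y v δ e s w : ℝ) (V : {p // p ∈ PX a} → ℝ)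
    (C4 dc k R₀ γ₀ π₀ : ℝ) : Prop where
  hn : 0 < n
  ha : 3 ≤ a
  hu : 0 < u
  hy : 0 < y
  hyv : y < v * (1 - δ)
  hv2 : 1 / 2 ≤ v
  hδ : 0 ≤ δ
  hδ1 : δ < 1
  hv1 : u * v ≤ 1
  hβ : 1 ≤ β
  he : 0 < e
  hes : e ≤ s
  hsu : s * u ^ 2 ≤ 1 / 2
  hV : ∀ p, 0 < V p
  hC4 : v ≤ C4
  hC4u : C4 * u ≤ 1
  hdc : 0 < dc
  hdC : dc ≤ C4
  hk0 : 0 ≤ k
  hk : ∑ p, V p ≤ k * u ^ 3
  hsm : 4 * (C4 * u) ^ 2 * (β ^ 2 + k * u ^ 3) ≤ 1 / 4
  hκθ : k * u ^ 3 + β ^ 2 / n ≤ C4 * u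
  h4 : ∀ l, l ≤ 3 * a + 1 → (SX n a β u y v δ e s w V).pairEx l
    (fun x x' => Rov (spn n) x x' ^ 4) ≤ (C4 * u) ^ 4
  hπ : 0 < π₀
  hπV : π₀ ≤ v * δ / (2 * a + 2)
  hR₀ : 0 < R₀
  hR : ∀ p, R₀ * u ^ 3 ≤ V p
  hγ0 : 0 ≤ γ₀
  hγ : ∀ l, 1 ≤ l → l ≤ 3 * a + 1 → gg (SX n a β u y v δ e s w V) (spn n)
    (zs (KX_pos (a := a))) (amp (wX a u w) (PX a) V) l l ≤ γ₀ * u ^ 4
  hD : 5 * C4 ^ 2 / (a - 2) + 20 * γ₀ / π₀ ^ 2 ≤ dc ^ 2

section nm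

variable {C4 dc k R₀ γ₀ π₀ t δ₁ εT : ℝ}

lemma Nm.v0 (N : Nm n a β u y v δ e s w V C4 dc k R₀ γ₀ π₀) : 0 < v := by
  have := N.hv2
  linarith

lemma Nm.em (N : Nm n a β u y v δ e s w V C4 dc k R₀ γ₀ π₀) :
    Em (KX a) (mX a u y v δ) :=
  em_mX (by have := N.ha; omega) N.hu N.hy N.hyv.le N.hδ N.hδ1 N.hv1

lemma Nm.C40 (N : Nm n a β u y v δ e s w V C4 dc k R₀ γ₀ π₀) : 0 < C4 := by
  have := N.v0
  have := N.hC4
  linarith

lemma Nm.hs1 (N : Nm n a β u y v δ e s w V C4 dc k R₀ γ₀ π₀) : s * u ^ 2 ≤ 1 := by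
  have := N.hsu
  linarith

lemma Nm.mle (N : Nm n a β u y v δ e s w V C4 dc k R₀ γ₀ π₀) {l : ℕ} (hl : l ≤ 3 * a + 2) :
    mX a u y v δ l ≤ C4 * u := by
  have h1 : mX a u y v δ l ≤ mX a u y v δ (3 * a + 2) :=
    H758.em_mono N.em hl (by unfold KX; omega)
  have hmE : mX a u y v δ (3 * a + 2) = u * v := mX_E
  have h2 : u * v ≤ u * C4 := mul_le_mul_of_nonneg_left N.hC4 N.hu.le
  linarith

lemma Nm.tr (N : Nm n a β u y v δ e s w V C4 dc k R₀ γ₀ π₀) :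
    TX n a β u y v δ e s w V (3 * a + 1) ≤ C4 ^ 2 * u ^ 2 ∧
      RX n a β u y v δ e s w V (3 * a + 1) ≤ C4 * u :=
  two4 N.hn N.em N.C40.le N.hu.le (show 3 * a + 1 ≤ KX a by unfold KX; omega)
    (N.h4 (3 * a + 1) le_rfl)

/-- the good levels -/
lemma Nm.lv (N : Nm n a β u y v δ e s w V C4 dc k R₀ γ₀ π₀) :
    ∃ l0 l1, a + 1 ≤ l0 ∧ l0 < 2 * a ∧ 2 * a + 2 ≤ l1 ∧ l1 < 3 * a ∧
    Hz n (KX a) (mX a u y v δ) (bX n a β u e s) (amp (wX a u w) (PX a) V) l0 (C4 * u) (dc * u)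
      (k * u ^ 3) (β ^ 2) ∧
    Hz n (KX a) (mX a u y v δ) (bX n a β u e s) (amp (wX a u w) (PX a) V) l1 (C4 * u) (dc * u)
      (k * u ^ 3) (β ^ 2) := by
  have ha := N.ha
  have hu := N.hu
  have hs1 := N.hs1
  have he := N.he
  have hu2 : 0 < u ^ 2 := by positivity
  obtain ⟨hT1, hR1⟩ := N.tr
  obtain ⟨l0, hl01, hl02, hl0⟩ := goodX (D := dc) N.hn (by omega) hu N.em N.hV N.hπ N.hπV N.hγ
    (sq_nonneg C4) hT1 (a' := a + 1) (c' := 2 * a) (by omega) (by omega) (by omega) (by omega)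
    (by omega) N.hD
  obtain ⟨l1, hl11, hl12, hl1⟩ := goodX (D := dc) N.hn (by omega) hu N.em N.hV N.hπ N.hπV N.hγ
    (sq_nonneg C4) hT1 (a' := 2 * a + 2) (c' := 3 * a) (by omega) (by omega) (by omega)
    (by omega) (by omega) N.hD
  have hβ2 : 0 ≤ β ^ 2 := sq_nonneg β
  have hsu0 : 0 ≤ β ^ 2 * (s * u ^ 2) := by
    have := N.hes
    have : 0 < s := by linarith
    positivity
  refine ⟨l0, l1, hl01, hl02, hl11, hl12, ?_, ?_⟩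
  · refine hzX hu (fun p => (N.hV p).le) N.C40 N.hC4u N.hdc N.hdC N.hβ N.hk N.hsm (by omega)
      (N.mle (by omega)) ?_ (N.h4 l0 (by omega)) hl0
    rw [bt2_lo N.hn hs1 (by omega) (by omega)]
    linarith
  · refine hzX hu (fun p => (N.hV p).le) N.C40 N.hC4u N.hdc N.hdC N.hβ N.hk N.hsm (by omega)
      (N.mle (by omega)) ?_ (N.h4 l1 (by omega)) hl1
    rw [bt2_hi N.hn (by omega) hs1 he.le (by omega) (by omega)]
    have h1 : e * u ^ 2 ≤ s * u ^ 2 := mul_le_mul_of_nonneg_right N.hes hu2.le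
    have := mul_le_mul_of_nonneg_left h1 hβ2
    linarith

lemma Nm.gd (N : Nm n a β u y v δ e s w V C4 dc k R₀ γ₀ π₀) {l : ℕ} (h1 : a < l)
    (h2 : l ≤ 3 * a) : Gd n (KX a) (mX a u y v δ) (bX n a β u e s) (amp (wX a u w) (PX a) V) l
      (γ₀ * u ^ 4) (π₀ * u) (R₀ * u ^ 3) :=
  gdX N.hu N.hV N.hπ N.hπV N.hR₀ N.hR N.hγ h1 h2

lemma Nm.wid (N : Nm n a β u y v δ e s w V C4 dc k R₀ γ₀ π₀) :
    mX a u y v δ (3 * a + 2) - mX a u y v δ (a + 1) ≤ u * (v * δ) := by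
  have hmq0 := mX_q_ge (a := a) (y := y) N.hu N.v0 N.hδ
  rw [mX_E]
  have : u * (v * (1 - δ)) = u * v - u * (v * δ) := by ring
  linarith

/-- the sum below the gap -/
noncomputable def GX (n a : ℕ) (β u y v δ e s w : ℝ) (V : {p // p ∈ PX a} → ℝ) : ℝ :=
  Gs n (KX a) (mX a u y v δ) (bX n a β u e s) (amp (wX a u w) (PX a) V) (a + 1)

lemma Nm.G0 (N : Nm n a β u y v δ e s w V C4 dc k R₀ γ₀ π₀) :
    (v * (1 - δ) - y) * u * (β ^ 2 * (1 - s * u ^ 2)) * TX n a β u y v δ e s w V a ≤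
      GX n a β u y v δ e s w V ∧ 0 ≤ GX n a β u y v δ e s w V := by
  have hGs := Gs_ge (V := V) (w := w) (e := e) (s := s) (β := β) (y := y) (δ := δ) N.hn
    (by have := N.ha; omega) N.em N.hu N.v0 N.hδ N.hs1
  refine ⟨hGs, le_trans ?_ hGs⟩
  have h1 : 0 ≤ v * (1 - δ) - y := by
    have := N.hyv
    linarith
  have h2 : 0 ≤ 1 - s * u ^ 2 := by
    have := N.hs1
    linarith
  have h3 := TX_nonneg (β := β) (e := e) (s := s) (w := w) (V := V) N.hn N.em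
    (show a ≤ KX a by unfold KX; omega)
  have := N.hu
  positivity

/-- the error -/
noncomputable def eX (n a : ℕ) (β u v δ C4 dc k R₀ γ₀ π₀ t : ℝ) : ℝ :=
  eT n (C4 * u) (dc * u) (k * u ^ 3) (β ^ 2) (γ₀ * u ^ 4) (π₀ * u) (R₀ * u ^ 3) t (u * (v * δ))

lemma Nm.e0 (N : Nm n a β u y v δ e s w V C4 dc k R₀ γ₀ π₀) (ht : 0 < t) :
    0 ≤ eX n a β u v δ C4 dc k R₀ γ₀ π₀ t := by
  have h1 := N.C40
  have h2 := N.hdc
  have h3 := N.hk0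
  have h4 := N.hγ0
  have h5 := N.hπ
  have h6 := N.hR₀
  have h7 := N.v0
  have h8 := N.hδ
  have hu := N.hu
  exact H877x.eT_nonneg (by positivity) (by positivity) (by positivity) (by positivity)
    (by positivity) (by positivity) (by positivity) ht.le (by positivity)

/-- **the raw inequality of one good level** -/
lemma Nm.rU (N : Nm n a β u y v δ e s w V C4 dc k R₀ γ₀ π₀) (ht : 0 < t) (ht1 : t ≤ 1) {l0 : ℕ}
    (h1 : a + 1 ≤ l0) (h2 : l0 < 2 * a)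
    (H0 : Hz n (KX a) (mX a u y v δ) (bX n a β u e s) (amp (wX a u w) (PX a) V) l0 (C4 * u)
      (dc * u) (k * u ^ 3) (β ^ 2)) :
    chX n a β u y v δ e s w V (3 * a + 2) * (u * v * (β ^ 2 * (1 - s * u ^ 2)) *
      RX n a β u y v δ e s w V l0 ^ 2 + GX n a β u y v δ e s w V) ≤
    (β ^ 2 * (1 - s * u ^ 2) * chX n a β u y v δ e s w V (3 * a + 2) ^ 2 - 1) *
      RX n a β u y v δ e s w V l0 + CK β * (RX n a β u y v δ e s w V l0 ^ 3 +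
        dc * u * (C4 * u) ^ 2 + (C4 * u) ^ 4 + k * u ^ 3) + 16 * (k * u ^ 3) +
      eX n a β u v δ C4 dc k R₀ γ₀ π₀ t ∧
    TX n a β u y v δ e s w V a ≤ RX n a β u y v δ e s w V l0 ^ 2 + (dc * u) ^ 2 := by
  have hm := N.em
  have hn := N.hn
  have hb0 : bt2 n (bX n a β u e s) l0 = β ^ 2 * (1 - s * u ^ 2) :=
    bt2_lo hn N.hs1 (by omega) (by omega)
  have hUs := uside_sk hm hn (show 1 ≤ a + 1 by omega) h1 (show l0 < 3 * a + 2 by omega)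
    (show 3 * a + 2 ≤ KX a from le_rfl) (N.gd (by omega) (by omega)) ht ht1 N.wid
    (N.mle le_rfl) N.tr.2 H0
  have hTt := Tt_le_good hm hn KX_pos (show a ≤ l0 by omega) (show l0 ≤ KX a by unfold KX; omega)
    H0
  have hTa : Tt (skS n (KX a) (mX a u y v δ) (bX n a β u e s) (amp (wX a u w) (PX a) V)) a =
      TX n a β u y v δ e s w V a := Tt_eq hm hn (by unfold KX; omega)
  rw [hTa] at hTt
  rw [ch_chX, hb0, mX_E] at hUs
  have hFd := FdA_le hm (bX n a β u e s) (amp (wX a u w) (PX a) V) hn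
    (show l0 ≤ KX a by unfold KX; omega)
  have hSB : ∑ q : Fin l0, amp (wX a u w) (PX a) V (q + 1) ^ 2 ≤ k * u ^ 3 := by
    have h1 := (SB_le (u := u) (w := w) (fun p => (N.hV p).le)
      (show l0 ≤ 3 * a + 1 by omega)).trans N.hk
    unfold SB at h1
    rwa [← Fin.sum_univ_eq_sum_range (fun c => amp (wX a u w) (PX a) V (c + 1) ^ 2) l0] at h1
  refine ⟨hUs.trans ?_, hTt.2⟩
  have e1 : KV ^ 2 * (60 * (β ^ 2) ^ 3) = CK β := rfl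
  rw [e1]
  have e2 : eT n (C4 * u) (dc * u) (k * u ^ 3) (β ^ 2) (γ₀ * u ^ 4) (π₀ * u) (R₀ * u ^ 3) t
    (u * (v * δ)) = eX n a β u v δ C4 dc k R₀ γ₀ π₀ t := rfl
  rw [e2]
  have e3 : (skS n (KX a) (mX a u y v δ) (bX n a β u e s) (amp (wX a u w) (PX a) V)).Rl
    H325.sp l0 = RX n a β u y v δ e s w V l0 := rfl
  rw [e3]
  linarith

/-- **the raw inequality of two good levels** -/
lemma Nm.rR (N : Nm n a β u y v δ e s w V C4 dc k R₀ γ₀ π₀) (ht : 0 < t) (ht1 : t ≤ 1)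
    {l0 l1 : ℕ} (h1 : a + 1 ≤ l0) (h2 : l0 < 2 * a) (h3 : 2 * a + 2 ≤ l1) (h4 : l1 < 3 * a)
    (H0 : Hz n (KX a) (mX a u y v δ) (bX n a β u e s) (amp (wX a u w) (PX a) V) l0 (C4 * u)
      (dc * u) (k * u ^ 3) (β ^ 2))
    (H1 : Hz n (KX a) (mX a u y v δ) (bX n a β u e s) (amp (wX a u w) (PX a) V) l1 (C4 * u)
      (dc * u) (k * u ^ 3) (β ^ 2)) (hδ₁ : 0 < δ₁)
    (hχ : 0 ≤ chX n a β u y v δ e s w V (3 * a + 2))
    (h12 : 12 * ((C4 * u) ^ 2 * (β ^ 2 * (e * u ^ 2)) +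
      2 * eX n a β u v δ C4 dc k R₀ γ₀ π₀ t / (δ₁ * u)) <
      β ^ 2 * (e * u ^ 2) * chX n a β u y v δ e s w V (3 * a + 2) ^ 2) :
    RX n a β u y v δ e s w V l0 ≤ δ₁ * u ∨
    chX n a β u y v δ e s w V (3 * a + 2) * (u * v) * (β ^ 2 * (1 - s * u ^ 2)) *
      RX n a β u y v δ e s w V l0 ^ 2 ≤
    (2 * max (β ^ 2 * (1 - s * u ^ 2) * chX n a β u y v δ e s w V (3 * a + 2) ^ 2 - 1) 0 +
      6 * ((C4 * u) ^ 2 * (β ^ 2 * (e * u ^ 2)) +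
        2 * eX n a β u v δ C4 dc k R₀ γ₀ π₀ t / (δ₁ * u))) * RX n a β u y v δ e s w V l0 +
      48 * (k * u ^ 3) := by
  have hm := N.em
  have hn := N.hn
  have hu := N.hu
  have hs1 := N.hs1
  have hsu := N.hsu
  have hb0 : bt2 n (bX n a β u e s) l0 = β ^ 2 * (1 - s * u ^ 2) :=
    bt2_lo hn hs1 (by omega) (by omega)
  have hb1 : bt2 n (bX n a β u e s) l1 = β ^ 2 * (1 - s * u ^ 2) + β ^ 2 * (e * u ^ 2) :=
    bt2_hi hn (by omega) hs1 N.he.le (by omega) (by omega)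
  have hdb : bt2 n (bX n a β u e s) l1 - bt2 n (bX n a β u e s) l0 = β ^ 2 * (e * u ^ 2) := by
    rw [hb0, hb1]
    ring
  have hβ0 : 0 < β := by
    have := N.hβ
    linarith
  have hE : mX a u y v δ (3 * a + 2) = u * v := mX_E
  have hUr := ur_sk hm hn (show 1 ≤ a + 1 by omega) h1
    (show l0 < l1 by omega) (show l1 < 3 * a + 2 by omega)
    (show 3 * a + 2 ≤ KX a from le_rfl) (N.gd (by omega) (by omega)) (N.gd (by omega) (by omega))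
    ht ht1 N.wid (N.mle le_rfl)
    (by
      show mX a u y v δ (3 * a + 2) ≤ 2 * (C4 * u)
      have := N.mle (le_refl (3 * a + 2))
      have : 0 < C4 * u := mul_pos N.C40 hu
      linarith) N.tr.2 H0 H1 N.hκθ
    (by
      rw [hb0]
      have : 0 < 1 - s * u ^ 2 := by linarith
      positivity) (rs := δ₁ * u) (by positivity)
    (by
      rw [hdb, ch_chX]
      exact h12)
  rw [hdb, ch_chX, hb0, hE] at hUr
  have e2 : eT n (C4 * u) (dc * u) (k * u ^ 3) (β ^ 2) (γ₀ * u ^ 4) (π₀ * u) (R₀ * u ^ 3) t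
    (u * (v * δ)) = eX n a β u v δ C4 dc k R₀ γ₀ π₀ t := rfl
  have e3 : (skS n (KX a) (mX a u y v δ) (bX n a β u e s) (amp (wX a u w) (PX a) V)).Rl
    H325.sp l0 = RX n a β u y v δ e s w V l0 := rfl
  have e4 : Gs n (KX a) (mX a u y v δ) (bX n a β u e s) (amp (wX a u w) (PX a) V) (a + 1) =
    GX n a β u y v δ e s w V := rfl
  rw [e2, e3, e4] at hUr
  have hFd := FdA_le hm (bX n a β u e s) (amp (wX a u w) (PX a) V) hn
    (show l0 ≤ KX a by unfold KX; omega)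
  have hSB : ∑ q : Fin l0, amp (wX a u w) (PX a) V (q + 1) ^ 2 ≤ k * u ^ 3 := by
    have h1 := (SB_le (u := u) (w := w) (fun p => (N.hV p).le)
      (show l0 ≤ 3 * a + 1 by omega)).trans N.hk
    unfold SB at h1
    rwa [← Fin.sum_univ_eq_sum_range (fun c => amp (wX a u w) (PX a) V (c + 1) ^ 2) l0] at h1
  rcases hUr with h | h
  · exact Or.inl h
  · right
    refine h.trans ?_
    have hG0 := N.G0.2
    have hk := N.hk0
    have h5 : max (FdA n (KX a) (mX a u y v δ) (bX n a β u e s) (amp (wX a u w) (PX a) V) l0 -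
        chX n a β u y v δ e s w V (3 * a + 2) * GX n a β u y v δ e s w V) 0 ≤
        16 * (k * u ^ 3) := by
      refine max_le ?_ (by positivity)
      have := mul_nonneg hχ hG0
      linarith
    linarith

end nm

/-! ### unit numbers -/

/-- the assembly in real numbers -/
lemma p4fin {X ρ G Th ET C4 dc k δ₁ εT CKβ : ℝ} (hβ : 1 ≤ β) (hu : 0 < u) (he : 0 < e)
    (hes : e ≤ s) (hsu : s * u ^ 2 ≤ 1 / 2) (hv2 : 1 / 2 ≤ v) (hg : y < v * (1 - δ)) (hy : 0 < y)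
    (hδ : 0 ≤ δ) (hk0 : 0 ≤ k) (hX1 : X ≤ 1) (hX : 1 / 2 ≤ β * X) (hCK : 0 ≤ CKβ)
    (hρ0 : 0 ≤ ρ) (hδ10 : 0 < δ₁) (hδ11 : δ₁ ≤ 1)
    (hG : (v * (1 - δ) - y) * u * (β ^ 2 * (1 - s * u ^ 2)) * Th ≤ G)
    (hET : ET ≤ εT * u ^ 3)
    (hU : X * (u * v * (β ^ 2 * (1 - s * u ^ 2)) * ρ ^ 2 + G) ≤
      (β ^ 2 * (1 - s * u ^ 2) * X ^ 2 - 1) * ρ + CKβ * (ρ ^ 3 + dc * u * (C4 * u) ^ 2 +
        (C4 * u) ^ 4 + k * u ^ 3) + 16 * (k * u ^ 3) + ET)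
    (hT : Th ≤ ρ ^ 2 + (dc * u) ^ 2)
    (hR : ρ ≤ δ₁ * u ∨ X * (u * v) * (β ^ 2 * (1 - s * u ^ 2)) * ρ ^ 2 ≤
      (2 * max (β ^ 2 * (1 - s * u ^ 2) * X ^ 2 - 1) 0 +
        6 * ((C4 * u) ^ 2 * (β ^ 2 * (e * u ^ 2)) + 2 * ET / (δ₁ * u))) * ρ + 48 * (k * u ^ 3))
    (n1 : CKβ * (dc * C4 ^ 2 + C4 ^ 4 * u + k) + 16 * k + εT ≤ δ₁) (n2 : dc ^ 2 ≤ δ₁)
    (n3 : 6 * (C4 ^ 2 * β ^ 2 * e * u ^ 2 + 2 * εT / δ₁) ≤ δ₁) (n4 : 48 * k ≤ δ₁) :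
    Th / u ^ 2 ≤ (1 + CU β CKβ * max (2 * (β * X - 1) / u ^ 2 - s) 0) *
      (max (2 * (β * X - 1) / u ^ 2 - s) 0 / (β * (v + (v * (1 - δ) - y)))) ^ 2 +
      (KU CKβ (v * (1 - δ) - y) * δ₁ +
        6 * (s * u ^ 2) / (β * (v + (v * (1 - δ) - y))) ^ 2) := by
  have hu2 : 0 < u ^ 2 := by positivity
  have hu3 : 0 < u ^ 3 := by positivity
  have hs0 : 0 < s := by linarith
  have hv0 : 0 < v := by linarith
  have hE3 : (C4 * u) ^ 2 * (β ^ 2 * (e * u ^ 2)) + 2 * ET / (δ₁ * u) ≤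
      (C4 ^ 2 * β ^ 2 * e * u ^ 2 + 2 * εT / δ₁) * u ^ 2 := by
    have h1 : 2 * ET / (δ₁ * u) ≤ 2 * εT / δ₁ * u ^ 2 := by
      rw [div_le_iff₀ (by positivity)]
      have : 2 * εT / δ₁ * u ^ 2 * (δ₁ * u) = 2 * (εT * u ^ 3) := by field_simp
      rw [this]
      linarith
    have : (C4 * u) ^ 2 * (β ^ 2 * (e * u ^ 2)) = C4 ^ 2 * β ^ 2 * e * u ^ 2 * u ^ 2 := by ring
    rw [this, add_mul]
    linarith
  refine p4unit (β := β) (u := u) (s := s) (h := β * X - 1) (χ := X)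
    (B := β ^ 2 * (1 - s * u ^ 2)) (v := v) (g := v * (1 - δ) - y) (C := CKβ) (r := ρ)
    (Th := Th) (G := G)
    (E1 := CKβ * (dc * u * (C4 * u) ^ 2 + (C4 * u) ^ 4 + k * u ^ 3) + 16 * (k * u ^ 3) + ET)
    (E3 := 6 * ((C4 * u) ^ 2 * (β ^ 2 * (e * u ^ 2)) + 2 * ET / (δ₁ * u)))
    (E4 := 48 * (k * u ^ 3)) (D2 := (dc * u) ^ 2) (rs := δ₁ * u) (δ := δ₁)
    hβ hu hs0.le hsu (by linarith) (by ring) hX1 rfl hCK hv2 (by linarith) ?_ hρ0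
    hδ10.le hδ11 ?_ ?_ le_rfl ?_ ?_ hG ?_ hT ?_
  · have : 0 ≤ v * δ := by positivity
    linarith
  · have h1 : CKβ * (dc * u * (C4 * u) ^ 2 + (C4 * u) ^ 4 + k * u ^ 3) + 16 * (k * u ^ 3) + ET ≤
        (CKβ * (dc * C4 ^ 2 + C4 ^ 4 * u + k) + 16 * k + εT) * u ^ 3 := by
      have e1 : CKβ * (dc * u * (C4 * u) ^ 2 + (C4 * u) ^ 4 + k * u ^ 3) + 16 * (k * u ^ 3) =
        (CKβ * (dc * C4 ^ 2 + C4 ^ 4 * u + k) + 16 * k) * u ^ 3 := by ring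
      rw [e1, add_mul _ εT]
      linarith
    exact h1.trans (mul_le_mul_of_nonneg_right n1 hu3.le)
  · rw [mul_pow]
    exact mul_le_mul_of_nonneg_right n2 hu2.le
  · calc 6 * ((C4 * u) ^ 2 * (β ^ 2 * (e * u ^ 2)) + 2 * ET / (δ₁ * u)) ≤
          6 * ((C4 ^ 2 * β ^ 2 * e * u ^ 2 + 2 * εT / δ₁) * u ^ 2) := by linarith
      _ = 6 * (C4 ^ 2 * β ^ 2 * e * u ^ 2 + 2 * εT / δ₁) * u ^ 2 := by ring
      _ ≤ δ₁ * u ^ 2 := mul_le_mul_of_nonneg_right n3 hu2.le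
  · calc 48 * (k * u ^ 3) = 48 * k * u ^ 3 := by ring
      _ ≤ δ₁ * u ^ 3 := mul_le_mul_of_nonneg_right n4 hu3.le
  · have e3 : X * (v * u * (β ^ 2 * (1 - s * u ^ 2)) * ρ ^ 2 + G) =
        X * (u * v * (β ^ 2 * (1 - s * u ^ 2)) * ρ ^ 2 + G) := by ring
    rw [e3]
    have e1 : CKβ * (ρ ^ 3 + dc * u * (C4 * u) ^ 2 + (C4 * u) ^ 4 + k * u ^ 3) =
        CKβ * ρ ^ 3 + CKβ * (dc * u * (C4 * u) ^ 2 + (C4 * u) ^ 4 + k * u ^ 3) := by ring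
    rw [e1] at hU
    linarith
  · rcases hR with h | h
    · exact Or.inl h
    · right
      have e3 : X * (v * u * (β ^ 2 * (1 - s * u ^ 2)) * ρ ^ 2) =
          X * (u * v) * (β ^ 2 * (1 - s * u ^ 2)) * ρ ^ 2 := by ring
      rw [e3]
      exact h

/-- **the moment at the gap** -/
theorem momX {C4 dc k R₀ γ₀ π₀ t δ₁ εT : ℝ} (N : Nm n a β u y v δ e s w V C4 dc k R₀ γ₀ π₀)
    (ht : 0 < t) (ht1 : t ≤ 1) (hδ10 : 0 < δ₁) (hδ11 : δ₁ ≤ 1)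
    (heT : eX n a β u v δ C4 dc k R₀ γ₀ π₀ t ≤ εT * u ^ 3)
    (hχ : 1 / 2 ≤ β * chX n a β u y v δ e s w V (3 * a + 2))
    (n1 : CK β * (dc * C4 ^ 2 + C4 ^ 4 * u + k) + 16 * k + εT ≤ δ₁) (n2 : dc ^ 2 ≤ δ₁)
    (n3 : 6 * (C4 ^ 2 * β ^ 2 * e * u ^ 2 + 2 * εT / δ₁) ≤ δ₁) (n4 : 48 * k ≤ δ₁)
    (n5 : 12 * (C4 ^ 2 * β ^ 2 * e * u ^ 2 + 2 * εT / δ₁) < e / 4) :
    TX n a β u y v δ e s w V a / u ^ 2 ≤
      (1 + CU β (CK β) * max (alX n a β u y v δ e s w V - s) 0) *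
      (max (alX n a β u y v δ e s w V - s) 0 / (β * (v + (v * (1 - δ) - y)))) ^ 2 +
      (KU (CK β) (v * (1 - δ) - y) * δ₁ +
        6 * (s * u ^ 2) / (β * (v + (v * (1 - δ) - y))) ^ 2) := by
  have hu := N.hu
  have hu2 : 0 < u ^ 2 := by positivity
  have hβ0 : 0 < β := by
    have := N.hβ
    linarith
  have he := N.he
  obtain ⟨l0, l1, h1, h2, h3, h4, H0, H1⟩ := N.lv
  have hχ0 : 0 < chX n a β u y v δ e s w V (3 * a + 2) := by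
    by_contra h
    push Not at h
    have := mul_nonpos_of_nonneg_of_nonpos hβ0.le h
    linarith
  have hχ1 : chX n a β u y v δ e s w V (3 * a + 2) ≤ 1 := by
    rw [← ch_chX]
    exact (H379.Row.ch_mem (b := bX n a β u e s) (w := amp (wX a u w) (PX a) V) N.em N.hn
      (show 3 * a + 2 - 1 < KX a by unfold KX; omega)).2
  have hρ0 := RX_nonneg (β := β) (e := e) (s := s) (w := w) (V := V) N.hn N.em
    (show l0 ≤ KX a by unfold KX; omega)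
  obtain ⟨hU, hT⟩ := N.rU ht ht1 h1 h2 H0
  have h12 : 12 * ((C4 * u) ^ 2 * (β ^ 2 * (e * u ^ 2)) +
      2 * eX n a β u v δ C4 dc k R₀ γ₀ π₀ t / (δ₁ * u)) <
      β ^ 2 * (e * u ^ 2) * chX n a β u y v δ e s w V (3 * a + 2) ^ 2 := by
    have hE3 : (C4 * u) ^ 2 * (β ^ 2 * (e * u ^ 2)) +
        2 * eX n a β u v δ C4 dc k R₀ γ₀ π₀ t / (δ₁ * u) ≤
        (C4 ^ 2 * β ^ 2 * e * u ^ 2 + 2 * εT / δ₁) * u ^ 2 := by
      have h1 : 2 * eX n a β u v δ C4 dc k R₀ γ₀ π₀ t / (δ₁ * u) ≤ 2 * εT / δ₁ * u ^ 2 := by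
        rw [div_le_iff₀ (by positivity)]
        have : 2 * εT / δ₁ * u ^ 2 * (δ₁ * u) = 2 * (εT * u ^ 3) := by field_simp
        rw [this]
        linarith
      have : (C4 * u) ^ 2 * (β ^ 2 * (e * u ^ 2)) = C4 ^ 2 * β ^ 2 * e * u ^ 2 * u ^ 2 := by
        ring
      rw [this, add_mul]
      linarith
    have h6 : 12 * (C4 ^ 2 * β ^ 2 * e * u ^ 2 + 2 * εT / δ₁) * u ^ 2 < e / 4 * u ^ 2 :=
      mul_lt_mul_of_pos_right n5 hu2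
    have hχ2 : 1 / 4 ≤ β ^ 2 * chX n a β u y v δ e s w V (3 * a + 2) ^ 2 := by
      have := pow_le_pow_left₀ (by norm_num) hχ 2
      rw [mul_pow] at this
      linarith
    have h5 := mul_le_mul_of_nonneg_left hχ2 (by positivity : 0 ≤ e * u ^ 2)
    linarith
  have hR := N.rR ht ht1 h1 h2 h3 h4 H0 H1 hδ10 hχ0.le h12
  exact p4fin N.hβ hu he N.hes N.hsu N.hv2 N.hyv N.hy N.hδ N.hk0 hχ1 hχ CK_nonneg hρ0 hδ10 hδ11
    N.G0.1 heT hU hT hR n1 n2 n3 n4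

/-- **(P4): the cross row, upper side, in unit-scale numbers.** -/
theorem p4X {C4 dc k R₀ γ₀ π₀ t δ₁ εT : ℝ} (N : Nm n a β u y v δ e s w V C4 dc k R₀ γ₀ π₀)
    (hδ' : δ ≤ 1 / 10)
    (ht : 0 < t) (ht1 : t ≤ 1) (hδ10 : 0 < δ₁) (hδ11 : δ₁ ≤ 1)
    (heT : eX n a β u v δ C4 dc k R₀ γ₀ π₀ t ≤ εT * u ^ 3)
    (hχ : 1 / 2 ≤ β * chX n a β u y v δ e s w V (3 * a + 2))
    (n1 : CK β * (dc * C4 ^ 2 + C4 ^ 4 * u + k) + 16 * k + εT ≤ δ₁) (n2 : dc ^ 2 ≤ δ₁)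
    (n3 : 6 * (C4 ^ 2 * β ^ 2 * e * u ^ 2 + 2 * εT / δ₁) ≤ δ₁) (n4 : 48 * k ≤ δ₁)
    (n5 : 12 * (C4 ^ 2 * β ^ 2 * e * u ^ 2 + 2 * εT / δ₁) < e / 4) :
    thX n a β u y v δ e s w V ≤
      (1 + (4 * CU β (CK β) + 3) * max (alX n a β u y v δ e s w V - s) 0) *
      ((v - y) / (4 * (2 * v - y) ^ 2) * (max (alX n a β u y v δ e s w V - s) 0) ^ 2) +
      ((v - y) / (4 * (2 * v - y) ^ 2) * (3 * δ * (1 + CU β (CK β))) +
      β ^ 2 / 4 * ((v - y) * (KU (CK β) (v * (1 - δ) - y) * δ₁ +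
        6 * (s * u ^ 2) / (β * (v + (v * (1 - δ) - y))) ^ 2) + 2 * v * δ * C4 ^ 2)) := by
  have hmom := momX N ht ht1 hδ10 hδ11 heT hχ n1 n2 n3 n4 n5
  have hv0 := N.v0
  have hu := N.hu
  have hy := N.hy
  have hδ := N.hδ
  have hβ0 : 0 < β := by
    have := N.hβ
    linarith
  have hyv : y < v := by
    have := N.hyv
    have : 0 ≤ v * δ := by positivity
    linarith
  have hth := thX_le (V := V) (w := w) (e := e) (s := s) (β := β) N.hn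
    (by have := N.ha; omega) N.em hu hy hyv hδ (sq_nonneg C4) N.tr.1
  have hg : 0 < v + (v * (1 - δ) - y) := by
    have := N.hyv
    linarith
  have hCU : 0 ≤ CU β (CK β) := by
    unfold CU
    have := CK_nonneg (β := β)
    positivity
  obtain ⟨P, hP⟩ : ∃ x, x = max (alX n a β u y v δ e s w V - s) 0 := ⟨_, rfl⟩
  obtain ⟨e5, he5⟩ : ∃ x, x = KU (CK β) (v * (1 - δ) - y) * δ₁ +
        6 * (s * u ^ 2) / (β * (v + (v * (1 - δ) - y))) ^ 2 := ⟨_, rfl⟩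
  have hP0 : 0 ≤ P := by rw [hP]; exact le_max_right _ _
  rw [← hP, ← he5] at hmom ⊢
  have hfix := gap_fix (v := v) hCU hP0 hδ hδ' hy hyv
  have h1 : β ^ 2 / 4 * ((v - y) * (TX n a β u y v δ e s w V a / u ^ 2) +
      2 * v * δ * C4 ^ 2) ≤ β ^ 2 / 4 * ((v - y) * ((1 + CU β (CK β) * P) *
      (P / (β * (v + (v * (1 - δ) - y)))) ^ 2 + e5) + 2 * v * δ * C4 ^ 2) := by
    refine mul_le_mul_of_nonneg_left ?_ (by positivity)
    have := mul_le_mul_of_nonneg_left hmom (by linarith : 0 ≤ v - y)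
    linarith
  have h2 : β ^ 2 / 4 * ((v - y) * ((1 + CU β (CK β) * P) *
      (P / (β * (v + (v * (1 - δ) - y)))) ^ 2 + e5) + 2 * v * δ * C4 ^ 2) =
      (v - y) / (4 * (v + (v * (1 - δ) - y)) ^ 2) * ((1 + CU β (CK β) * P) * P ^ 2) +
      β ^ 2 / 4 * ((v - y) * e5 + 2 * v * δ * C4 ^ 2) := by
    field_simp
    ring
  linarith

end Vale.Agent.P146.H607
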