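import Vale.Agent.P146.H607.X9d
import Vale.Agent.P146.H97.CG2
import Vale.Agent.P146.H758.Num
import Vale.Agent.P146.H645x.BoxB
import Vale.Agent.P146.H444.Spec

set_option linter.all false

/-!
P146, lower half (helper607): **the cross rows from the box**.
-/

open MeasureTheory ProbabilityTheory Filter Topology

namespace Vale.Agent.P146.H607

open Vale.Agent.P157.Lv Vale.Agent.P157.Lv.Sy
open Vale.Agent.P146.H93 (Cd st am aSK skS Em linS_sk)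
open Vale.Agent.P146.H479
open Vale.Agent.P146.H758 (tv Ap Pu)
open Vale.Agent.P146.H93.Pnum (CU KU)
open Vale.Agent.P146.H985.S3 (CG GV sgl rt)
open Vale.Agent.P146.H97 (FRem)
open Vale.Agent.P146.U (P1 Ex2Out LStar)
open Vale.Agent.P146.H444 (CrsBox Bx)

variable {n : ℕ} {β u x V c c' aS D d κ₁ r C E E' A y Y V1 : ℝ}

/-! ### the inputs -/

lemma CG.mono' (h : CG n β x aS V c) (hc : c ≤ c') : CG n β x aS V c' := by
  intro K m b hm hK h1 h2 h3 h4 h5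
  exact (h K m b hm hK h1 h2 h3 h4 h5).trans (by linarith)

/-- (C-gen) in the letters of helper985 -/
lemma cg_of_rem (hF : FRem β D n) (hβ : 0 < β) (hn : 0 < n)
    (hx0 : (n : ℝ) ^ (-(1 / 6) : ℝ) ≤ x) (hx1 : x ≤ (n : ℝ) ^ (-(21 / 200) : ℝ)) (ha : 2 ≤ aS)
    (hax : 2 * aS * x ^ 2 ≤ 1 / 2) (hxβ : 4 * x ^ 2 ≤ β) (hV : 0 ≤ V) (hVx : V ≤ x) :
    CG n β x aS V (D * (n * x ^ 5) * ((2 * aS) ^ (-(1 / 1000) : ℝ) + 2 * aS * (V / x ^ 3) +
      1 / (n * x ^ 6))) := by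
  intro K m b hm hK h1 h2 h3 h4 h5
  have hw1 : rt (sgl 1 V) 1 ^ 2 = V := by
    unfold rt sgl
    rw [if_pos rfl, Real.sq_sqrt hV]
  have h := H97.gen_rem (w := rt (sgl 1 V)) (A := 2 * aS) hF hβ hn hx0 hx1 (by linarith) hax hxβ
    (by omega : 1 ≤ K) hm h1 (h2 K (by omega) le_rfl)
    (by
      rw [h5]
      refine le_of_eq ?_
      ring) h4
    (fun j h6 h7 => by
      unfold rt sgl
      rw [if_neg (by omega)]
      exact Real.sqrt_zero)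
    (by rw [hw1]; exact hVx)
  rw [hw1] at h
  have e1 : rt (fun _ => (0 : ℝ)) = fun _ => 0 := by
    funext j
    exact Real.sqrt_zero
  unfold GV
  rw [e1]
  have e2 : (n : ℝ) * V / (2 * β) = n / β / 2 * V := by field_simp
  rw [e2] at h
  linarith

lemma Ap.mono' (h : Ap n β y Y V1 A E) (hE : E ≤ E') : Ap n β y Y V1 A E' :=
  ⟨fun V h1 h2 => le_trans (by linarith) (h.lo V h1 h2),
    fun V h1 h2 => (h.up V h1 h2).trans (by linarith)⟩

/-- (C-gen) at the exponent of the first level -/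
lemma cg_small (hF : FRem β D n) (hβ : 1 ≤ β) (hn : 0 < n) (hu : 0 < u) (hD : 0 ≤ D)
    (hx0 : (n : ℝ) ^ (-(1 / 6) : ℝ) ≤ x) (hx1 : x ≤ (n : ℝ) ^ (-(21 / 200) : ℝ)) (ha : 2 ≤ aS)
    (hxu : x ≤ u) (hux : 1 / 2 * u ≤ x) (hau : 2 * aS * u ^ 2 < 1 / 2) (hu4 : 4 * u < 1)
    (hV : 0 ≤ V) (hκ₁ : κ₁ < 1 / 4) (hκ10 : 0 < κ₁) (hV1 : V ≤ 4 * κ₁ * u ^ 3)
    (hA : D * (2 * aS) ^ (-(1 / 1000) : ℝ) ≤ d / 64) (g5 : D * (64 * aS * κ₁) < d / 64)
    (u27 : D * (64 * (1 / (n * u ^ 6))) < d / 64) (hd : 0 < d) :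
    CG n β x aS V (d / 16 * (n * u ^ 5)) := by
  have hn' : (0 : ℝ) < n := by exact_mod_cast hn
  have hx : 0 < x := by linarith
  have hx2 : x ^ 2 ≤ u ^ 2 := pow_le_pow_left₀ hx.le hxu 2
  have hu2 : u ^ 2 ≤ 1 / 16 := by nlinarith
  refine CG.mono' (cg_of_rem hF (by linarith) hn hx0 hx1 ha ?_ ?_ hV ?_) ?_
  · have := mul_le_mul_of_nonneg_left hx2 (by linarith : 0 ≤ 2 * aS)
    linarith
  · linarith
  · have h1 : 4 * κ₁ * u ^ 3 ≤ 1 * (u ^ 2 * u) := by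
      have : u ^ 3 = u ^ 2 * u := by ring
      rw [this]
      exact mul_le_mul_of_nonneg_right (by linarith) (by positivity)
    have h2 : 1 * (u ^ 2 * u) ≤ 1 / 16 * u := by
      rw [one_mul]
      exact mul_le_mul_of_nonneg_right hu2 hu.le
    linarith
  · have hx5 : (n : ℝ) * x ^ 5 ≤ n * u ^ 5 :=
      mul_le_mul_of_nonneg_left (pow_le_pow_left₀ hx.le hxu 5) hn'.le
    have hx3 : u ^ 3 / 8 ≤ x ^ 3 := by
      have := pow_le_pow_left₀ (by positivity) hux 3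
      calc u ^ 3 / 8 = (1 / 2 * u) ^ 3 := by ring
        _ ≤ _ := this
    have hx6 : u ^ 6 / 64 ≤ x ^ 6 := by
      have := pow_le_pow_left₀ (by positivity) hux 6
      calc u ^ 6 / 64 = (1 / 2 * u) ^ 6 := by ring
        _ ≤ _ := this
    have b1 : V / x ^ 3 ≤ 32 * κ₁ := by
      rw [div_le_iff₀ (by positivity)]
      calc V ≤ 4 * κ₁ * u ^ 3 := hV1
        _ = 32 * κ₁ * (u ^ 3 / 8) := by ring
        _ ≤ 32 * κ₁ * x ^ 3 := mul_le_mul_of_nonneg_left hx3 (by positivity)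
    have b2 : 1 / ((n : ℝ) * x ^ 6) ≤ 64 * (1 / (n * u ^ 6)) := by
      have e1 : 64 * (1 / ((n : ℝ) * u ^ 6)) = 1 / (n * (u ^ 6 / 64)) := by field_simp
      rw [e1]
      refine div_le_div_of_nonneg_left zero_le_one (by positivity) ?_
      exact mul_le_mul_of_nonneg_left hx6 hn'.le
    have b3 : 0 ≤ (2 * aS) ^ (-(1 / 1000) : ℝ) := Real.rpow_nonneg (by linarith) _
    have hb : (2 * aS) ^ (-(1 / 1000) : ℝ) + 2 * aS * (V / x ^ 3) + 1 / (n * x ^ 6) ≤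
        (2 * aS) ^ (-(1 / 1000) : ℝ) + 64 * aS * κ₁ + 64 * (1 / (n * u ^ 6)) := by
      have := mul_le_mul_of_nonneg_left b1 (by linarith : 0 ≤ 2 * aS)
      linarith
    have hb0 : 0 ≤ (2 * aS) ^ (-(1 / 1000) : ℝ) + 2 * aS * (V / x ^ 3) + 1 / (n * x ^ 6) := by
      have : 0 ≤ 2 * aS := by linarith
      positivity
    have h1 : D * (n * x ^ 5) ≤ D * (n * u ^ 5) := mul_le_mul_of_nonneg_left hx5 hD
    calc D * (n * x ^ 5) * ((2 * aS) ^ (-(1 / 1000) : ℝ) + 2 * aS * (V / x ^ 3) +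
          1 / (n * x ^ 6)) ≤ D * (n * u ^ 5) * ((2 * aS) ^ (-(1 / 1000) : ℝ) +
          64 * aS * κ₁ + 64 * (1 / (n * u ^ 6))) :=
          mul_le_mul h1 hb hb0 (by positivity)
      _ = (D * (2 * aS) ^ (-(1 / 1000) : ℝ) + D * (64 * aS * κ₁) +
          D * (64 * (1 / (n * u ^ 6)))) * (n * u ^ 5) := by ring
      _ ≤ d / 16 * (n * u ^ 5) := mul_le_mul_of_nonneg_right (by linarith) (by positivity)

/-- powers of `n` -/
lemma ev_n {r : ℝ} (hr : 0 < r) : ∃ n0 : ℕ, 2 ≤ n0 ∧ ∀ n : ℕ, n0 ≤ n →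
    (n : ℝ) ^ (-(11 / 100) : ℝ) ≤ r ∧ 4 * (n : ℝ) ^ (-(11 / 100) : ℝ) ≤
      (n : ℝ) ^ (-(1 / 10) : ℝ) ∧ (n : ℝ) ^ (-(11 / 100) : ℝ) ≤ (n : ℝ) ^ (-(21 / 200) : ℝ) := by
  have h1 : Tendsto (fun n : ℕ => (n : ℝ) ^ (-(11 / 100) : ℝ)) atTop (nhds 0) :=
    (tendsto_rpow_neg_atTop (by norm_num)).comp tendsto_natCast_atTop_atTop
  have h2 : Tendsto (fun n : ℕ => (n : ℝ) ^ (-(1 / 100) : ℝ)) atTop (nhds 0) :=
    (tendsto_rpow_neg_atTop (by norm_num)).comp tendsto_natCast_atTop_atTop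
  obtain ⟨n0, h3⟩ := eventually_atTop.1 (((h1.eventually_le_const hr).and
    (h2.eventually_le_const (show (0 : ℝ) < 1 / 4 by norm_num))).and (eventually_ge_atTop 2))
  refine ⟨max n0 2, le_max_right _ _, fun n hn => ?_⟩
  obtain ⟨⟨h4, h5⟩, h6⟩ := h3 n ((le_max_left _ _).trans hn)
  have hn' : (0 : ℝ) < n := by exact_mod_cast (by omega : 0 < n)
  have hn1 : (1 : ℝ) ≤ n := by exact_mod_cast (by omega : 1 ≤ n)
  refine ⟨h4, ?_, ?_⟩
  · have e1 : (n : ℝ) ^ (-(11 / 100) : ℝ) = (n : ℝ) ^ (-(1 / 100) : ℝ) *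
        (n : ℝ) ^ (-(1 / 10) : ℝ) := by
      rw [← Real.rpow_add hn']
      norm_num
    rw [e1]
    have h7 : 0 ≤ (n : ℝ) ^ (-(1 / 10) : ℝ) := by positivity
    nlinarith
  · exact Real.rpow_le_rpow_of_exponent_le hn1 (by norm_num)

/-- **The cross rows from the box.** -/
theorem crsBox (hβ : 1 ≤ β) (h2 : Ex2Out β) (hL : LStar β) : CrsBox β := by
  have hβ0 : 0 < β := by linarith
  obtain ⟨Ch, nh, hCh, hnh, hinc⟩ := H758.hinc hβ0.le h2 hL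
  obtain ⟨D, nD, hD, hF⟩ := H97.cg hβ0 h2 hL
  have hCU : 0 ≤ CU β (CK β) := by
    unfold CU
    have := CK_nonneg (β := β)
    positivity
  refine ⟨4 * CU β (CK β) + 3, by linarith, fun κ hκ hκ1 => ⟨1, fun S hS => ⟨1 / 2, by norm_num,
    fun τ hτ hτ1 B d hB hd => ?_⟩⟩⟩
  obtain ⟨C4, dc, κ₁, κ₂, π₀, t, δ₁, εT, η, τ₃, ε₁, ε₂, aS, δ, a, N⟩ :=
    exists_kst (β := β) (κ := κ) (S := S) (e := τ) (E₀ := B + 1024 * Ch + 1) (D := D) (d := d)
      hβ hκ.le hκ1 (by linarith) hτ (by linarith) hd hD.le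
  obtain ⟨r, hr, hU⟩ := N.uc
  obtain ⟨n1, hn12, hn1⟩ := ev_n hr
  refine ⟨max 2 (1 / r), max (max nh nD) n1, fun n hn u hKu hu1 hbox => ?_⟩
  have hnh' : nh ≤ n := ((le_max_left _ _).trans (le_max_left _ _)).trans hn
  have hnD' : nD ≤ n := ((le_max_right _ _).trans (le_max_left _ _)).trans hn
  have hn1' : n1 ≤ n := (le_max_right _ _).trans hn
  obtain ⟨q1, q2, q3⟩ := hn1 n hn1'
  have hn2 : 2 ≤ n := hn12.trans hn1'
  have hn0 : 0 < n := by omega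
  have hn' : (0 : ℝ) < n := by exact_mod_cast hn0
  have hK2 : 2 ≤ max 2 (1 / r) := le_max_left _ _
  have hp : 0 < (n : ℝ) ^ (-(1 / 6) : ℝ) := by positivity
  have hu : 0 < u := lt_of_lt_of_le (by positivity) hKu
  have hu6 : 2 * (n : ℝ) ^ (-(1 / 6) : ℝ) ≤ u :=
    (mul_le_mul_of_nonneg_right hK2 hp.le).trans hKu
  have hnK := H97.nxK (K0 := max 2 (1 / r)) (by linarith) hn0 hKu
  have hKK : max 2 (1 / r) ≤ max 2 (1 / r) ^ 6 := by
    calc max 2 (1 / r) = max 2 (1 / r) ^ 1 := (pow_one _).symm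
      _ ≤ _ := pow_le_pow_right₀ (by linarith) (by norm_num)
  have hnu : 1 ≤ (n : ℝ) * u ^ 6 := by linarith
  have hg : 1 / ((n : ℝ) * u ^ 6) ≤ r := by
    have h1 : 1 / r ≤ n * u ^ 6 := (le_max_right _ _).trans (hKK.trans hnK)
    rw [div_le_iff₀ hr] at h1
    rw [div_le_iff₀ (by linarith)]
    linarith
  have U := hU u (1 / (n * u ^ 6)) hu.le (hu1.trans q1) (by positivity) hg
  have Cs := N.cst U hn2 hu hnu rfl
  have hm1 := num_m1 (κ := κ) hu hκ1 N.δ1.le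
  -- the a priori box
  have hA0 := H645x.ap_of_box (D := B) (C := Ch) (x := u * (51 / 100 * (1 - δ))) (y := 4 * u)
    hβ0 hu hCh.le hbox
    (fun x y h3 h4 h5 => hinc n hnh' x y (by linarith) h4 (by linarith))
    (by linarith [hm1.1]) (by
      have := N.δ0
      nlinarith) le_rfl
  have hA := Ap.mono' (E' := (B + 1024 * Ch + 1) * (n * u ^ 5)) hA0
    (mul_le_mul_of_nonneg_right (by linarith) (by positivity))
  refine Cs.crs hA fun V0 hV0 hV1 => ?_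
  have hx1 : mX a u (51 / 100) (1 + κ) δ 1 ≤ u := by
    refine (mX_one_le (by have := N.a3; omega) hu (by norm_num) N.δ0.le).trans ?_
    linarith
  have hx0 : 1 / 2 * u ≤ mX a u (51 / 100) (1 + κ) δ 1 :=
    hm1.1.trans (mX_one_ge (by have := N.a3; omega) hu.le (by norm_num) N.δ0.le)
  exact cg_small (hF n hnD') hβ hn0 hu hD.le (by linarith) (by linarith) N.aS2 hx1 hx0 U.u26 U.u1
    hV0 N.κ11 N.κ10 hV1 N.aSD N.g5 U.u27 hd

end Vale.Agent.P146.H607
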