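import Vale.Agent.P146.H607.X8

set_option linter.all false

/-!
P146, lower half (helper607): the choice of the constants of the cross rows.
-/

open Filter Topology

namespace Vale.Agent.P146.H607

open Vale.Agent.P146.H877x (eT KV)
open Vale.Agent.P146.H93.Pnum (CU KU)
open Vale.Agent.P146.H865 (Gc)

/-! ### small numbers -/

lemma ev1 {F : ℝ → ℝ} {c : ℝ} (hF : Continuous F) (h0 : F 0 < c) :
    ∀ᶠ x in 𝓝[>] (0 : ℝ), F x < c :=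
  ((hF.tendsto 0).mono_left nhdsWithin_le_nhds).eventually_lt_const h0

lemma pick {P : ℝ → Prop} (h : ∀ᶠ x in 𝓝[>] (0 : ℝ), P x) : ∃ x, 0 < x ∧ P x := by
  obtain ⟨x, h1, h2⟩ := (h.and self_mem_nhdsWithin).exists
  exact ⟨x, h2, h1⟩

lemma ev2 {F : ℝ × ℝ → ℝ} {c : ℝ} (hF : Continuous F) (h0 : F (0, 0) < c) :
    ∀ᶠ p in 𝓝 ((0 : ℝ), (0 : ℝ)), F p < c :=
  (hF.tendsto (0, 0)).eventually_lt_const h0

lemma pick2 {P : ℝ × ℝ → Prop} (h : ∀ᶠ p in 𝓝 ((0 : ℝ), (0 : ℝ)), P p) :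
    ∃ r, 0 < r ∧ ∀ u g : ℝ, 0 ≤ u → u ≤ r → 0 ≤ g → g ≤ r → P (u, g) := by
  obtain ⟨ε, hε, h1⟩ := Metric.eventually_nhds_iff.1 h
  refine ⟨ε / 2, by positivity, fun u g hu hu' hg hg' => h1 ?_⟩
  rw [Prod.dist_eq, Real.dist_eq, Real.dist_eq, sub_zero, sub_zero, abs_of_nonneg hu,
    abs_of_nonneg hg]
  exact max_lt (by linarith) (by linarith)

/-- a large number of levels -/
lemma pickN {M c : ℝ} (hM : 0 ≤ M) (hc : 0 < c) {M' c' : ℝ} (hM' : 0 ≤ M') (hc' : 0 < c') :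
    ∃ a : ℕ, 3 ≤ a ∧ M / ((a : ℝ) - 1) < c ∧ M' / ((a : ℝ) - 2) < c' := by
  obtain ⟨a, ha⟩ := exists_nat_gt (max (M / c) (M' / c') + 3)
  have h1 : M / c ≤ max (M / c) (M' / c') := le_max_left _ _
  have h2 : M' / c' ≤ max (M / c) (M' / c') := le_max_right _ _
  have h0 : 0 ≤ M / c := by positivity
  have h0' : 0 ≤ M' / c' := by positivity
  have ha3 : (3 : ℝ) < a := by linarith
  refine ⟨a, by exact_mod_cast ha3.le, ?_, ?_⟩
  · rw [div_lt_iff₀ (by linarith)]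
    have h3 : M / c < (a : ℝ) - 1 := by linarith
    rw [div_lt_iff₀ hc] at h3
    linarith
  · rw [div_lt_iff₀ (by linarith)]
    have h3 : M' / c' < (a : ℝ) - 2 := by linarith
    rw [div_lt_iff₀ hc'] at h3
    linarith

/-! ### the numbers in the two small variables `u` and `g = 1 / (n u⁶)` -/

/-- the constant of the error of 877's rows -/
noncomputable def ZK (β : ℝ) : ℝ := KV ^ 2 * (1000000000000 * (β ^ 2) ^ 5)

lemma ZK_nonneg (β : ℝ) : 0 ≤ ZK β := by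
  unfold ZK
  positivity

section eqs

variable {n a : ℕ} {β u g v δ C4 dc k R₀ γ₀ π₀ t y ϑ₀ τ e₀ E₀ κ₂ : ℝ}

lemma one_div_n (hn : 0 < n) (hu : 0 < u) (hg : g = 1 / (n * u ^ 6)) :
    (1 : ℝ) / n = g * u ^ 6 := by
  have hn' : (0 : ℝ) < n := by exact_mod_cast hn
  rw [hg]
  field_simp

lemma eX_eq (hn : 0 < n) (hu : 0 < u) (hg : g = 1 / (n * u ^ 6)) (ht : 0 < t) (hR : 0 < R₀)
    (hπ : 0 < π₀) : eX n a β u v δ C4 dc k R₀ γ₀ π₀ t = (ZK β * (γ₀ / π₀ + C4 * g * u / R₀ +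
      (dc * C4 ^ 2 + C4 ^ 4 * u + k * C4 ^ 2 * u ^ 2) / t + (t * C4 ^ 3 + k * C4 * u) +
      g * u ^ 3 + v * δ * C4 ^ 2)) * u ^ 3 := by
  have hn' : (0 : ℝ) < n := by exact_mod_cast hn
  unfold eX eT ZK
  rw [hg]
  field_simp

lemma errU_eq (hn : 0 < n) (hu : 0 < u) (hg : g = 1 / (n * u ^ 6)) :
    errU β v y δ ϑ₀ γ₀ π₀ τ e₀ n u a =
      β * (2 * v * (5 * ϑ₀ / (a - 1) + 20 * γ₀ / π₀ ^ 2) + 4 * γ₀ / π₀ + y * δ * ϑ₀) +
      (τ + β * v * g * u ^ 5) * √ϑ₀ + 3 * (e₀ * u + 2 * g * u) / τ +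
      16 * (e₀ * u ^ 3 + 2 * g * u ^ 3) := by
  have hn' : (0 : ℝ) < n := by exact_mod_cast hn
  have h1 : β * v / ((n : ℝ) * u) = β * v * g * u ^ 5 := by
    rw [hg]
    field_simp
  have h2 : 2 / ((n : ℝ) * u ^ 5) = 2 * g * u := by
    rw [hg]
    field_simp
  have h3 : 2 / ((n : ℝ) * u ^ 3) = 2 * g * u ^ 3 := by
    rw [hg]
    field_simp
  unfold errU
  rw [h1, h2, h3]

lemma gX_eq (hg : g = 1 / (n * u ^ 6)) : gX n u E₀ κ₂ = 128 * E₀ / κ₂ ^ 2 * g := by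
  unfold gX
  rw [hg]
  rw [div_mul_div_comm, mul_one]

end eqs

end Vale.Agent.P146.H607
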