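import Vale.Agent.P146.H607.X9a

set_option linter.all false

/-!
P146, lower half (helper607): the choice of the constants of the cross rows (the two lists).
-/

open Filter Topology

namespace Vale.Agent.P146.H607

open Vale.Agent.P146.H877x (eT KV)
open Vale.Agent.P146.H93.Pnum (CU KU)
open Vale.Agent.P146.H865 (Gc)

/-- the constants which do not depend on `n`, `u` -/
structure Kst (β κ S e E₀ D d C4 dc κ₁ κ₂ π₀ t δ₁ εT η τ₃ ε₁ ε₂ aS δ : ℝ) (a : ℕ) : Prop where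
  β1 : 1 ≤ β
  κ0 : 0 ≤ κ
  κ1 : κ ≤ 1 / 200
  eS : 2 * e ≤ S
  e0 : 0 < e
  E1 : 1 ≤ E₀
  d0 : 0 < d
  D0 : 0 ≤ D
  C4e : C4 = Q4 E₀ e
  C42 : 2 ≤ C4
  aS2 : 2 ≤ aS
  aSS : 4 * S ≤ aS
  aSD : D * (2 * aS) ^ (-(1 / 1000) : ℝ) ≤ d / 64
  δ10 : 0 < δ₁
  δ11 : δ₁ < 1
  a1 : β ^ 2 / 4 * ((1 + κ - 51 / 100) * (KU (CK β) (1 / 4) * δ₁)) < d / 8
  εT0 : 0 < εT
  b1 : 12 * (εT / δ₁) < δ₁ / 2
  b2 : 24 * (εT / δ₁) < e / 8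
  b3 : εT < δ₁ / 8
  t0 : 0 < t
  t1 : t < 1
  c1 : ZK β * (t * C4 ^ 3) < εT / 8
  dc0 : 0 < dc
  d1 : ZK β * (dc * C4 ^ 2 / t) < εT / 8
  d2 : CK β * (dc * C4 ^ 2) < δ₁ / 8
  d3 : dc ^ 2 < δ₁
  d4 : dc < C4
  ε20 : 0 < ε₂
  e1 : Gc (1 + κ) * (2 * (β * (2 * (1 + κ) - 51 / 100) * C4) * ε₂ + ε₂ ^ 2) < d / 4
  η0 : 0 < η
  η1 : η < 1
  f1 : β * (η * (2 * (1 + κ))) * C4 < ε₂ / 8
  κ10 : 0 < κ₁
  κ11 : κ₁ < 1 / 4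
  g1 : CK β * (4 * κ₁) < δ₁ / 8
  g2 : 16 * (4 * κ₁) < δ₁ / 8
  g3 : 48 * (4 * κ₁) < δ₁
  g4 : 2 * (4 * κ₁ * (5 + 320 * E₀ / (β ^ 2 * e) + 2 * E₀)) < d / 8
  g5 : D * (64 * aS * κ₁) < d / 64
  τ0 : 0 < τ₃
  h1 : τ₃ * C4 < η * (κ₁ / (100 * β ^ 2)) / 2 / 8
  δ0 : 0 < δ
  δ1 : δ < 1 / 100
  i1 : β * (51 / 100 * δ * C4 ^ 2) < η * (κ₁ / (100 * β ^ 2)) / 2 / 8
  i2 : ZK β * ((1 + κ) * δ * C4 ^ 2) < εT / 8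
  i3 : 2 * (δ * (2 * E₀)) < d / 8
  i4 : Gc (1 + κ) * (3 * δ * (1 + CU β (CK β))) < d / 8
  i5 : β ^ 2 / 4 * (2 * (1 + κ) * δ * C4 ^ 2) < d / 8
  i6 : β ^ 2 / 4 * ((1 + κ) * δ * C4 ^ 2) < d / 4
  i7 : β * (51 / 100 * δ) * C4 + 2 * β * ((1 + κ) * δ * C4) < ε₂ / 8
  a3 : 3 ≤ a
  j1 : β * (2 * (1 + κ) * (5 * C4 ^ 2 / (a - 1))) < η * (κ₁ / (100 * β ^ 2)) / 2 / 8
  j2 : 5 * C4 ^ 2 / (a - 2) < dc ^ 2 / 2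
  κ2e : κ₂ = κ₁ / (12 * a)
  π0e : π₀ = δ / (4 * a)
  ε10 : 0 < ε₁
  ε11 : ε₁ < 1 / 4
  k1 : ε₁ * S < ε₂ / 8

/-- the smallness in `u` and `g = 1 / (n u⁶)` -/
structure Uc (β κ S e E₀ D d C4 dc κ₁ κ₂ π₀ t δ₁ εT η τ₃ ε₁ ε₂ aS u g : ℝ) : Prop where
  u1 : 4 * u < 1
  u2 : S * u ^ 2 < 1 / 2
  u3 : C4 * u < 1
  u4 : 4 * (C4 * u) ^ 2 * (β ^ 2 + 4 * κ₁ * u ^ 3) < 1 / 4
  u5 : 4 * κ₁ * u ^ 2 + β ^ 2 * g * u ^ 5 < C4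
  u6 : 20 * (128 * E₀ / κ₂ ^ 2 * g) / π₀ ^ 2 < dc ^ 2 / 2
  u7 : ZK β * (128 * E₀ / κ₂ ^ 2 * g / π₀) < εT / 8
  u8 : ZK β * (C4 * g * u / κ₂) < εT / 8
  u9 : ZK β * ((C4 ^ 4 * u + 4 * κ₁ * C4 ^ 2 * u ^ 2) / t) < εT / 8
  u10 : ZK β * (4 * κ₁ * C4 * u) < εT / 8
  u11 : ZK β * (g * u ^ 3) < εT / 8
  u12 : CK β * (C4 ^ 4 * u) < δ₁ / 8
  u13 : 6 * (C4 ^ 2 * β ^ 2 * e * u ^ 2) < δ₁ / 2
  u14 : 12 * (C4 ^ 2 * β ^ 2 * e * u ^ 2) < e / 8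
  u15 : τ₃ * u ^ 2 < 1
  u16 : β * (2 * (1 + κ) * (20 * (128 * E₀ / κ₂ ^ 2 * g) / π₀ ^ 2)) <
    η * (κ₁ / (100 * β ^ 2)) / 2 / 8
  u17 : β * (4 * (128 * E₀ / κ₂ ^ 2 * g) / π₀) < η * (κ₁ / (100 * β ^ 2)) / 2 / 8
  u18 : β * (1 + κ) * g * u ^ 5 * C4 < η * (κ₁ / (100 * β ^ 2)) / 2 / 8
  u19 : 3 * (4 * E₀ * u + 2 * g * u) / τ₃ < η * (κ₁ / (100 * β ^ 2)) / 2 / 8
  u20 : 16 * (4 * E₀ * u ^ 3 + 2 * g * u ^ 3) < η * (κ₁ / (100 * β ^ 2)) / 2 / 8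
  u21 : 4 * β * E₀ * u ^ 2 / κ₂ < ε₁
  u22 : 2 * S ^ 2 * u ^ 2 < ε₂ / 8
  u23 : β ^ 2 / 4 * ((1 + κ) * g * u ^ 4) < d / 4
  u24 : β ^ 2 / 4 * ((1 + κ - 51 / 100) * (6 * (S * u ^ 2))) < d / 8
  u25 : aS * u ^ 2 < 1
  u26 : 2 * aS * u ^ 2 < 1 / 2
  u27 : D * (64 * g) < d / 64

section kst

variable {β κ S e E₀ D d C4 dc κ₁ κ₂ π₀ t δ₁ εT η τ₃ ε₁ ε₂ aS δ : ℝ} {a : ℕ}

lemma Kst.a0 (N : Kst β κ S e E₀ D d C4 dc κ₁ κ₂ π₀ t δ₁ εT η τ₃ ε₁ ε₂ aS δ a) :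
    (0 : ℝ) < a := by
  have := N.a3
  exact_mod_cast (by omega : 0 < a)

lemma Kst.κ20 (N : Kst β κ S e E₀ D d C4 dc κ₁ κ₂ π₀ t δ₁ εT η τ₃ ε₁ ε₂ aS δ a) : 0 < κ₂ := by
  rw [N.κ2e]
  have := N.a0
  have := N.κ10
  positivity

lemma Kst.π00 (N : Kst β κ S e E₀ D d C4 dc κ₁ κ₂ π₀ t δ₁ εT η τ₃ ε₁ ε₂ aS δ a) : 0 < π₀ := by
  rw [N.π0e]
  have := N.a0
  have := N.δ0
  positivity

lemma Kst.ζ0 (N : Kst β κ S e E₀ D d C4 dc κ₁ κ₂ π₀ t δ₁ εT η τ₃ ε₁ ε₂ aS δ a) :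
    0 < η * (κ₁ / (100 * β ^ 2)) / 2 / 8 := by
  have := N.η0
  have := N.κ10
  have := N.β1
  positivity

/-- first half of the list -/
lemma Kst.ev_a (N : Kst β κ S e E₀ D d C4 dc κ₁ κ₂ π₀ t δ₁ εT η τ₃ ε₁ ε₂ aS δ a) :
    ∀ᶠ p in 𝓝 ((0 : ℝ), (0 : ℝ)),
      (4 * p.1 < 1 ∧ S * p.1 ^ 2 < 1 / 2 ∧ C4 * p.1 < 1 ∧
      4 * (C4 * p.1) ^ 2 * (β ^ 2 + 4 * κ₁ * p.1 ^ 3) < 1 / 4 ∧
      4 * κ₁ * p.1 ^ 2 + β ^ 2 * p.2 * p.1 ^ 5 < C4 ∧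
      20 * (128 * E₀ / κ₂ ^ 2 * p.2) / π₀ ^ 2 < dc ^ 2 / 2 ∧
      ZK β * (128 * E₀ / κ₂ ^ 2 * p.2 / π₀) < εT / 8) ∧
      (ZK β * (C4 * p.2 * p.1 / κ₂) < εT / 8 ∧
      ZK β * ((C4 ^ 4 * p.1 + 4 * κ₁ * C4 ^ 2 * p.1 ^ 2) / t) < εT / 8 ∧
      ZK β * (4 * κ₁ * C4 * p.1) < εT / 8 ∧
      ZK β * (p.2 * p.1 ^ 3) < εT / 8 ∧
      CK β * (C4 ^ 4 * p.1) < δ₁ / 8 ∧
      6 * (C4 ^ 2 * β ^ 2 * e * p.1 ^ 2) < δ₁ / 2 ∧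
      12 * (C4 ^ 2 * β ^ 2 * e * p.1 ^ 2) < e / 8) := by
  have h1 := N.C42
  have h2 := N.dc0
  have h3 := N.εT0
  have h4 := N.δ10
  have h5 := N.e0
  refine Filter.Eventually.and (Filter.Eventually.and ?_ (Filter.Eventually.and ?_
    (Filter.Eventually.and ?_ (Filter.Eventually.and ?_ (Filter.Eventually.and ?_
    (Filter.Eventually.and ?_ ?_)))))) (Filter.Eventually.and ?_ (Filter.Eventually.and ?_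
    (Filter.Eventually.and ?_ (Filter.Eventually.and ?_ (Filter.Eventually.and ?_
    (Filter.Eventually.and ?_ ?_))))))
  · exact ev2 (F := fun p => 4 * p.1) (by fun_prop) (by simp)
  · exact ev2 (F := fun p => S * p.1 ^ 2) (by fun_prop) (by simp)
  · exact ev2 (F := fun p => C4 * p.1) (by fun_prop) (by simp)
  · exact ev2 (F := fun p => 4 * (C4 * p.1) ^ 2 * (β ^ 2 + 4 * κ₁ * p.1 ^ 3)) (by fun_prop)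
      (by simp)
  · exact ev2 (F := fun p => 4 * κ₁ * p.1 ^ 2 + β ^ 2 * p.2 * p.1 ^ 5) (by fun_prop)
      (by simp; linarith)
  · exact ev2 (F := fun p => 20 * (128 * E₀ / κ₂ ^ 2 * p.2) / π₀ ^ 2) (by fun_prop)
      (by simp; positivity)
  · exact ev2 (F := fun p => ZK β * (128 * E₀ / κ₂ ^ 2 * p.2 / π₀)) (by fun_prop)
      (by simp; positivity)
  · exact ev2 (F := fun p => ZK β * (C4 * p.2 * p.1 / κ₂)) (by fun_prop)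
      (by simp; positivity)
  · exact ev2 (F := fun p => ZK β * ((C4 ^ 4 * p.1 + 4 * κ₁ * C4 ^ 2 * p.1 ^ 2) / t))
      (by fun_prop) (by simp; positivity)
  · exact ev2 (F := fun p => ZK β * (4 * κ₁ * C4 * p.1)) (by fun_prop)
      (by simp; positivity)
  · exact ev2 (F := fun p => ZK β * (p.2 * p.1 ^ 3)) (by fun_prop)
      (by simp; positivity)
  · exact ev2 (F := fun p => CK β * (C4 ^ 4 * p.1)) (by fun_prop)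
      (by simp; positivity)
  · exact ev2 (F := fun p => 6 * (C4 ^ 2 * β ^ 2 * e * p.1 ^ 2)) (by fun_prop)
      (by simp; positivity)
  · exact ev2 (F := fun p => 12 * (C4 ^ 2 * β ^ 2 * e * p.1 ^ 2)) (by fun_prop)
      (by simp; positivity)

/-- second half of the list -/
lemma Kst.ev_b (N : Kst β κ S e E₀ D d C4 dc κ₁ κ₂ π₀ t δ₁ εT η τ₃ ε₁ ε₂ aS δ a) :
    ∀ᶠ p in 𝓝 ((0 : ℝ), (0 : ℝ)),
      (τ₃ * p.1 ^ 2 < 1 ∧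
      β * (2 * (1 + κ) * (20 * (128 * E₀ / κ₂ ^ 2 * p.2) / π₀ ^ 2)) <
        η * (κ₁ / (100 * β ^ 2)) / 2 / 8 ∧
      β * (4 * (128 * E₀ / κ₂ ^ 2 * p.2) / π₀) < η * (κ₁ / (100 * β ^ 2)) / 2 / 8 ∧
      β * (1 + κ) * p.2 * p.1 ^ 5 * C4 < η * (κ₁ / (100 * β ^ 2)) / 2 / 8 ∧
      3 * (4 * E₀ * p.1 + 2 * p.2 * p.1) / τ₃ < η * (κ₁ / (100 * β ^ 2)) / 2 / 8 ∧
      16 * (4 * E₀ * p.1 ^ 3 + 2 * p.2 * p.1 ^ 3) < η * (κ₁ / (100 * β ^ 2)) / 2 / 8) ∧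
      (4 * β * E₀ * p.1 ^ 2 / κ₂ < ε₁ ∧
      2 * S ^ 2 * p.1 ^ 2 < ε₂ / 8 ∧
      β ^ 2 / 4 * ((1 + κ) * p.2 * p.1 ^ 4) < d / 4 ∧
      β ^ 2 / 4 * ((1 + κ - 51 / 100) * (6 * (S * p.1 ^ 2))) < d / 8 ∧
      aS * p.1 ^ 2 < 1 ∧
      2 * aS * p.1 ^ 2 < 1 / 2 ∧
      D * (64 * p.2) < d / 64) := by
  have hζ := N.ζ0
  have h1 := N.ε10
  have h2 := N.ε20
  have h3 := N.d0
  refine Filter.Eventually.and (Filter.Eventually.and ?_ (Filter.Eventually.and ?_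
    (Filter.Eventually.and ?_ (Filter.Eventually.and ?_ (Filter.Eventually.and ?_
    ?_))))) (Filter.Eventually.and ?_ (Filter.Eventually.and ?_
    (Filter.Eventually.and ?_ (Filter.Eventually.and ?_ (Filter.Eventually.and ?_
    (Filter.Eventually.and ?_ ?_))))))
  · exact ev2 (F := fun p => τ₃ * p.1 ^ 2) (by fun_prop) (by simp)
  · exact ev2 (F := fun p => β * (2 * (1 + κ) * (20 * (128 * E₀ / κ₂ ^ 2 * p.2) / π₀ ^ 2)))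
      (by fun_prop) (by simpa using hζ)
  · exact ev2 (F := fun p => β * (4 * (128 * E₀ / κ₂ ^ 2 * p.2) / π₀)) (by fun_prop)
      (by simpa using hζ)
  · exact ev2 (F := fun p => β * (1 + κ) * p.2 * p.1 ^ 5 * C4) (by fun_prop)
      (by simpa using hζ)
  · exact ev2 (F := fun p => 3 * (4 * E₀ * p.1 + 2 * p.2 * p.1) / τ₃) (by fun_prop)
      (by simpa using hζ)
  · exact ev2 (F := fun p => 16 * (4 * E₀ * p.1 ^ 3 + 2 * p.2 * p.1 ^ 3)) (by fun_prop)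
      (by simpa using hζ)
  · exact ev2 (F := fun p => 4 * β * E₀ * p.1 ^ 2 / κ₂) (by fun_prop) (by simpa using h1)
  · exact ev2 (F := fun p => 2 * S ^ 2 * p.1 ^ 2) (by fun_prop) (by simp; positivity)
  · exact ev2 (F := fun p => β ^ 2 / 4 * ((1 + κ) * p.2 * p.1 ^ 4)) (by fun_prop)
      (by simp; positivity)
  · exact ev2 (F := fun p => β ^ 2 / 4 * ((1 + κ - 51 / 100) * (6 * (S * p.1 ^ 2))))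
      (by fun_prop) (by simp; positivity)
  · exact ev2 (F := fun p => aS * p.1 ^ 2) (by fun_prop) (by simp)
  · exact ev2 (F := fun p => 2 * aS * p.1 ^ 2) (by fun_prop) (by simp)
  · exact ev2 (F := fun p => D * (64 * p.2)) (by fun_prop) (by simp; positivity)

/-- **the list in `u` and `g`** -/
lemma Kst.uc (N : Kst β κ S e E₀ D d C4 dc κ₁ κ₂ π₀ t δ₁ εT η τ₃ ε₁ ε₂ aS δ a) :
    ∃ r, 0 < r ∧ ∀ u g : ℝ, 0 ≤ u → u ≤ r → 0 ≤ g → g ≤ r →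
      Uc β κ S e E₀ D d C4 dc κ₁ κ₂ π₀ t δ₁ εT η τ₃ ε₁ ε₂ aS u g := by
  obtain ⟨r, hr, h⟩ := pick2 (N.ev_a.and N.ev_b)
  refine ⟨r, hr, fun u g h1 h2 h3 h4 => ?_⟩
  obtain ⟨⟨⟨v1, v2, v3, v4, v5, v6, v7⟩, ⟨v8, v9, v10, v11, v12, v13, v14⟩⟩,
    ⟨⟨v15, v16, v17, v18, v19, v20⟩, ⟨v21, v22, v23, v24, v25, v26, v27⟩⟩⟩ := h u g h1 h2 h3 h4
  exact ⟨v1, v2, v3, v4, v5, v6, v7, v8, v9, v10, v11, v12, v13, v14, v15, v16, v17, v18, v19,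
    v20, v21, v22, v23, v24, v25, v26, v27⟩

end kst

end Vale.Agent.P146.H607
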