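import Vale.Agent.P146.H607.X9b

set_option linter.all false

/-!
P146, lower half (helper607): the choice of the constants of the cross rows (existence).
-/

open Filter Topology

namespace Vale.Agent.P146.H607

open Vale.Agent.P146.H877x (eT KV)
open Vale.Agent.P146.H93.Pnum (CU KU)
open Vale.Agent.P146.H865 (Gc)

lemma small_AS (D : ℝ) {c' : ℝ} (hc : 0 < c') (S : ℝ) :
    ∃ A : ℝ, 2 ≤ A ∧ 4 * S ≤ A ∧ D * (2 * A) ^ (-(1 / 1000) : ℝ) ≤ c' := by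
  have h1 : Filter.Tendsto (fun A : ℝ => D * A ^ (-(1 / 1000) : ℝ)) Filter.atTop
      (nhds (D * 0)) := (tendsto_rpow_neg_atTop (by norm_num)).const_mul D
  rw [mul_zero] at h1
  have h2 := (h1.eventually_le_const hc).and (Filter.eventually_ge_atTop (max 4 (8 * S)))
  obtain ⟨A, h3, h4⟩ := h2.exists
  have h5 : 4 ≤ A := (le_max_left _ _).trans h4
  have h6 : 8 * S ≤ A := (le_max_right _ _).trans h4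
  refine ⟨A / 2, by linarith, by linarith, ?_⟩
  rw [show 2 * (A / 2) = A by ring]
  exact h3

/-- first constants: `C4`, `aS`, `δ₁`, `εT`, `t`, `dc` -/
lemma ex_a {β κ S e E₀ D d : ℝ} (hβ : 1 ≤ β) (he : 0 < e) (hd : 0 < d) :
    ∃ C4 aS δ₁ εT t dc : ℝ, C4 = Q4 E₀ e ∧ 2 ≤ C4 ∧ (2 ≤ aS ∧ 4 * S ≤ aS ∧
      D * (2 * aS) ^ (-(1 / 1000) : ℝ) ≤ d / 64) ∧ (0 < δ₁ ∧ δ₁ < 1 ∧
      β ^ 2 / 4 * ((1 + κ - 51 / 100) * (KU (CK β) (1 / 4) * δ₁)) < d / 8) ∧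
      (0 < εT ∧ 12 * (εT / δ₁) < δ₁ / 2 ∧ 24 * (εT / δ₁) < e / 8 ∧ εT < δ₁ / 8) ∧
      (0 < t ∧ t < 1 ∧ ZK β * (t * C4 ^ 3) < εT / 8) ∧
      (0 < dc ∧ ZK β * (dc * C4 ^ 2 / t) < εT / 8 ∧ CK β * (dc * C4 ^ 2) < δ₁ / 8 ∧
        dc ^ 2 < δ₁ ∧ dc < C4) := by
  obtain ⟨C4, hC4⟩ : ∃ x, x = Q4 E₀ e := ⟨_, rfl⟩
  have hC42 : 2 ≤ C4 := by rw [hC4]; exact Q4_ge _ _
  obtain ⟨aS, h1, h2, h3⟩ := small_AS D (show 0 < d / 64 by positivity) S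
  obtain ⟨δ₁, hδ0, hδ1, hδ2⟩ := pick ((ev1 (F := fun x => x) (c := 1) (by fun_prop)
    (by norm_num)).and (ev1 (F := fun x => β ^ 2 / 4 * ((1 + κ - 51 / 100) *
    (KU (CK β) (1 / 4) * x))) (c := d / 8) (by fun_prop) (by simp; positivity)))
  obtain ⟨εT, hε0, ⟨hε1, hε2⟩, hε3⟩ := pick (((ev1 (F := fun x => 12 * (x / δ₁)) (c := δ₁ / 2)
    (by fun_prop) (by simp; positivity)).and (ev1 (F := fun x => 24 * (x / δ₁)) (c := e / 8)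
    (by fun_prop) (by simp; positivity))).and (ev1 (F := fun x => x) (c := δ₁ / 8)
    (by fun_prop) (by positivity)))
  obtain ⟨t, ht0, ht1, ht2⟩ := pick ((ev1 (F := fun x => x) (c := 1) (by fun_prop)
    (by norm_num)).and (ev1 (F := fun x => ZK β * (x * C4 ^ 3)) (c := εT / 8) (by fun_prop)
    (by simp; positivity)))
  obtain ⟨dc, hd0, ⟨hd1, hd2⟩, hd3, hd4⟩ := pick (((ev1 (F := fun x => ZK β * (x * C4 ^ 2 / t))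
    (c := εT / 8) (by fun_prop) (by simp; positivity)).and
    (ev1 (F := fun x => CK β * (x * C4 ^ 2)) (c := δ₁ / 8) (by fun_prop)
    (by simp; positivity))).and ((ev1 (F := fun x => x ^ 2) (c := δ₁) (by fun_prop)
    (by simp; positivity)).and (ev1 (F := fun x => x) (c := C4) (by fun_prop)
    (by linarith))))
  exact ⟨C4, aS, δ₁, εT, t, dc, hC4, hC42, ⟨h1, h2, h3⟩, ⟨hδ0, hδ1, hδ2⟩,
    ⟨hε0, hε1, hε2, hε3⟩, ⟨ht0, ht1, ht2⟩, ⟨hd0, hd1, hd2, hd3, hd4⟩⟩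

/-- `ε₂`, `η`, `κ₁`, `τ₃` -/
lemma ex_b {β κ S e E₀ D d C4 aS δ₁ : ℝ} (hβ : 1 ≤ β) (hd : 0 < d) (hδ₁ : 0 < δ₁) :
    ∃ ε₂ η κ₁ τ₃ : ℝ, (0 < ε₂ ∧
      Gc (1 + κ) * (2 * (β * (2 * (1 + κ) - 51 / 100) * C4) * ε₂ + ε₂ ^ 2) < d / 4) ∧
      (0 < η ∧ η < 1 ∧ β * (η * (2 * (1 + κ))) * C4 < ε₂ / 8) ∧
      (0 < κ₁ ∧ κ₁ < 1 / 4 ∧ CK β * (4 * κ₁) < δ₁ / 8 ∧ 16 * (4 * κ₁) < δ₁ / 8 ∧
        48 * (4 * κ₁) < δ₁ ∧ 2 * (4 * κ₁ * (5 + 320 * E₀ / (β ^ 2 * e) + 2 * E₀)) < d / 8 ∧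
        D * (64 * aS * κ₁) < d / 64) ∧
      (0 < τ₃ ∧ τ₃ * C4 < η * (κ₁ / (100 * β ^ 2)) / 2 / 8) := by
  obtain ⟨ε₂, hε0, hε1⟩ := pick (ev1 (F := fun x => Gc (1 + κ) * (2 * (β * (2 * (1 + κ) -
    51 / 100) * C4) * x + x ^ 2)) (c := d / 4) (by fun_prop) (by simp; positivity))
  obtain ⟨η, hη0, hη1, hη2⟩ := pick ((ev1 (F := fun x => x) (c := 1) (by fun_prop)
    (by norm_num)).and (ev1 (F := fun x => β * (x * (2 * (1 + κ))) * C4) (c := ε₂ / 8)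
    (by fun_prop) (by simp; positivity)))
  obtain ⟨κ₁, hk0, ⟨⟨hk1, hk2⟩, hk3⟩, ⟨hk4, hk5⟩, hk6⟩ := pick ((((ev1 (F := fun x => x)
    (c := 1 / 4) (by fun_prop) (by norm_num)).and (ev1 (F := fun x => CK β * (4 * x))
    (c := δ₁ / 8) (by fun_prop) (by simp; positivity))).and (ev1 (F := fun x => 16 * (4 * x))
    (c := δ₁ / 8) (by fun_prop) (by simp; positivity))).and (((ev1 (F := fun x => 48 * (4 * x))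
    (c := δ₁) (by fun_prop) (by simp; positivity)).and (ev1 (F := fun x => 2 * (4 * x *
    (5 + 320 * E₀ / (β ^ 2 * e) + 2 * E₀))) (c := d / 8) (by fun_prop)
    (by simp; positivity))).and (ev1 (F := fun x => D * (64 * aS * x)) (c := d / 64)
    (by fun_prop) (by simp; positivity))))
  have hζ : 0 < η * (κ₁ / (100 * β ^ 2)) / 2 / 8 := by positivity
  obtain ⟨τ₃, hτ0, hτ1⟩ := pick (ev1 (F := fun x => x * C4)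
    (c := η * (κ₁ / (100 * β ^ 2)) / 2 / 8) (by fun_prop) (by simpa using hζ))
  exact ⟨ε₂, η, κ₁, τ₃, ⟨hε0, hε1⟩, ⟨hη0, hη1, hη2⟩, ⟨hk0, hk1, hk2, hk3, hk4, hk5, hk6⟩,
    hτ0, hτ1⟩

/-- `δ`, `a`, `ε₁` -/
lemma ex_c {β κ S E₀ D d C4 εT η κ₁ ε₂ dc : ℝ} (hβ : 1 ≤ β) (hκ : 0 ≤ κ) (hd : 0 < d)
    (hεT : 0 < εT) (hη : 0 < η) (hκ₁ : 0 < κ₁) (hε₂ : 0 < ε₂) (hdc : 0 < dc) :
    ∃ (δ : ℝ) (a : ℕ) (ε₁ : ℝ), (0 < δ ∧ δ < 1 / 100 ∧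
      β * (51 / 100 * δ * C4 ^ 2) < η * (κ₁ / (100 * β ^ 2)) / 2 / 8 ∧
      ZK β * ((1 + κ) * δ * C4 ^ 2) < εT / 8 ∧ 2 * (δ * (2 * E₀)) < d / 8 ∧
      Gc (1 + κ) * (3 * δ * (1 + CU β (CK β))) < d / 8 ∧
      β ^ 2 / 4 * (2 * (1 + κ) * δ * C4 ^ 2) < d / 8 ∧
      β ^ 2 / 4 * ((1 + κ) * δ * C4 ^ 2) < d / 4 ∧
      β * (51 / 100 * δ) * C4 + 2 * β * ((1 + κ) * δ * C4) < ε₂ / 8) ∧
      (3 ≤ a ∧ β * (2 * (1 + κ) * (5 * C4 ^ 2 / ((a : ℝ) - 1))) <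
        η * (κ₁ / (100 * β ^ 2)) / 2 / 8 ∧ 5 * C4 ^ 2 / ((a : ℝ) - 2) < dc ^ 2 / 2) ∧
      (0 < ε₁ ∧ ε₁ < 1 / 4 ∧ ε₁ * S < ε₂ / 8) := by
  have hζ : 0 < η * (κ₁ / (100 * β ^ 2)) / 2 / 8 := by positivity
  obtain ⟨δ, hδ0, ⟨⟨h1, h2⟩, h3, h4⟩, ⟨⟨h5, h6⟩, h7, h8⟩⟩ := pick ((((ev1 (F := fun x => x)
    (c := 1 / 100) (by fun_prop) (by norm_num)).and (ev1 (F := fun x => β * (51 / 100 * x *
    C4 ^ 2)) (c := η * (κ₁ / (100 * β ^ 2)) / 2 / 8) (by fun_prop) (by simpa using hζ))).and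
    ((ev1 (F := fun x => ZK β * ((1 + κ) * x * C4 ^ 2)) (c := εT / 8) (by fun_prop)
    (by simp; positivity)).and (ev1 (F := fun x => 2 * (x * (2 * E₀))) (c := d / 8)
    (by fun_prop) (by simp; positivity)))).and (((ev1 (F := fun x => Gc (1 + κ) * (3 * x *
    (1 + CU β (CK β)))) (c := d / 8) (by fun_prop) (by simp; positivity)).and
    (ev1 (F := fun x => β ^ 2 / 4 * (2 * (1 + κ) * x * C4 ^ 2)) (c := d / 8) (by fun_prop)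
    (by simp; positivity))).and ((ev1 (F := fun x => β ^ 2 / 4 * ((1 + κ) * x * C4 ^ 2))
    (c := d / 4) (by fun_prop) (by simp; positivity)).and (ev1 (F := fun x =>
    β * (51 / 100 * x) * C4 + 2 * β * ((1 + κ) * x * C4)) (c := ε₂ / 8) (by fun_prop)
    (by simp; positivity)))))
  obtain ⟨a, ha3, ha1, ha2⟩ := pickN (M := β * (2 * (1 + κ) * (5 * C4 ^ 2)))
    (c := η * (κ₁ / (100 * β ^ 2)) / 2 / 8) (by positivity) hζ (M' := 5 * C4 ^ 2)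
    (c' := dc ^ 2 / 2) (by positivity) (by positivity)
  obtain ⟨ε₁, hε0, hε1, hε2⟩ := pick ((ev1 (F := fun x => x) (c := 1 / 4) (by fun_prop)
    (by norm_num)).and (ev1 (F := fun x => x * S) (c := ε₂ / 8) (by fun_prop)
    (by simp; positivity)))
  refine ⟨δ, a, ε₁, ⟨hδ0, h1, h2, h3, h4, h5, h6, h7, h8⟩, ⟨ha3, ?_, ha2⟩, hε0, hε1, hε2⟩
  refine lt_of_eq_of_lt ?_ ha1
  ring

/-- **existence of the constants** -/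
theorem exists_kst {β κ S e E₀ D d : ℝ} (hβ : 1 ≤ β) (hκ : 0 ≤ κ) (hκ1 : κ ≤ 1 / 200)
    (heS : 2 * e ≤ S) (he : 0 < e) (hE : 1 ≤ E₀) (hd : 0 < d) (hD : 0 ≤ D) :
    ∃ (C4 dc κ₁ κ₂ π₀ t δ₁ εT η τ₃ ε₁ ε₂ aS δ : ℝ) (a : ℕ),
      Kst β κ S e E₀ D d C4 dc κ₁ κ₂ π₀ t δ₁ εT η τ₃ ε₁ ε₂ aS δ a := by
  obtain ⟨C4, aS, δ₁, εT, t, dc, hC4, hC42, ⟨h1, h2, h3⟩, ⟨hδ0, hδ1, hδ2⟩,
    ⟨hε0, hε1, hε2, hε3⟩, ⟨ht0, ht1, ht2⟩, ⟨hd0, hd1, hd2, hd3, hd4⟩⟩ :=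
    ex_a (β := β) (κ := κ) (S := S) (e := e) (E₀ := E₀) (D := D) (d := d) hβ he hd
  obtain ⟨ε₂, η, κ₁, τ₃, ⟨hs0, hs1⟩, ⟨hη0, hη1, hη2⟩, ⟨hk0, hk1, hk2, hk3, hk4, hk5, hk6⟩,
    hτ0, hτ1⟩ := ex_b (β := β) (κ := κ) (S := S) (e := e) (E₀ := E₀) (D := D) (d := d)
    (C4 := C4) (aS := aS) hβ hd hδ0
  obtain ⟨δ, a, ε₁, ⟨hx0, hx1, hx2, hx3, hx4, hx5, hx6, hx7, hx8⟩, ⟨ha3, ha1, ha2⟩, hy0, hy1,
    hy2⟩ := ex_c (β := β) (κ := κ) (S := S) (E₀ := E₀) (D := D) (d := d) (C4 := C4)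
    hβ hκ hd hε0 hη0 hk0 hs0 hd0
  exact ⟨C4, dc, κ₁, κ₁ / (12 * a), δ / (4 * a), t, δ₁, εT, η, τ₃, ε₁, ε₂, aS, δ, a, hβ, hκ, hκ1,
    heS, he, hE, hd, hD, hC4, hC42, h1, h2, h3, hδ0, hδ1, hδ2, hε0, hε1, hε2, hε3, ht0, ht1, ht2,
    hd0, hd1, hd2, hd3, hd4, hs0, hs1, hη0, hη1, hη2, hk0, hk1, hk2, hk3, hk4, hk5, hk6, hτ0, hτ1,
    hx0, hx1, hx2, hx3, hx4, hx5, hx6, hx7, hx8, ha3, ha1, ha2, rfl, rfl, hy0, hy1, hy2⟩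

end Vale.Agent.P146.H607
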