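import Vale.Agent.P146.H607.X9c

set_option linter.all false

/-!
P146, lower half (helper607): from the two lists to `Cst`.
-/

open Filter Topology

namespace Vale.Agent.P146.H607

open Vale.Agent.P146.H877x (eT KV)
open Vale.Agent.P146.H93.Pnum (CU KU)
open Vale.Agent.P146.H865 (Gc)

section fin

variable {β κ S e E₀ D d C4 dc κ₁ κ₂ π₀ t δ₁ εT η τ₃ ε₁ ε₂ aS δ u g : ℝ} {a n : ℕ}

lemma Kst.f_eT (N : Kst β κ S e E₀ D d C4 dc κ₁ κ₂ π₀ t δ₁ εT η τ₃ ε₁ ε₂ aS δ a)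
    (U : Uc β κ S e E₀ D d C4 dc κ₁ κ₂ π₀ t δ₁ εT η τ₃ ε₁ ε₂ aS u g) (hn : 0 < n) (hu : 0 < u)
    (hg : g = 1 / (n * u ^ 6)) :
    eX n a β u (1 + κ) δ C4 dc (4 * κ₁) κ₂ (gX n u E₀ κ₂) π₀ t ≤ εT * u ^ 3 := by
  rw [eX_eq hn hu hg N.t0 N.κ20 N.π00, gX_eq hg]
  refine mul_le_mul_of_nonneg_right ?_ (by positivity)
  have e1 : ZK β * (128 * E₀ / κ₂ ^ 2 * g / π₀ + C4 * g * u / κ₂ +
      (dc * C4 ^ 2 + C4 ^ 4 * u + 4 * κ₁ * C4 ^ 2 * u ^ 2) / t + (t * C4 ^ 3 + 4 * κ₁ * C4 * u) +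
      g * u ^ 3 + (1 + κ) * δ * C4 ^ 2) =
      ZK β * (128 * E₀ / κ₂ ^ 2 * g / π₀) + ZK β * (C4 * g * u / κ₂) +
      ZK β * (dc * C4 ^ 2 / t) + ZK β * ((C4 ^ 4 * u + 4 * κ₁ * C4 ^ 2 * u ^ 2) / t) +
      ZK β * (t * C4 ^ 3) + ZK β * (4 * κ₁ * C4 * u) + ZK β * (g * u ^ 3) +
      ZK β * ((1 + κ) * δ * C4 ^ 2) := by ring
  rw [e1]
  have h1 := U.u7
  have h2 := U.u8
  have h3 := N.d1
  have h4 := U.u9
  have h5 := N.c1
  have h6 := U.u10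
  have h7 := U.u11
  have h8 := N.i2
  linarith

lemma Kst.f_err (N : Kst β κ S e E₀ D d C4 dc κ₁ κ₂ π₀ t δ₁ εT η τ₃ ε₁ ε₂ aS δ a)
    (U : Uc β κ S e E₀ D d C4 dc κ₁ κ₂ π₀ t δ₁ εT η τ₃ ε₁ ε₂ aS u g) (hn : 0 < n) (hu : 0 < u)
    (hg : g = 1 / (n * u ^ 6)) :
    errU β (1 + κ) (51 / 100) δ (C4 ^ 2) (gX n u E₀ κ₂) π₀ τ₃ (4 * E₀) n u a ≤
      η * (κ₁ / (100 * β ^ 2)) / 2 := by
  have hC : 0 ≤ C4 := by
    have := N.C42
    linarith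
  rw [errU_eq hn hu hg, gX_eq hg, Real.sqrt_sq hC]
  have e1 : β * (2 * (1 + κ) * (5 * C4 ^ 2 / (a - 1) + 20 * (128 * E₀ / κ₂ ^ 2 * g) / π₀ ^ 2) +
      4 * (128 * E₀ / κ₂ ^ 2 * g) / π₀ + 51 / 100 * δ * C4 ^ 2) =
      β * (2 * (1 + κ) * (5 * C4 ^ 2 / (a - 1))) +
      β * (2 * (1 + κ) * (20 * (128 * E₀ / κ₂ ^ 2 * g) / π₀ ^ 2)) +
      β * (4 * (128 * E₀ / κ₂ ^ 2 * g) / π₀) + β * (51 / 100 * δ * C4 ^ 2) := by ring
  have e2 : (τ₃ + β * (1 + κ) * g * u ^ 5) * C4 = τ₃ * C4 + β * (1 + κ) * g * u ^ 5 * C4 := by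
    ring
  rw [e1, e2]
  have h1 := N.j1
  have h2 := U.u16
  have h3 := U.u17
  have h4 := N.i1
  have h5 := N.h1
  have h6 := U.u18
  have h7 := U.u19
  have h8 := U.u20
  linarith

lemma Kst.f_e4 (N : Kst β κ S e E₀ D d C4 dc κ₁ κ₂ π₀ t δ₁ εT η τ₃ ε₁ ε₂ aS δ a)
    (U : Uc β κ S e E₀ D d C4 dc κ₁ κ₂ π₀ t δ₁ εT η τ₃ ε₁ ε₂ aS u g) (hu : 0 < u) :
    Gc (1 + κ) * (3 * δ * (1 + CU β (CK β))) + β ^ 2 / 4 * ((1 + κ - 51 / 100) *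
    (KU (CK β) ((1 + κ) * (1 - δ) - 51 / 100) * δ₁ + 6 * (S * u ^ 2) /
      (β * (1 + κ + ((1 + κ) * (1 - δ) - 51 / 100))) ^ 2) + 2 * (1 + κ) * δ * C4 ^ 2) ≤ d := by
  have hκ := N.κ0
  have hδ1 := N.δ1
  have hδ0 := N.δ0
  have hβ := N.β1
  have he := N.e0
  have heS := N.eS
  have hδ₁ := N.δ10
  have hS : 0 < S := by linarith
  have hg1 : 1 / 4 ≤ (1 + κ) * (1 - δ) - 51 / 100 := by nlinarith
  have h1 : KU (CK β) ((1 + κ) * (1 - δ) - 51 / 100) ≤ KU (CK β) (1 / 4) := by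
    unfold KU
    have : 4 / ((1 + κ) * (1 - δ) - 51 / 100) ≤ 4 / (1 / 4) :=
      div_le_div_of_nonneg_left (by norm_num) (by norm_num) hg1
    linarith
  have h2 : 6 * (S * u ^ 2) / (β * (1 + κ + ((1 + κ) * (1 - δ) - 51 / 100))) ^ 2 ≤
      6 * (S * u ^ 2) := by
    refine div_le_self (by positivity) ?_
    refine one_le_pow₀ ?_
    calc (1 : ℝ) = 1 * 1 := (one_mul 1).symm
      _ ≤ β * (1 + κ + ((1 + κ) * (1 - δ) - 51 / 100)) :=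
        mul_le_mul hβ (by linarith) (by norm_num) (by linarith)
  have h3 : (1 + κ - 51 / 100) * (KU (CK β) ((1 + κ) * (1 - δ) - 51 / 100) * δ₁ +
      6 * (S * u ^ 2) / (β * (1 + κ + ((1 + κ) * (1 - δ) - 51 / 100))) ^ 2) ≤
      (1 + κ - 51 / 100) * (KU (CK β) (1 / 4) * δ₁ + 6 * (S * u ^ 2)) := by
    refine mul_le_mul_of_nonneg_left ?_ (by linarith)
    have := mul_le_mul_of_nonneg_right h1 hδ₁.le
    linarith
  have h4 := mul_le_mul_of_nonneg_left h3 (by positivity : 0 ≤ β ^ 2 / 4)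
  have a1 := N.i4
  have a2 := N.a1
  have a3 := N.i5
  have a4 := U.u24
  have hd := N.d0
  have e1 : β ^ 2 / 4 * ((1 + κ - 51 / 100) * (KU (CK β) (1 / 4) * δ₁ + 6 * (S * u ^ 2))) =
      β ^ 2 / 4 * ((1 + κ - 51 / 100) * (KU (CK β) (1 / 4) * δ₁)) +
      β ^ 2 / 4 * ((1 + κ - 51 / 100) * (6 * (S * u ^ 2))) := by ring
  rw [e1] at h4
  rw [mul_add (β ^ 2 / 4)]
  linarith

/-- **the list of `Cst`** -/
theorem Kst.cst (N : Kst β κ S e E₀ D d C4 dc κ₁ κ₂ π₀ t δ₁ εT η τ₃ ε₁ ε₂ aS δ a)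
    (U : Uc β κ S e E₀ D d C4 dc κ₁ κ₂ π₀ t δ₁ εT η τ₃ ε₁ ε₂ aS u g) (hn : 2 ≤ n) (hu : 0 < u)
    (hnu : 1 ≤ n * u ^ 6) (hg : g = 1 / (n * u ^ 6)) :
    Cst n a β u κ δ e S E₀ C4 dc κ₁ κ₂ π₀ t δ₁ εT η τ₃ ε₁ ε₂ (d / 16) aS d := by
  have hn0 : 0 < n := by omega
  have hn' : (0 : ℝ) < n := by exact_mod_cast hn0
  have h1n := one_div_n hn0 hu hg
  have ha0 := N.a0
  have hδ0 := N.δ0
  have ha1 : (1 : ℝ) ≤ a := by
    have := N.a3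
    exact_mod_cast (by omega : 1 ≤ a)
  have hd := N.d0
  refine
    { hn := hn
      ha := N.a3
      hβ := N.β1
      hu := hu
      hu4 := U.u1.le
      hκ := N.κ0
      hκ1 := N.κ1
      hδ := N.δ0.le
      hδ1 := N.δ1.le
      he := N.e0
      hS := N.eS
      hSu := U.u2.le
      hE₀ := N.E1
      hC4 := N.C4e
      hC4u := U.u3.le
      hdc := N.dc0
      hdC := N.d4.le
      hκ1p := N.κ10
      hκ11 := N.κ11.le
      hκ2p := N.κ20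
      hκ12 := ?_
      hnu := hnu
      hsm := U.u4.le
      hκθ := ?_
      hπ := N.π00
      hπ1 := N.π0e.le
      hπ2 := ?_
      hD := ?_
      ht := N.t0
      ht1 := N.t1.le
      hδ10 := N.δ10
      hδ11 := N.δ11.le
      heT := N.f_eT U hn0 hu hg
      n1 := ?_
      n2 := N.d3.le
      n3 := ?_
      n4 := N.g3.le
      n5 := ?_
      hη := N.η0.le
      hη1 := N.η1.le
      hτ := N.τ0
      hτ1 := U.u15.le
      herr := N.f_err U hn0 hu hg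
      hε1 := U.u21.le
      hε11 := N.ε11.le
      hε2 := ?_
      e3 := ?_
      e4 := N.f_e4 U hu
      hc0 := by positivity
      eS := ?_
      haS := N.aSS
      haS1 := U.u25.le }
  · rw [N.κ2e]
    refine le_of_eq ?_
    field_simp
  · have h1 : β ^ 2 / (n : ℝ) = β ^ 2 * (g * u ^ 6) := by
      rw [← h1n]
      ring
    rw [h1]
    have h2 := mul_le_mul_of_nonneg_right U.u5.le hu.le
    calc 4 * κ₁ * u ^ 3 + β ^ 2 * (g * u ^ 6) = (4 * κ₁ * u ^ 2 + β ^ 2 * g * u ^ 5) * u := by ring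
      _ ≤ C4 * u := h2
  · rw [N.π0e]
    have h1 : δ / (4 * a) ≤ δ := div_le_self hδ0.le (by linarith)
    have := N.δ1
    linarith
  · rw [gX_eq hg]
    have := N.j2
    have := U.u6
    linarith
  · have h1 := N.d2
    have h2 := U.u12
    have h3 := N.g1
    have h4 := N.g2
    have h5 := N.b3
    have h6 := N.δ10
    have e1 : CK β * (dc * C4 ^ 2 + C4 ^ 4 * u + 4 * κ₁) = CK β * (dc * C4 ^ 2) +
      CK β * (C4 ^ 4 * u) + CK β * (4 * κ₁) := by ring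
    rw [e1]
    linarith
  · have h1 := N.b1
    have h2 := U.u13
    have e1 : 6 * (C4 ^ 2 * β ^ 2 * e * u ^ 2 + 2 * εT / δ₁) =
      6 * (C4 ^ 2 * β ^ 2 * e * u ^ 2) + 12 * (εT / δ₁) := by ring
    rw [e1]
    linarith
  · have h1 := N.b2
    have h2 := U.u14
    have e1 : 12 * (C4 ^ 2 * β ^ 2 * e * u ^ 2 + 2 * εT / δ₁) =
      12 * (C4 ^ 2 * β ^ 2 * e * u ^ 2) + 24 * (εT / δ₁) := by ring
    rw [e1]
    linarith
  · have h1 := N.i7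
    have h2 := N.f1
    have h3 := N.k1
    have h4 := U.u22
    have h5 := N.ε20
    have e1 : β * (51 / 100 * δ + η * (2 * (1 + κ))) * C4 = β * (51 / 100 * δ) * C4 +
      β * (η * (2 * (1 + κ))) * C4 := by ring
    rw [e1]
    linarith
  · have h1 := N.i6
    have h2 := U.u23
    have h3 := N.e1
    have h4 : (1 + κ) / ((n : ℝ) * u ^ 2) = (1 + κ) * g * u ^ 4 := by
      rw [hg]
      field_simp
    rw [h4, mul_add (β ^ 2 / 4)]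
    linarith
  · have h1 := N.g4
    have h2 := N.i3
    have e1 : 2 * (d / 16 + 4 * κ₁ * (5 + 320 * E₀ / (β ^ 2 * e) + 2 * E₀) + δ * (2 * E₀)) =
      d / 8 + 2 * (4 * κ₁ * (5 + 320 * E₀ / (β ^ 2 * e) + 2 * E₀)) + 2 * (δ * (2 * E₀)) := by ring
    rw [e1]
    linarith

end fin

end Vale.Agent.P146.H607
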